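import Mathlib

/-!
# Alternating words in an amalgam (row 191, module M0 / M5c)

* `AltProp B C` : no product of `≥ 2` elements taken alternately from `B \ C` and `C \ B` is in `B`.
* `altProp_pushout` : it holds for the two factors of an amalgamated product.
* `AltProp.prod_top` : it passes to `B × K`, `C × K` in `Γ × K`.
-/

set_option autoImplicit false

namespace Crest.Agent.R191

open Monoid Function

section General

variable {ι : Type*} {G : ι → Type*} [∀ i, Group (G i)] {H : Type*} [Group H]
  {φ : ∀ i, H →* G i}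

/-- A nonempty alternating word whose letters are not in the base group is not in the base group. -/
theorem alt_not_mem_base (hφ : ∀ i, Injective (φ i)) (L : List (Σ i, G i)) (hL : L ≠ [])
    (hchain : L.IsChain (fun a b => a.1 ≠ b.1)) (hred : ∀ g ∈ L, g.2 ∉ (φ g.1).range) :
    (L.map (fun g => PushoutI.of (φ := φ) g.1 g.2)).prod ∉ (PushoutI.base φ).range := by
  intro h
  have hne : ∀ g ∈ L, g.2 ≠ 1 := by
    intro g hg h1
    exact hred g hg (h1 ▸ one_mem _)
  let w : CoprodI.Word G := ⟨L, hne, hchain⟩
  have hw : PushoutI.Reduced φ w := hred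
  have hp : PushoutI.ofCoprodI (φ := φ) w.prod =
      (L.map (fun g => PushoutI.of (φ := φ) g.1 g.2)).prod := by
    simp only [CoprodI.Word.prod, w, map_list_prod, List.map_map]
    rfl
  have he := hw.eq_empty_of_mem_range hφ (hp ▸ h)
  have : w.toList = [] := by rw [he]; rfl
  exact hL this

/-- An alternating word of length `≥ 2` whose letters are not in the base group is not in any
factor. -/
theorem alt_not_mem_range (hφ : ∀ i, Injective (φ i)) (L : List (Σ i, G i)) (hL : 2 ≤ L.length)
    (hchain : L.IsChain (fun a b => a.1 ≠ b.1)) (hred : ∀ g ∈ L, g.2 ∉ (φ g.1).range) (i : ι) :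
    (L.map (fun g => PushoutI.of (φ := φ) g.1 g.2)).prod ∉ (PushoutI.of (φ := φ) i).range := by
  rintro ⟨b, hb⟩
  match L, hL with
  | g :: g' :: L', _ =>
    by_cases hbr : b ∈ (φ i).range
    · obtain ⟨h, rfl⟩ := hbr
      rw [PushoutI.of_apply_eq_base] at hb
      exact alt_not_mem_base hφ _ (by simp) hchain hred ⟨h, hb⟩
    · obtain ⟨j, g⟩ := g
      by_cases hj : j = i
      · subst hj
        have hprod : (PushoutI.of (φ := φ) j (b⁻¹ * g)) *
            ((g' :: L').map (fun g => PushoutI.of (φ := φ) g.1 g.2)).prod = 1 := by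
          rw [map_mul, map_inv, hb, mul_assoc, List.map_cons, List.prod_cons]
          exact inv_mul_cancel _
        by_cases hg : b⁻¹ * g ∈ (φ j).range
        · obtain ⟨h, hh⟩ := hg
          rw [← hh, PushoutI.of_apply_eq_base] at hprod
          refine alt_not_mem_base hφ (g' :: L') (by simp) (List.isChain_cons_cons.mp hchain).2
            (fun x hx => hred x (List.mem_cons_of_mem _ hx)) ⟨h⁻¹, ?_⟩
          rw [map_inv]
          exact inv_eq_of_mul_eq_one_right hprod
        · refine alt_not_mem_base hφ (⟨j, b⁻¹ * g⟩ :: g' :: L') (by simp) ?_ ?_ ⟨1, ?_⟩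
          · rw [List.isChain_cons_cons] at hchain ⊢
            exact hchain
          · intro x hx
            rcases List.mem_cons.mp hx with rfl | hx
            · exact hg
            · exact hred x (List.mem_cons_of_mem _ hx)
          · rw [map_one, List.map_cons, List.prod_cons]
            exact hprod.symm
      · refine alt_not_mem_base hφ (⟨i, b⁻¹⟩ :: ⟨j, g⟩ :: g' :: L') (by simp) ?_ ?_ ⟨1, ?_⟩
        · rw [List.isChain_cons_cons]
          exact ⟨fun h => hj h.symm, hchain⟩
        · intro x hx
          rcases List.mem_cons.mp hx with rfl | hx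
          · intro h
            exact hbr (by simpa using inv_mem h)
          · exact hred x hx
        · rw [map_one, List.map_cons, List.prod_cons, map_inv, hb]
          exact (inv_mul_cancel _).symm

end General

section Sub

variable {Γ : Type*} [Group Γ]

/-- No product of at least two elements taken alternately from `B \ C` and `C \ B` lies in `B`. -/
def AltProp (B C : Subgroup Γ) : Prop :=
  ∀ L : List Γ, 2 ≤ L.length → (∀ g ∈ L, (g ∈ B ∨ g ∈ C) ∧ ¬ (g ∈ B ∧ g ∈ C)) →
    L.IsChain (fun a b => (a ∈ B ↔ b ∈ C)) → L.prod ∉ B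

theorem AltProp.prod_top {B C : Subgroup Γ} (h : AltProp B C) (K : Type*) [Group K] :
    AltProp (B.prod (⊤ : Subgroup K)) (C.prod (⊤ : Subgroup K)) := by
  intro L hL hmem hchain hprod
  refine h (L.map Prod.fst) (by simpa using hL) ?_ ?_ ?_
  · intro g hg
    obtain ⟨x, hx, rfl⟩ := List.mem_map.mp hg
    simpa [Subgroup.mem_prod] using hmem x hx
  · rw [List.isChain_map]
    refine hchain.imp ?_
    intro a b hab
    simpa [Subgroup.mem_prod] using hab
  · have h1 : L.prod.1 = (L.map Prod.fst).prod := by
      have := map_list_prod (MonoidHom.fst Γ K) L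
      simpa using this
    rw [← h1]
    exact (Subgroup.mem_prod.mp hprod).1

end Sub

section Pushout

variable {G : Bool → Type*} [∀ i, Group (G i)] {H : Type*} [Group H]
  {φ : ∀ i, H →* G i}

theorem altProp_pushout (hφ : ∀ i, Injective (φ i)) (i : Bool) :
    AltProp (PushoutI.of (φ := φ) i).range (PushoutI.of (φ := φ) (!i)).range := by
  classical
  have hinf : ∀ g : PushoutI φ, (g ∈ (PushoutI.of (φ := φ) i).range ∧
      g ∈ (PushoutI.of (φ := φ) (!i)).range) ↔ g ∈ (PushoutI.base φ).range := by
    intro g
    rw [← PushoutI.inf_of_range_eq_base_range hφ (i := i) (j := !i) (by cases i <;> decide)]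
    exact Iff.rfl
  -- lift every letter
  have hlift : ∀ L : List (PushoutI φ), (∀ g ∈ L, (g ∈ (PushoutI.of (φ := φ) i).range ∨
      g ∈ (PushoutI.of (φ := φ) (!i)).range) ∧ ¬ (g ∈ (PushoutI.of (φ := φ) i).range ∧
      g ∈ (PushoutI.of (φ := φ) (!i)).range)) →
      ∃ M : List (Σ j, G j), M.map (fun g => PushoutI.of (φ := φ) g.1 g.2) = L ∧
        (∀ g ∈ M, g.2 ∉ (φ g.1).range) := by
    intro L
    induction L with
    | nil => intro _; exact ⟨[], rfl, by simp⟩
    | cons g L ih =>
      intro hL
      obtain ⟨M, hM, hM2⟩ := ih (fun x hx => hL x (List.mem_cons_of_mem _ hx))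
      obtain ⟨hor, hnot⟩ := hL g List.mem_cons_self
      rw [hinf] at hnot
      have key : ∃ x : Σ j, G j, PushoutI.of (φ := φ) x.1 x.2 = g := by
        rcases hor with ⟨x, hx⟩ | ⟨x, hx⟩
        · exact ⟨⟨_, x⟩, hx⟩
        · exact ⟨⟨_, x⟩, hx⟩
      obtain ⟨x, hx⟩ := key
      refine ⟨x :: M, ?_, ?_⟩
      · rw [List.map_cons, hx, hM]
      · intro y hy
        rcases List.mem_cons.mp hy with rfl | hy
        · rintro ⟨h, hh⟩
          apply hnot
          refine ⟨h, ?_⟩
          rw [← hx, ← hh, PushoutI.of_apply_eq_base]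
        · exact hM2 y hy
  intro L hlen hmem hchain
  obtain ⟨M, hM, hM2⟩ := hlift L hmem
  have hchain2 : M.IsChain (fun a b => a.1 ≠ b.1) := by
    rw [← hM, List.isChain_map] at hchain
    have hall : ∀ x ∈ M, ¬ ((PushoutI.of (φ := φ) x.1 x.2) ∈ (PushoutI.of (φ := φ) i).range ∧
      (PushoutI.of (φ := φ) x.1 x.2) ∈ (PushoutI.of (φ := φ) (!i)).range) := by
      intro x hx
      refine (hmem _ ?_).2
      rw [← hM]
      exact List.mem_map_of_mem hx
    clear hM hlen hmem hM2
    induction M with
    | nil => simp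
    | cons x M ih =>
      cases M with
      | nil => simp
      | cons y M =>
        rw [List.isChain_cons_cons] at hchain ⊢
        refine ⟨?_, ih hchain.2 (fun z hz => hall z (List.mem_cons_of_mem _ hz))⟩
        intro hxy
        obtain ⟨j, x⟩ := x
        obtain ⟨j', y⟩ := y
        simp only at hxy
        subst hxy
        have h1 := hall ⟨j, x⟩ List.mem_cons_self
        have h2 := hall ⟨j, y⟩ (by simp)
        have h3 := hchain.1
        simp only at h1 h2 h3
        by_cases hj : j = i
        · subst hj
          have hx : (PushoutI.of (φ := φ) j x) ∈ (PushoutI.of (φ := φ) j).range := ⟨x, rfl⟩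
          have hy : (PushoutI.of (φ := φ) j y) ∈ (PushoutI.of (φ := φ) j).range := ⟨y, rfl⟩
          exact h2 ⟨hy, h3.mp hx⟩
        · have hj' : j = !i := by cases j <;> cases i <;> simp_all
          subst hj'
          have hx : (PushoutI.of (φ := φ) (!i) x) ∈ (PushoutI.of (φ := φ) (!i)).range := ⟨x, rfl⟩
          have hy : (PushoutI.of (φ := φ) (!i) y) ∈ (PushoutI.of (φ := φ) (!i)).range := ⟨y, rfl⟩
          exact h1 ⟨h3.mpr hy, hx⟩
  rw [← hM]
  refine alt_not_mem_range hφ M ?_ hchain2 hM2 i
  have := congrArg List.length hM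
  rw [List.length_map] at this
  omega

end Pushout

end Crest.Agent.R191
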