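import Crest.Agent.R191.Defs

/-!
# Row 191, T6: the amalgam lemma (purely combinatorial)
-/

set_option autoImplicit false

namespace Crest.Agent.R191

section Amalg
variable {G Z : Type*} [Group G] [MulAction G Z]

/-- The pair of relations / subgroups indexed by a flag. -/
private def pick {α : Type*} (x y : α) (s : Bool) : α := if s then x else y

/-- Alternating path from `p`: the head letter is the last step. -/
private def APath (R : Bool → Z → Z → Prop) (H : Bool → Subgroup G) (p : Z) :
    Bool → List G → Z → Prop
  | _, [], q => q = p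
  | s, g :: l, q => (g ∈ H s ∧ g ∉ H (!s)) ∧ ∃ q', R s q' q ∧ q = g • q' ∧ APath R H p (!s) l q'

private theorem apath_alt {R : Bool → Z → Z → Prop} {B C : Subgroup G} {p : Z} :
    ∀ (l : List G) (s : Bool) (q : Z), APath R (pick B C) p s l q →
      Alt B C s l ∧ q = l.prod • p := by
  intro l
  induction l with
  | nil => intro s q h; cases s <;> exact ⟨trivial, by simpa [APath] using h⟩
  | cons g l ih =>
    intro s q h
    obtain ⟨⟨h1, h2⟩, q', _, hq, hp⟩ := h
    obtain ⟨ha, hq'⟩ := ih (!s) q' hp
    refine ⟨?_, ?_⟩
    · cases s
      · exact ⟨⟨by simpa [pick] using h1, by simpa [pick] using h2⟩, ha⟩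
      · exact ⟨⟨by simpa [pick] using h1, by simpa [pick] using h2⟩, ha⟩
    · rw [hq, hq', List.prod_cons, mul_smul]

/-- The invariant: trivial, or a non-empty alternating path. -/
private def Inv (R : Bool → Z → Z → Prop) (H : Bool → Subgroup G) (p q : Z) : Prop :=
  (∀ s, R s p q) ∨ ∃ s l, l ≠ [] ∧ APath R H p s l q

/-- Absorbing a step which is in both relations. -/
private theorem absorb {R : Bool → Z → Z → Prop} {H : Bool → Subgroup G}
    (hR : ∀ s, Equivalence (R s)) {p q r : Z} {s : Bool} {l : List G} (hl : l ≠ [])
    (hp : APath R H p s l q) {e : G} (he : ∀ s, e ∈ H s) (hr : r = e • q)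
    (hstep : ∀ s, R s q r) : ∃ l' : List G, l' ≠ [] ∧ APath R H p s l' r := by
  cases l with
  | nil => exact absurd rfl hl
  | cons g l =>
    obtain ⟨⟨h1, h2⟩, q', hq', hq, hpath⟩ := hp
    refine ⟨(e * g) :: l, by simp, ⟨(H s).mul_mem (he s) h1, fun h => h2 ?_⟩, q',
      (hR s).trans hq' (hstep s), by rw [hr, hq, mul_smul], hpath⟩
    have := (H (!s)).mul_mem ((H (!s)).inv_mem (he (!s))) h
    simpa using this

private theorem inv_step (hfree : ∀ (g : G) (p : Z), g • p = p → g = 1)
    {R : Bool → Z → Z → Prop} {H : Bool → Subgroup G}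
    (hR : ∀ s, Equivalence (R s)) (hH : ∀ s p q, R s p q → OR (H s) p q)
    (hx : ∀ s p q, R s p q → OR (H (!s)) p q → R (!s) p q)
    {p q r : Z} (hI : Inv R H p q) {s : Bool} (hs : R s q r) : Inv R H p r := by
  obtain ⟨g, hg, hr⟩ := hH s q r hs
  have huniq : ∀ (x y : G) (z : Z), x • z = y • z → x = y := by
    intro x y z h
    have : (y⁻¹ * x) • z = z := by rw [mul_smul, h, inv_smul_smul]
    have := hfree _ _ this
    exact (inv_mul_eq_one.mp this).symm
  by_cases hgC : g ∈ H (!s)
  · -- a step in both relations
    have hall : ∀ t, g ∈ H t := by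
      intro t
      by_cases h : t = s
      · rw [h]; exact hg
      · have : t = !s := by cases t <;> cases s <;> simp_all
        rw [this]; exact hgC
    have hstep : ∀ t, R t q r := by
      intro t
      by_cases h : t = s
      · rw [h]; exact hs
      · have : t = !s := by cases t <;> cases s <;> simp_all
        rw [this]; exact hx s q r hs ⟨g, hgC, hr⟩
    rcases hI with h0 | ⟨t, l, hl, hpath⟩
    · exact Or.inl fun t => (hR t).trans (h0 t) (hstep t)
    · obtain ⟨l', hl', hp'⟩ := absorb hR hl hpath hall hr hstep
      exact Or.inr ⟨t, l', hl', hp'⟩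
  · rcases hI with h0 | ⟨t, l, hl, hpath⟩
    · -- trivial state
      obtain ⟨e1, he1, hq1⟩ := hH s p q (h0 s)
      obtain ⟨e2, he2, hq2⟩ := hH (!s) p q (h0 (!s))
      have he : e1 = e2 := huniq e1 e2 p (by rw [← hq1, ← hq2])
      refine Or.inr ⟨s, [g * e1], by simp, ⟨(H s).mul_mem hg he1, fun h => hgC ?_⟩, p,
        (hR s).trans (h0 s) hs, by rw [hr, hq1, mul_smul], rfl⟩
      have := (H (!s)).mul_mem h ((H (!s)).inv_mem he2)
      rw [← he] at this
      simpa using this
    · by_cases hts : t = s
      · subst hts
        cases l with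
        | nil => exact absurd rfl hl
        | cons g1 l =>
          obtain ⟨⟨h1, h2⟩, q', hq', hq, hpath'⟩ := hpath
          have hr' : r = (g * g1) • q' := by rw [hr, hq, mul_smul]
          have hq'r : R t q' r := (hR t).trans hq' hs
          by_cases hc : g * g1 ∈ H (!t)
          · have hall : ∀ u, g * g1 ∈ H u := by
              intro u
              by_cases h : u = t
              · rw [h]; exact (H t).mul_mem hg h1
              · have : u = !t := by cases u <;> cases t <;> simp_all
                rw [this]; exact hc
            have hstep : ∀ u, R u q' r := by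
              intro u
              by_cases h : u = t
              · rw [h]; exact hq'r
              · have : u = !t := by cases u <;> cases t <;> simp_all
                rw [this]; exact hx t q' r hq'r ⟨_, hc, hr'⟩
            by_cases hl2 : l = []
            · subst hl2
              have hqp : q' = p := hpath'
              rw [hqp] at hstep
              exact Or.inl hstep
            · obtain ⟨l', hl', hp'⟩ := absorb hR hl2 hpath' hall hr' hstep
              exact Or.inr ⟨!t, l', hl', hp'⟩
          · exact Or.inr ⟨t, (g * g1) :: l, by simp, ⟨(H t).mul_mem hg h1, hc⟩, q', hq'r, hr',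
              hpath'⟩
      · have hts' : t = !s := by cases t <;> cases s <;> simp_all
        subst hts'
        exact Or.inr ⟨s, g :: l, by simp, ⟨hg, hgC⟩, q, hs, hr, hpath⟩

theorem amalgam_closed (hfree : ∀ (g : G) (p : Z), g • p = p → g = 1) {B C : Subgroup G}
    (hAP : AmalgProp B C) {b w : Z → Z → Prop} (hbe : Equivalence b) (hwe : Equivalence w)
    (hbB : ∀ p q, b p q → OR B p q) (hwC : ∀ p q, w p q → OR C p q)
    (hbw : ∀ p q, b p q → OR C p q → w p q) (hwb : ∀ p q, w p q → OR B p q → b p q)
    (hgen : ∀ p q, (∃ g : G, q = g • p) → Relation.EqvGen (fun p q => b p q ∨ w p q) p q) :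
    ∀ p q, OR B p q → b p q := by
  intro p q hpq
  obtain ⟨β, hβ, hq⟩ := hpq
  have hR : ∀ s, Equivalence (pick b w s) := by
    intro s; cases s
    · simpa [pick] using hwe
    · simpa [pick] using hbe
  have hH : ∀ s p q, pick b w s p q → OR (pick B C s) p q := by
    intro s p q h; cases s
    · simpa [pick] using hwC p q (by simpa [pick] using h)
    · simpa [pick] using hbB p q (by simpa [pick] using h)
  have hx : ∀ s p q, pick b w s p q → OR (pick B C (!s)) p q → pick b w (!s) p q := by
    intro s p q h h'; cases s
    · simpa [pick] using hwb p q (by simpa [pick] using h) (by simpa [pick] using h')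
    · simpa [pick] using hbw p q (by simpa [pick] using h) (by simpa [pick] using h')
  -- transport of the invariant along the generated relation
  have key : ∀ x y, Relation.EqvGen (fun p q => b p q ∨ w p q) x y →
      (Inv (pick b w) (pick B C) p x ↔ Inv (pick b w) (pick B C) p y) := by
    intro x y h
    induction h with
    | rel x y h =>
      rcases h with h | h
      · have h1 : pick b w true x y := by simpa [pick] using h
        exact ⟨fun hI => inv_step hfree hR hH hx hI h1,
          fun hI => inv_step hfree hR hH hx hI ((hR true).symm h1)⟩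
      · have h1 : pick b w false x y := by simpa [pick] using h
        exact ⟨fun hI => inv_step hfree hR hH hx hI h1,
          fun hI => inv_step hfree hR hH hx hI ((hR false).symm h1)⟩
    | refl x => exact Iff.rfl
    | symm x y _ ih => exact ih.symm
    | trans x y z _ _ ih1 ih2 => exact ih1.trans ih2
  have hI0 : Inv (pick b w) (pick B C) p p := Or.inl fun s => (hR s).refl p
  have hIq := (key p q (hgen p q ⟨β, hq⟩)).mp hI0
  rcases hIq with h0 | ⟨s, l, hl, hpath⟩
  · simpa [pick] using h0 true
  · obtain ⟨hAlt, hprod⟩ := apath_alt l s q hpath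
    have hprodβ : l.prod = β := by
      have h1 : l.prod • p = β • p := by rw [← hprod, ← hq]
      have h2 : (β⁻¹ * l.prod) • p = p := by rw [mul_smul, h1, inv_smul_smul]
      exact (inv_mul_eq_one.mp (hfree _ _ h2)).symm
    by_cases hlen : 2 ≤ l.length
    · exact absurd (hprodβ ▸ hβ) (hAP s l hAlt hlen)
    · match l, hl, hlen, hpath, hAlt, hprodβ with
      | [g], _, _, hpath, hAlt, hprodβ =>
        obtain ⟨⟨h1, h2⟩, q', hq', hqg, hnil⟩ := hpath
        have hq'p : q' = p := hnil
        cases s
        · exfalso
          apply h2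
          have : g = β := by simpa using hprodβ
          simpa [pick, this] using hβ
        · rw [hq'p] at hq'
          simpa [pick] using hq'
      | _ :: _ :: _, _, hlen, _, _, _ => exact absurd (by simp) hlen

end Amalg

end Crest.Agent.R191
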