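import Mathlib

/-! Row 191, module M1: the Bernoulli shift on `Γ → Bool` and its free part `BX Γ`. -/

set_option autoImplicit false
set_option linter.unusedSectionVars false

namespace Crest.Agent.R191.Bern

open MeasureTheory Set

noncomputable section

/-- the fair coin -/
def coin : Measure Bool := (PMF.uniformOfFintype Bool).toMeasure

instance : IsProbabilityMeasure coin := by unfold coin; infer_instance

lemma coin_singleton (b : Bool) : coin {b} = 1 / 2 := by
  unfold coin
  rw [PMF.toMeasure_apply_singleton _ _ (measurableSet_singleton b)]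
  simp

variable {Γ : Type*} [Group Γ]

/-- the left shift on configurations -/
def sh (g : Γ) (w : Γ → Bool) : Γ → Bool := fun h => w (g⁻¹ * h)

@[simp] lemma sh_one (w : Γ → Bool) : sh 1 w = w := by
  funext h; simp [sh]

lemma sh_mul (g k : Γ) (w : Γ → Bool) : sh (g * k) w = sh g (sh k w) := by
  funext h; simp [sh, mul_assoc]

lemma sh_inv_sh (g : Γ) (w : Γ → Bool) : sh g⁻¹ (sh g w) = w := by
  rw [← sh_mul]; simp

lemma sh_sh_inv (g : Γ) (w : Γ → Bool) : sh g (sh g⁻¹ w) = w := by
  rw [← sh_mul]; simp

lemma measurable_sh (g : Γ) : Measurable (sh g) :=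
  measurable_pi_lambda _ fun _ => measurable_pi_apply _

variable (Γ) in
/-- the product measure on configurations -/
def mu0 : Measure (Γ → Bool) := Measure.infinitePi fun _ => coin

instance : IsProbabilityMeasure (mu0 Γ) := by unfold mu0; infer_instance

lemma mp_sh (g : Γ) : MeasurePreserving (sh g) (mu0 Γ) (mu0 Γ) := by
  classical
  refine ⟨measurable_sh g, ?_⟩
  unfold mu0
  refine Measure.eq_infinitePi _ fun s t ht => ?_
  rw [Measure.map_apply (measurable_sh g)
    (MeasurableSet.pi s.countable_toSet fun i _ => ht i)]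
  have h1 : sh g ⁻¹' (Set.pi (s : Set Γ) t) =
      Set.pi ((s.image (g⁻¹ * ·) : Finset Γ) : Set Γ) (fun k => t (g * k)) := by
    ext w
    simp only [sh, Set.mem_preimage, Set.mem_pi, Finset.mem_coe, Finset.mem_image,
      forall_exists_index, and_imp, forall_apply_eq_imp_iff₂, mul_inv_cancel_left]
  rw [h1, Measure.infinitePi_pi _ fun i _ => ht _, Finset.prod_image]
  · simp
  · intro a _ b _ h
    exact mul_left_cancel h

lemma exists_pairs [Infinite Γ] {g : Γ} (hg : g ≠ 1) (n : ℕ) :
    ∃ s : Finset Γ, s.card = n ∧ ∀ h ∈ s, g⁻¹ * h ∉ s := by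
  classical
  induction n with
  | zero => exact ⟨∅, rfl, by simp⟩
  | succ n ih =>
    obtain ⟨s, hs, hd⟩ := ih
    obtain ⟨h, hh⟩ := Infinite.exists_notMem_finset
      (s ∪ s.image (g⁻¹ * ·) ∪ s.image (g * ·))
    simp only [Finset.mem_union, Finset.mem_image, not_or, not_exists, not_and] at hh
    obtain ⟨⟨h1, h2⟩, h3⟩ := hh
    refine ⟨insert h s, by rw [Finset.card_insert_of_notMem h1, hs], ?_⟩
    intro k hk hk'
    rw [Finset.mem_insert] at hk hk'
    rcases hk with rfl | hk
    · rcases hk' with h4 | h4
      · have : g⁻¹ = 1 := by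
          have := congrArg (· * k⁻¹) h4
          simpa using this
        exact hg (inv_eq_one.mp this)
      · exact h3 _ h4 (by group)
    · rcases hk' with h4 | h4
      · exact h2 k hk h4
      · exact hd k hk h4

/-- every non-trivial element fixes only a null set of configurations -/
theorem null_fix [Infinite Γ] {g : Γ} (hg : g ≠ 1) : mu0 Γ {w | sh g w = w} = 0 := by
  classical
  have key : ∀ n : ℕ, mu0 Γ {w | sh g w = w} ≤ (1 / 2 : ENNReal) ^ n := by
    intro n
    obtain ⟨s, hs, hd⟩ := exists_pairs hg n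
    set s' : Finset Γ := s ∪ s.image (g⁻¹ * ·) with hs'
    have hdisj : Disjoint s (s.image (g⁻¹ * ·)) := by
      rw [Finset.disjoint_left]
      intro k hk hk'
      rw [Finset.mem_image] at hk'
      obtain ⟨h, hh, rfl⟩ := hk'
      exact hd h hh hk
    have hcard : s'.card = n + n := by
      rw [hs', Finset.card_union_of_disjoint hdisj, Finset.card_image_of_injective _
        (mul_right_injective _), hs]
    have hsub : {w : Γ → Bool | sh g w = w} ⊆ ⋃ A ∈ s.powerset, Set.pi (s' : Set Γ)
        (fun k => ({decide (k ∈ A ∨ g * k ∈ A)} : Set Bool)) := by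
      intro w hw
      rw [Set.mem_ofPred_eq] at hw
      rw [Set.mem_iUnion₂]
      refine ⟨s.filter (fun k => w k = true), by simp, ?_⟩
      rw [Set.mem_pi]
      intro k hk
      rw [Set.mem_singleton_iff]
      have hw' : ∀ h, w (g⁻¹ * h) = w h := fun h => congrFun hw h
      rw [hs', Finset.coe_union, Set.mem_union, Finset.mem_coe, Finset.mem_coe,
        Finset.mem_image] at hk
      rcases hk with hk | ⟨h, hh, rfl⟩
      · have h1 : g * k ∉ s := by
          intro h2
          have := hd _ h2
          rw [inv_mul_cancel_left] at this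
          exact this hk
        simp [hk, h1]
      · have h1 := hd h hh
        simp [hh, h1, hw']
    calc mu0 Γ {w | sh g w = w}
        ≤ mu0 Γ (⋃ A ∈ s.powerset, Set.pi (s' : Set Γ)
          (fun k => ({decide (k ∈ A ∨ g * k ∈ A)} : Set Bool))) := measure_mono hsub
      _ ≤ ∑ A ∈ s.powerset, mu0 Γ (Set.pi (s' : Set Γ)
          (fun k => ({decide (k ∈ A ∨ g * k ∈ A)} : Set Bool))) :=
          measure_biUnion_finset_le _ _
      _ = ∑ A ∈ s.powerset, (1 / 2 : ENNReal) ^ (n + n) := by
          refine Finset.sum_congr rfl fun A _ => ?_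
          unfold mu0
          rw [Measure.infinitePi_pi _ fun i _ => measurableSet_singleton _]
          simp_rw [coin_singleton]
          rw [Finset.prod_const, hcard]
      _ = (1 / 2 : ENNReal) ^ n := by
          rw [Finset.sum_const, Finset.card_powerset, hs, nsmul_eq_mul, pow_add, ← mul_assoc]
          push_cast
          rw [← mul_pow]
          have : (2 : ENNReal) * (1 / 2) = 1 := by
            rw [one_div]; exact ENNReal.mul_inv_cancel (by norm_num) (by norm_num)
          rw [this, one_pow, one_mul]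
  have hlim : Filter.Tendsto (fun n : ℕ => (1 / 2 : ENNReal) ^ n) Filter.atTop (nhds 0) :=
    ENNReal.tendsto_pow_atTop_nhds_zero_of_lt_one (by
      rw [one_div]; exact ENNReal.inv_lt_one.mpr (by norm_num))
  exact le_antisymm (ge_of_tendsto' hlim key) bot_le

/-! ### the free part -/

/-- free configurations -/
def IsFr (w : Γ → Bool) : Prop := ∀ g : Γ, g ≠ 1 → sh g w ≠ w

lemma IsFr.sh {w : Γ → Bool} (hw : IsFr w) (g : Γ) : IsFr (sh g w) := by
  intro k hk h
  refine hw (g⁻¹ * k * g) ?_ ?_
  · intro h1
    apply hk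
    have h2 : k = g * (g⁻¹ * k * g) * g⁻¹ := by group
    rw [h2, h1]; group
  · rw [mul_assoc, sh_mul, sh_mul, h, sh_inv_sh]

lemma isFr_sh_iff {w : Γ → Bool} (g : Γ) : IsFr (Bern.sh g w) ↔ IsFr w := by
  refine ⟨fun h => ?_, fun h => h.sh g⟩
  have := h.sh g⁻¹
  rwa [sh_inv_sh] at this

lemma measurableSet_fix [Countable Γ] (g : Γ) : MeasurableSet {w : Γ → Bool | sh g w = w} := by
  have : {w : Γ → Bool | sh g w = w} = ⋂ h : Γ, {w | w (g⁻¹ * h) = w h} := by
    ext w
    simp only [Set.mem_ofPred_eq, Set.mem_iInter]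
    exact ⟨fun h k => congrFun h k, fun h => funext h⟩
  rw [this]
  exact MeasurableSet.iInter fun h =>
    measurableSet_eq_fun (measurable_pi_apply _) (measurable_pi_apply _)

lemma measurableSet_isFr [Countable Γ] : MeasurableSet {w : Γ → Bool | IsFr w} := by
  have : {w : Γ → Bool | IsFr w} = ⋂ g : Γ, ⋂ _ : g ≠ 1, {w | sh g w = w}ᶜ := by
    ext w
    simp [IsFr]
  rw [this]
  exact MeasurableSet.iInter fun g => MeasurableSet.iInter fun _ => (measurableSet_fix g).compl

lemma mu0_isFr_compl [Countable Γ] [Infinite Γ] : mu0 Γ {w | IsFr w}ᶜ = 0 := by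
  have : {w : Γ → Bool | IsFr w}ᶜ ⊆ ⋃ g : {g : Γ // g ≠ 1}, {w | sh g.1 w = w} := by
    intro w hw
    simp only [Set.mem_compl_iff, Set.mem_ofPred_eq, IsFr, not_forall, not_not] at hw
    obtain ⟨g, hg, h⟩ := hw
    exact Set.mem_iUnion.mpr ⟨⟨g, hg⟩, h⟩
  exact measure_mono_null this (measure_iUnion_null fun g => null_fix g.2)

variable (Γ) in
/-- the free part of the Bernoulli shift -/
def BX : Type _ := {w : Γ → Bool // IsFr w}

namespace BX

instance : MeasurableSpace (BX Γ) := inferInstanceAs (MeasurableSpace {w : Γ → Bool // IsFr w})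

/-- the configuration of a point -/
def val (x : BX Γ) : Γ → Bool := Subtype.val x

lemma val_injective : Function.Injective (val : BX Γ → (Γ → Bool)) := Subtype.val_injective

lemma isFr (x : BX Γ) : IsFr x.val := x.2

instance : MulAction Γ (BX Γ) where
  smul g x := ⟨sh g x.val, x.isFr.sh g⟩
  one_smul x := by apply val_injective; exact sh_one _
  mul_smul g k x := by apply val_injective; exact sh_mul _ _ _

@[simp] lemma val_smul (g : Γ) (x : BX Γ) : (g • x).val = sh g x.val := rfl

/-- the action is strictly free -/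
theorem eq_one_of_smul_eq {g : Γ} {x : BX Γ} (h : g • x = x) : g = 1 := by
  by_contra hg
  exact x.isFr g hg (congrArg val h)

lemma range_val : Set.range (val : BX Γ → (Γ → Bool)) = {w | IsFr w} := Subtype.range_val

lemma measurable_val : Measurable (val : BX Γ → (Γ → Bool)) := measurable_subtype_coe

variable [Countable Γ]

lemma measurableEmbedding_val : MeasurableEmbedding (val : BX Γ → (Γ → Bool)) :=
  MeasurableEmbedding.subtype_coe measurableSet_isFr

instance : StandardBorelSpace (BX Γ) := measurableSet_isFr.standardBorel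

lemma measurable_smul (g : Γ) : Measurable (fun x : BX Γ => g • x) := by
  rw [← measurableEmbedding_val.measurable_comp_iff]
  exact (measurable_sh g).comp measurable_val

variable (Γ) in
/-- the Bernoulli measure on the free part -/
def mu : Measure (BX Γ) := (mu0 Γ).comap val

lemma mu_apply (S : Set (BX Γ)) : mu Γ S = mu0 Γ (val '' S) :=
  measurableEmbedding_val.comap_apply _ _

variable [Infinite Γ]

instance : IsProbabilityMeasure (mu Γ) := by
  constructor
  rw [mu_apply, Set.image_univ, range_val]
  have h := measure_add_measure_compl (μ := mu0 Γ) (measurableSet_isFr (Γ := Γ))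
  rw [mu0_isFr_compl, add_zero, measure_univ] at h
  exact h

omit [Infinite Γ] in
lemma image_preimage (g : Γ) (S : Set (BX Γ)) :
    val '' ((fun x : BX Γ => g • x) ⁻¹' S) = sh g ⁻¹' (val '' S) := by
  ext w
  simp only [Set.mem_image, Set.mem_preimage]
  constructor
  · rintro ⟨x, hx, rfl⟩
    exact ⟨g • x, hx, rfl⟩
  · rintro ⟨y, hy, h⟩
    refine ⟨g⁻¹ • y, by rwa [smul_inv_smul], ?_⟩
    rw [val_smul, h, sh_inv_sh]

omit [Infinite Γ] in
lemma measurePreserving_smul (g : Γ) :
    MeasurePreserving (fun x : BX Γ => g • x) (mu Γ) (mu Γ) := by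
  refine ⟨measurable_smul g, ?_⟩
  ext S hS
  rw [Measure.map_apply (measurable_smul g) hS, mu_apply, mu_apply, image_preimage]
  exact (mp_sh g).measure_preimage
    (measurableEmbedding_val.measurableSet_image.mpr hS).nullMeasurableSet

omit [Infinite Γ] in
/-- transfer of measures of finite Boolean combinations -/
lemma mu_inter_three (a b : Γ) (S : Set (BX Γ)) :
    mu Γ (S ∩ (fun x : BX Γ => a • x) ⁻¹' S ∩ (fun x : BX Γ => b • x) ⁻¹' S) =
      mu0 Γ (val '' S ∩ sh a ⁻¹' (val '' S) ∩ sh b ⁻¹' (val '' S)) := by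
  rw [mu_apply, Set.image_inter val_injective, Set.image_inter val_injective, image_preimage,
    image_preimage]

omit [Infinite Γ] in
lemma measurableSet_image {S : Set (BX Γ)} (hS : MeasurableSet S) : MeasurableSet (val '' S) :=
  measurableEmbedding_val.measurableSet_image.mpr hS

end BX

end

end Crest.Agent.R191.Bern
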