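import Crest.Agent.R191.Defs

/-!
# Row 191: definitions for Theorem II (folding in the incidence forest)

`F2` free group on `a = of 0`, `b = of 1`, `gam = ![1, a, b]`.  e-nodes and P-nodes both live over `X`; the
P-node over `y` is incident with the e-nodes over `gam j • y`, `j : Fin 3`.
-/

set_option autoImplicit false

namespace Crest.Agent.R191

open MeasureTheory

/-- The free group of rank two. -/
abbrev F2 := FreeGroup (Fin 2)

/-- The letters. -/
def la : F2 := FreeGroup.of 0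
def lb : F2 := FreeGroup.of 1

/-- `gam = ![1, a, b]`. -/
def gam : Fin 3 → F2 := ![1, la, lb]

/-- The edge group `E = ⟨a b, b a⁻¹ b⟩ = ⟨s₁ s₃⁻¹, s₂ s₃⁻¹⟩`, `s₁ = a`, `s₂ = b a⁻¹`, `s₃ = b⁻¹`. -/
def EF : Subgroup F2 := Subgroup.closure {la * lb, lb * la⁻¹ * lb}

/-- Types of nodes over an e-node: `inl true = out`, `inl false = in`, `inr k` interior. -/
abbrev Ie (Ke : Type) := Bool ⊕ Ke
/-- Types of nodes over a P-node: `inl i` = corner `i`, `inr k` interior. -/
abbrev Ip (Kp : Type) := Fin 3 ⊕ Kp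

/-- A typed graph over the incidence forest: `y ∈ ed j q a` means that the node of type `q` over `P_y`
is joined to the node of type `a` over `e_{gam j • y}`. `pe`, `pp`: where the interior types are
present. -/
structure TG (X : Type*) (Ke Kp : Type) where
  ed : Fin 3 → Ip Kp → Ie Ke → Set X
  pe : Ke → Set X
  pp : Kp → Set X

/-- The standing properties of the typed graph. -/
structure TG.Good {X : Type*} [MulAction F2 X] [MeasurableSpace X] {Ke Kp : Type} (T : TG X Ke Kp) :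
    Prop where
  meas_ed : ∀ j q a, MeasurableSet (T.ed j q a)
  meas_pe : ∀ k, MeasurableSet (T.pe k)
  meas_pp : ∀ k, MeasurableSet (T.pp k)
  core_in : ∀ j y, y ∈ T.ed j (Sum.inl j) (Sum.inl false)
  core_out : ∀ j y, y ∈ T.ed (j + 1) (Sum.inl j) (Sum.inl true)
  deg_e : ∀ k, ∀ x ∈ T.pe k, ∃ j j' q q', j ≠ j' ∧ (gam j)⁻¹ • x ∈ T.ed j q (Sum.inr k) ∧
    (gam j')⁻¹ • x ∈ T.ed j' q' (Sum.inr k)
  deg_p : ∀ k, ∀ y ∈ T.pp k, ∃ j j' a a', j ≠ j' ∧ y ∈ T.ed j (Sum.inr k) a ∧
    y ∈ T.ed j' (Sum.inr k) a'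
  abs_e : ∀ k j q, ∀ y ∈ T.ed j q (Sum.inr k), gam j • y ∈ T.pe k
  abs_p : ∀ k j a, ∀ y ∈ T.ed j (Sum.inr k) a, y ∈ T.pp k

/-- A labelling of the types: two types over the same point are identified iff they have the same
label. -/
structure Lab (X : Type*) (Ke Kp : Type) where
  ce : X → Ie Ke → Ie Ke
  cp : X → Ip Kp → Ip Kp

/-- Measurable labelling in which absent types are identified with `out`, resp. corner 0. -/
structure Lab.Good {X : Type*} [MeasurableSpace X] {Ke Kp : Type} (L : Lab X Ke Kp)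
    (T : TG X Ke Kp) : Prop where
  meas_e : ∀ a l, MeasurableSet {x | L.ce x a = l}
  meas_p : ∀ q l, MeasurableSet {y | L.cp y q = l}
  abs_e : ∀ k x, x ∉ T.pe k → L.ce x (Sum.inr k) = L.ce x (Sum.inl true)
  abs_p : ∀ k y, y ∉ T.pp k → L.cp y (Sum.inr k) = L.cp y (Sum.inl 0)

section Count

variable {X : Type*} [MulAction F2 X] {Ke Kp : Type} [Fintype Ke] [Fintype Kp]
  [DecidableEq Ke] [DecidableEq Kp]

open Classical in
/-- The edges over the incidence `(y, j)`, modulo the labelling. -/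
noncomputable def edSet (T : TG X Ke Kp) (L : Lab X Ke Kp) (j : Fin 3) (y : X) :
    Finset (Ip Kp × Ie Ke) :=
  ((Finset.univ : Finset (Ip Kp × Ie Ke)).filter (fun qa => y ∈ T.ed j qa.1 qa.2)).image
    (fun qa => (L.cp y qa.1, L.ce (gam j • y) qa.2))

/-- number of e-classes over `x` -/
def nVe (L : Lab X Ke Kp) (x : X) : ℕ := (Finset.univ.image (L.ce x)).card
/-- number of P-classes over `y` -/
def nVp (L : Lab X Ke Kp) (y : X) : ℕ := (Finset.univ.image (L.cp y)).card

/-- The excess `E - V`. -/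
noncomputable def Exc [MeasurableSpace X] (μ : Measure X) (T : TG X Ke Kp) (L : Lab X Ke Kp) : ℝ :=
  (∑ j : Fin 3, ∫ y, ((edSet T L j y).card : ℝ) ∂μ) - ∫ x, (nVe L x : ℝ) ∂μ - ∫ y, (nVp L y : ℝ) ∂μ

/-- The set where `out` and `in` are identified. -/
def Lab.S (L : Lab X Ke Kp) : Set X := {x | L.ce x (Sum.inl true) = L.ce x (Sum.inl false)}

/-- Adjacency between the (un-identified) nodes: `inl (x, a)` e-node, `inr (y, q)` P-node. -/
def TG.Adj (T : TG X Ke Kp) (m n : (X × Ie Ke) ⊕ (X × Ip Kp)) : Prop :=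
  ∃ (j : Fin 3) (y : X) (q : Ip Kp) (a : Ie Ke), y ∈ T.ed j q a ∧
    m = Sum.inr (y, q) ∧ n = Sum.inl (gam j • y, a)

end Count

end Crest.Agent.R191
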