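import Crest.Agent.R191.Bern
import Crest.Agent.R191.IIDefs

/-! Row 191, T17: the action (free part of the Bernoulli shift), `exists_action` from the spectral
gap inequality of the full shift. -/

set_option autoImplicit false

namespace Crest.Agent.R191.Bern

open MeasureTheory Set

/-- four patterns -/
def pat : Fin 4 → Bool × Bool := ![(false, false), (false, true), (true, false), (true, true)]

lemma exists_pat (c : Bool × Bool) : ∃ i, pat i = c := by
  revert c; decide

theorem exists_action_of_gap (Γ : Type) [Group Γ] [Countable Γ] (ι : F2 →* Γ)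
    (hι : Function.Injective ι)
    (hgap : ∀ S : Set (Γ → Bool), MeasurableSet S →
      1 / 100 * ((mu0 Γ).real S * (1 - (mu0 Γ).real S)) ≤
        (mu0 Γ).real S - (mu0 Γ).real (S ∩ sh (ι la) ⁻¹' S ∩ sh (ι lb) ⁻¹' S)) :
    ∃ (X : Type) (_ : MeasurableSpace X) (_ : StandardBorelSpace X) (μ : Measure X)
      (_ : IsProbabilityMeasure μ) (_ : MulAction Γ X), FreeAct Γ X μ ∧
      (∀ S : Set X, MeasurableSet S → 1 / 100 * (μ.real S * (1 - μ.real S)) ≤
        μ.real S - μ.real {y | y ∈ S ∧ ι la • y ∈ S ∧ ι lb • y ∈ S}) ∧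
      ∃ U : Fin 4 → Set X, (∀ i, MeasurableSet (U i)) ∧ (∀ i, μ (U i) ≤ 1 / 4) ∧
        ⋃ i, U i = Set.univ := by
  classical
  have hinf : Infinite Γ := by
    have h2 : Function.Injective (fun n : ℤ => ι (la ^ n)) := by
      intro n m h
      have h3 := hι h
      have := congrArg (FreeGroup.lift (fun _ : Fin 2 => Multiplicative.ofAdd (1 : ℤ))) h3
      simp only [la, map_zpow, FreeGroup.lift_apply_of] at this
      have h4 := congrArg Multiplicative.toAdd this
      simpa using h4
    exact Infinite.of_injective _ h2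
  have hk : ι la ≠ 1 := by
    intro h
    have h1 : la = 1 := hι (by rw [h, map_one])
    have := congrArg (FreeGroup.lift (fun _ : Fin 2 => Multiplicative.ofAdd (1 : ℤ))) h1
    simp [la] at this
  refine ⟨BX Γ, inferInstance, inferInstance, BX.mu Γ, inferInstance, inferInstance,
    ⟨fun g p h => BX.eq_one_of_smul_eq h, fun g => BX.measurePreserving_smul g⟩, ?_, ?_⟩
  · intro S hS
    have h1 := hgap (BX.val '' S) (BX.measurableSet_image hS)
    have h2 : (BX.mu Γ).real S = (mu0 Γ).real (BX.val '' S) := by
      simp only [measureReal_def, BX.mu_apply]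
    have h3 : {y : BX Γ | y ∈ S ∧ ι la • y ∈ S ∧ ι lb • y ∈ S} =
        S ∩ (fun x : BX Γ => ι la • x) ⁻¹' S ∩ (fun x : BX Γ => ι lb • x) ⁻¹' S := by
      ext y; simp only [Set.mem_inter_iff, Set.mem_preimage]; exact and_assoc.symm
    have h4 : (BX.mu Γ).real {y : BX Γ | y ∈ S ∧ ι la • y ∈ S ∧ ι lb • y ∈ S} =
        (mu0 Γ).real (BX.val '' S ∩ sh (ι la) ⁻¹' (BX.val '' S) ∩
          sh (ι lb) ⁻¹' (BX.val '' S)) := by
      rw [h3, measureReal_def, BX.mu_inter_three, measureReal_def]
    rw [h2, h4]
    exact h1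
  · refine ⟨fun i => {x : BX Γ | x.val 1 = (pat i).1 ∧ x.val (ι la) = (pat i).2}, ?_, ?_, ?_⟩
    · intro i
      have m1 : Measurable fun x : BX Γ => x.val 1 :=
        (measurable_pi_apply (1 : Γ)).comp BX.measurable_val
      have m2 : Measurable fun x : BX Γ => x.val (ι la) :=
        (measurable_pi_apply (ι la)).comp BX.measurable_val
      exact (m1 (measurableSet_singleton (pat i).1)).inter
        (m2 (measurableSet_singleton (pat i).2))
    · intro i
      rw [BX.mu_apply]
      have hsub : BX.val '' {x : BX Γ | x.val 1 = (pat i).1 ∧ x.val (ι la) = (pat i).2} ⊆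
          Set.pi (({1, ι la} : Finset Γ) : Set Γ)
            (fun h => if h = 1 then ({(pat i).1} : Set Bool) else {(pat i).2}) := by
        rintro w ⟨x, ⟨h1, h2⟩, rfl⟩
        intro h hh
        simp only [Finset.coe_insert, Finset.coe_singleton, Set.mem_insert_iff,
          Set.mem_singleton_iff] at hh
        rcases hh with rfl | rfl
        · simpa using h1
        · simpa [hk] using h2
      refine (measure_mono hsub).trans ?_
      unfold mu0
      rw [Measure.infinitePi_pi _ fun i _ => by split_ifs <;> exact measurableSet_singleton _,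
        Finset.prod_pair (Ne.symm hk)]
      simp only [if_true, hk, if_false, coin_singleton]
      rw [← ENNReal.toReal_le_toReal (by finiteness) (by finiteness)]
      norm_num
    · rw [Set.eq_univ_iff_forall]
      intro x
      obtain ⟨i, hi⟩ := exists_pat (x.val 1, x.val (ι la))
      exact Set.mem_iUnion.mpr ⟨i, by
        show x.val 1 = (pat i).1 ∧ x.val (ι la) = (pat i).2
        rw [hi]; exact ⟨rfl, rfl⟩⟩

end Crest.Agent.R191.Bern
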