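import Mathlib

/-! R191 M7: an `ℓ²` spectral gap inequality for free actions of the free group of rank two. -/

namespace Crest.Agent.R191.Gap

noncomputable section

/-- First letters of reduced words: `s x` starts with `s` iff `x` does not start with `s⁻¹`. -/
lemma head_of_mul (i : Fin 2) (x : FreeGroup (Fin 2)) :
    (FreeGroup.of i * x).toWord.head? = some (i, true) ↔ ¬ x.toWord.head? = some (i, false) := by
  have hred : FreeGroup.reduce x.toWord = x.toWord := FreeGroup.reduce_toWord x
  have h1 : (FreeGroup.of i * x).toWord = FreeGroup.reduce ((i, true) :: x.toWord) := by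
    rw [FreeGroup.toWord_mul, FreeGroup.toWord_of]; rfl
  rw [h1, FreeGroup.reduce.cons, hred]
  have hR : FreeGroup.IsReduced x.toWord := FreeGroup.isReduced_toWord
  rcases hx : x.toWord with _ | ⟨⟨j, b⟩, tl⟩
  · simp
  · rw [hx] at hR
    by_cases h : i = j ∧ b = false
    · obtain ⟨rfl, rfl⟩ := h
      simp only [and_self, Bool.not_false, ↓reduceIte, List.head?_cons, not_true_eq_false,
        iff_false]
      intro h2
      rcases tl with _ | ⟨⟨k, b'⟩, tl'⟩
      · simp at h2
      · simp only [List.head?_cons, Option.some.injEq, Prod.mk.injEq] at h2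
        obtain ⟨rfl, rfl⟩ := h2
        have := List.IsChain.rel hR
        simp at this
    · have h' : ¬ (i = j ∧ true = !b) := by
        rintro ⟨h3, h4⟩
        apply h
        refine ⟨h3, ?_⟩
        cases b
        · rfl
        · exact absurd h4 (by decide)
      simp only [h', ↓reduceIte, List.head?_cons, true_iff]
      intro h2
      simp only [Option.some.injEq, Prod.mk.injEq] at h2
      exact h ⟨h2.1.symm, h2.2⟩

open scoped Classical in
set_option maxHeartbeats 2000000 in
/-- Kesten-type inequality, with child/parent weights `(2, 1/2)`. -/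
theorem kesten {Y : Type*} [MulAction (FreeGroup (Fin 2)) Y] (c : Y → ℝ)
    (hfree : ∀ (y : Y), c y ≠ 0 → ∀ g : FreeGroup (Fin 2), g • y = y → g = 1)
    (hc : Summable fun y => c y ^ 2) :
    (∑' y, c y * c (FreeGroup.of (0 : Fin 2) • y)) +
      (∑' y, c y * c (FreeGroup.of (1 : Fin 2) • y)) ≤ (7 / 4) * ∑' y, c y ^ 2 := by
  -- representatives
  let r : Y → Y := fun y =>
    Quotient.out (Quotient.mk (MulAction.orbitRel (FreeGroup (Fin 2)) Y) y)
  have hr : ∀ y, ∃ g : FreeGroup (Fin 2), g • r y = y := by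
    intro y
    have : (MulAction.orbitRel (FreeGroup (Fin 2)) Y) y (r y) := by
      apply Setoid.symm'
      exact Quotient.mk_out (s := MulAction.orbitRel (FreeGroup (Fin 2)) Y) y
    rw [MulAction.orbitRel_apply] at this
    obtain ⟨g, hg⟩ := this
    exact ⟨g, hg⟩
  choose w hw using hr
  have hrs : ∀ (g : FreeGroup (Fin 2)) (y : Y), r (g • y) = r y := by
    intro g y
    have : Quotient.mk (MulAction.orbitRel (FreeGroup (Fin 2)) Y) (g • y) =
        Quotient.mk (MulAction.orbitRel (FreeGroup (Fin 2)) Y) y := by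
      apply Quotient.sound
      change (MulAction.orbitRel (FreeGroup (Fin 2)) Y) _ _
      rw [MulAction.orbitRel_apply]
      exact ⟨g, rfl⟩
    simp only [r, this]
  have hws : ∀ (g : FreeGroup (Fin 2)) (y : Y), c y ≠ 0 → w (g • y) = g * w y := by
    intro g y hy
    have h1 : w (g • y) • r y = g • y := by
      have := hw (g • y)
      rwa [hrs] at this
    have h2 : (w y * ((g * w y)⁻¹ * w (g • y)) * (w y)⁻¹) • y = y := by
      have h3 : (w y)⁻¹ • y = r y := by
        rw [inv_smul_eq_iff]; exact (hw y).symm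
      have h4 : g⁻¹ • (g • y) = y := inv_smul_smul g y
      calc (w y * ((g * w y)⁻¹ * w (g • y)) * (w y)⁻¹) • y
          = g⁻¹ • (w (g • y) • ((w y)⁻¹ • y)) := by
            simp only [← mul_smul]; congr 1; group
        _ = y := by rw [h3, h1, h4]
    have h5 := hfree y hy _ h2
    have h6 : (g * w y)⁻¹ * w (g • y) = 1 := by
      have : (g * w y)⁻¹ * w (g • y) =
        (w y)⁻¹ * (w y * ((g * w y)⁻¹ * w (g • y)) * (w y)⁻¹) * w y := by group
      rw [this, h5]; group
    exact (inv_mul_eq_one.mp h6).symm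
  -- the weights
  let P : Fin 2 → Y → Prop := fun i y => (w y).toWord.head? = some (i, true)
  let M : Fin 2 → Y → Prop := fun i y => (w y).toWord.head? = some (i, false)
  have hPM : ∀ i y, c y ≠ 0 → (P i (FreeGroup.of i • y) ↔ ¬ M i y) := by
    intro i y hy
    simp only [P, M]
    rw [hws _ _ hy]
    exact head_of_mul i _
  let A : Fin 2 → Y → ℝ := fun i z => if P i z then c z ^ 2 else c z ^ 2 / 4
  let B : Fin 2 → Y → ℝ := fun i z => if M i z then c z ^ 2 else c z ^ 2 / 4
  have hA0 : ∀ i z, 0 ≤ A i z := by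
    intro i z; simp only [A]; split_ifs <;> positivity
  have hB0 : ∀ i z, 0 ≤ B i z := by
    intro i z; simp only [B]; split_ifs <;> positivity
  have hA1 : ∀ i z, A i z ≤ c z ^ 2 := by
    intro i z; simp only [A]; split_ifs <;> nlinarith [sq_nonneg (c z)]
  have hB1 : ∀ i z, B i z ≤ c z ^ 2 := by
    intro i z; simp only [B]; split_ifs <;> nlinarith [sq_nonneg (c z)]
  have hAs : ∀ i, Summable (A i) := fun i => Summable.of_nonneg_of_le (hA0 i) (hA1 i) hc
  have hBs : ∀ i, Summable (B i) := fun i => Summable.of_nonneg_of_le (hB0 i) (hB1 i) hc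
  have hAs' : ∀ i : Fin 2, Summable (fun y => A i (FreeGroup.of i • y)) := fun i =>
    (MulAction.toPerm (FreeGroup.of i) : Equiv.Perm Y).summable_iff.mpr (hAs i)
  have hcs' : ∀ i : Fin 2, Summable (fun y => c (FreeGroup.of i • y) ^ 2) := fun i =>
    (MulAction.toPerm (FreeGroup.of i) : Equiv.Perm Y).summable_iff.mpr hc
  have hprod : ∀ i : Fin 2, Summable (fun y => c y * c (FreeGroup.of i • y)) := by
    intro i
    refine Summable.of_norm_bounded (g := fun y => c y ^ 2 + c (FreeGroup.of i • y) ^ 2)
      (hc.add (hcs' i)) ?_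
    intro y
    rw [Real.norm_eq_abs, abs_le]
    constructor <;> nlinarith [sq_nonneg (c y + c (FreeGroup.of i • y)),
      sq_nonneg (c y - c (FreeGroup.of i • y)), sq_nonneg (c y), sq_nonneg (c (FreeGroup.of i • y))]
  have key : ∀ i y, c y * c (FreeGroup.of i • y) ≤ A i (FreeGroup.of i • y) + B i y := by
    intro i y
    by_cases hy : c y = 0
    · rw [hy, zero_mul]
      exact add_nonneg (hA0 _ _) (hB0 _ _)
    · have h := hPM i y hy
      by_cases hM : M i y
      · have hP : ¬ P i (FreeGroup.of i • y) := fun h' => (h.mp h') hM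
        simp only [A, B, hM, hP, if_true, if_false]
        nlinarith [sq_nonneg (c y - c (FreeGroup.of i • y) / 2)]
      · have hP : P i (FreeGroup.of i • y) := h.mpr hM
        simp only [A, B, hM, hP, if_true, if_false]
        nlinarith [sq_nonneg (c y / 2 - c (FreeGroup.of i • y))]
  have hone : ∀ i : Fin 2, ∑' y, c y * c (FreeGroup.of i • y) ≤ ∑' y, (A i y + B i y) := by
    intro i
    calc ∑' y, c y * c (FreeGroup.of i • y)
        ≤ ∑' y, (A i (FreeGroup.of i • y) + B i y) :=
          (hprod i).tsum_le_tsum (key i) ((hAs' i).add (hBs i))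
      _ = ∑' y, A i (FreeGroup.of i • y) + ∑' y, B i y := (hAs' i).tsum_add (hBs i)
      _ = ∑' y, A i y + ∑' y, B i y := by
          congr 1
          exact (MulAction.toPerm (FreeGroup.of i) : Equiv.Perm Y).tsum_eq (A i)
      _ = ∑' y, (A i y + B i y) := ((hAs i).tsum_add (hBs i)).symm
  calc (∑' y, c y * c (FreeGroup.of (0 : Fin 2) • y)) +
        (∑' y, c y * c (FreeGroup.of (1 : Fin 2) • y))
      ≤ ∑' y, (A 0 y + B 0 y) + ∑' y, (A 1 y + B 1 y) := add_le_add (hone 0) (hone 1)
    _ = ∑' y, ((A 0 y + B 0 y) + (A 1 y + B 1 y)) :=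
        (((hAs 0).add (hBs 0)).tsum_add ((hAs 1).add (hBs 1))).symm
    _ ≤ ∑' y, (7 / 4) * c y ^ 2 := by
        refine (((hAs 0).add (hBs 0)).add ((hAs 1).add (hBs 1))).tsum_le_tsum ?_
          (hc.mul_left _)
        intro y
        simp only [A, B, P, M]
        rcases hh : (w y).toWord.head? with _ | ⟨j, b⟩
        · simp; nlinarith [sq_nonneg (c y)]
        · fin_cases j <;> cases b <;> simp <;> nlinarith [sq_nonneg (c y)]
    _ = (7 / 4) * ∑' y, c y ^ 2 := tsum_mul_left

end

end Crest.Agent.R191.Gap
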