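import Crest.Agent.R191.Bern
import Crest.Agent.R191.Kesten681

/-! R191 T17a: Walsh functions and the spectral gap of Bernoulli shifts over a free subgroup. -/

set_option autoImplicit false

namespace Crest.Agent.R191.Gap

open MeasureTheory Set Bern
open scoped symmDiff

noncomputable section

variable {Γ : Type*}

/-- sign of a bit -/
def sgn (b : Bool) : ℝ := if b then 1 else -1

lemma sgn_mul_self (b : Bool) : sgn b * sgn b = 1 := by cases b <;> simp [sgn]
lemma sgn_not (b : Bool) : sgn (!b) = - sgn b := by cases b <;> simp [sgn]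
lemma abs_sgn (b : Bool) : |sgn b| = 1 := by cases b <;> simp [sgn]

/-- Walsh function -/
def chi (F : Finset Γ) (w : Γ → Bool) : ℝ := ∏ h ∈ F, sgn (w h)

@[simp] lemma chi_empty (w : Γ → Bool) : chi ∅ w = 1 := by simp [chi]

lemma chi_mul [DecidableEq Γ] (F H : Finset Γ) (w : Γ → Bool) :
    chi F w * chi H w = chi (F ∆ H) w := by
  have h1 : chi (F ∩ H) w * chi (F \ H) w = chi F w := Finset.prod_inter_mul_prod_sdiff F H _
  have h2 : chi (H ∩ F) w * chi (H \ F) w = chi H w := Finset.prod_inter_mul_prod_sdiff H F _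
  have h3 : chi (F ∩ H) w * chi (F ∩ H) w = 1 := by
    unfold chi
    rw [← Finset.prod_mul_distrib]
    exact Finset.prod_eq_one fun i _ => sgn_mul_self _
  have h4 : chi (F ∆ H) w = chi (F \ H) w * chi (H \ F) w := by
    unfold chi
    rw [symmDiff_def, Finset.sup_eq_union, Finset.prod_union disjoint_sdiff_sdiff]
  rw [Finset.inter_comm] at h2
  rw [h4, ← h1, ← h2]
  linear_combination (chi (F \ H) w * chi (H \ F) w) * h3

lemma abs_chi (F : Finset Γ) (w : Γ → Bool) : |chi F w| = 1 := by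
  unfold chi
  rw [Finset.abs_prod]
  exact Finset.prod_eq_one fun i _ => abs_sgn _

lemma measurable_chi (F : Finset Γ) : Measurable (chi F) := by
  unfold chi
  refine Finset.measurable_prod _ fun i _ => ?_
  exact (measurable_of_finite sgn).comp (measurable_pi_apply i)

lemma integrable_chi (F : Finset Γ) : Integrable (chi F) (mu0 Γ) := by
  refine Integrable.of_bound (measurable_chi F).aestronglyMeasurable 1 ?_
  exact Filter.Eventually.of_forall fun w => by rw [Real.norm_eq_abs, abs_chi]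

/-- flip of one coordinate -/
def flip [DecidableEq Γ] (i : Γ) (w : Γ → Bool) : Γ → Bool := fun j => if j = i then !w j else w j

lemma coin_map_not : coin.map (fun b : Bool => !b) = coin := by
  refine Measure.ext_of_singleton fun b => ?_
  rw [Measure.map_apply (measurable_of_finite _) (measurableSet_singleton b), coin_singleton]
  have : (fun b : Bool => !b) ⁻¹' {b} = {!b} := by
    ext x; cases x <;> cases b <;> simp
  rw [this, coin_singleton]

lemma mp_flip [DecidableEq Γ] (i : Γ) : MeasurePreserving (flip i) (mu0 Γ) (mu0 Γ) := by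
  have hf : ∀ j : Γ, Measurable (fun b : Bool => if j = i then !b else b) := fun j =>
    measurable_of_finite _
  refine ⟨?_, ?_⟩
  · refine measurable_pi_lambda _ fun j => ?_
    exact (hf j).comp (measurable_pi_apply j)
  · unfold mu0
    have h := Measure.infinitePi_map_pi (fun _ : Γ => coin) hf
    have h2 : (fun j : Γ => coin.map (fun b : Bool => if j = i then !b else b)) =
        fun _ => coin := by
      funext j
      by_cases hj : j = i
      · simp only [hj, if_true]; exact coin_map_not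
      · simp only [hj, if_false]; exact Measure.map_id
    simp only [h2] at h
    exact h

lemma chi_flip [DecidableEq Γ] {i : Γ} {F : Finset Γ} (hi : i ∈ F) (w : Γ → Bool) :
    chi F (flip i w) = - chi F w := by
  unfold chi
  rw [← Finset.mul_prod_erase F _ hi, ← Finset.mul_prod_erase F (fun h => sgn (w h)) hi]
  have h1 : sgn (flip i w i) = - sgn (w i) := by simp [flip, sgn_not]
  have h2 : ∏ x ∈ F.erase i, sgn (flip i w x) = ∏ x ∈ F.erase i, sgn (w x) := by
    refine Finset.prod_congr rfl fun j hj => ?_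
    simp [flip, Finset.ne_of_mem_erase hj]
  rw [h1, h2, neg_mul]

lemma integral_chi {F : Finset Γ} (hF : F ≠ ∅) : ∫ w, chi F w ∂(mu0 Γ) = 0 := by
  classical
  obtain ⟨i, hi⟩ := Finset.nonempty_iff_ne_empty.mpr hF
  have h1 : ∫ w, chi F (flip i w) ∂(mu0 Γ) = ∫ w, chi F w ∂(mu0 Γ) := by
    have := (mp_flip i).map_eq
    conv_rhs => rw [← this]
    rw [integral_map (mp_flip i).measurable.aemeasurable (measurable_chi F).aestronglyMeasurable]
  simp only [chi_flip hi] at h1
  rw [integral_neg] at h1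
  linarith

/-- finite Walsh sums -/
def W (c : Finset Γ →₀ ℝ) (w : Γ → Bool) : ℝ := c.sum fun F a => a * chi F w

lemma measurable_W (c : Finset Γ →₀ ℝ) : Measurable (W c) := by
  unfold W Finsupp.sum
  exact Finset.measurable_sum _ fun F _ => (measurable_chi F).const_mul _

lemma integral_W_mul_W (c d : Finset Γ →₀ ℝ) :
    ∫ w, W c w * W d w ∂(mu0 Γ) = c.sum fun F a => a * d F := by
  classical
  have h1 : ∀ w : Γ → Bool, W c w * W d w =
      ∑ F ∈ c.support, ∑ H ∈ d.support, (c F * d H) * chi (F ∆ H) w := by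
    intro w
    unfold W Finsupp.sum
    rw [Finset.sum_mul_sum]
    refine Finset.sum_congr rfl fun F _ => Finset.sum_congr rfl fun H _ => ?_
    rw [← chi_mul]; ring
  simp only [h1]
  rw [integral_finsetSum]
  swap
  · intro F _
    exact integrable_finsetSum _ fun H _ => (integrable_chi _).const_mul _
  unfold Finsupp.sum
  refine Finset.sum_congr rfl fun F _ => ?_
  rw [integral_finsetSum]
  swap
  · intro H _
    exact (integrable_chi _).const_mul _
  have h2 : ∀ H ∈ d.support, ∫ w, (c F * d H) * chi (F ∆ H) w ∂(mu0 Γ) =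
      if H = F then c F * d F else 0 := by
    intro H _
    rw [integral_const_mul]
    by_cases hHF : H = F
    · subst hHF
      simp
    · rw [integral_chi, mul_zero, if_neg hHF]
      intro h3
      rw [← Finset.bot_eq_empty, symmDiff_eq_bot] at h3
      exact hHF h3.symm
  rw [Finset.sum_congr rfl h2, Finset.sum_ite_eq']
  split_ifs with h
  · rfl
  · change 0 = c F * d F
    rw [Finsupp.notMem_support_iff.mp h, mul_zero]

/-- sets whose indicator is a finite Walsh sum -/
def Alg (Γ : Type*) : Set (Set (Γ → Bool)) :=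
  {S | ∃ c : Finset Γ →₀ ℝ, ∀ w, S.indicator (fun _ => (1 : ℝ)) w = W c w}

/-- span of the Walsh functions -/
def V (Γ : Type*) : Submodule ℝ ((Γ → Bool) → ℝ) := Submodule.span ℝ (Set.range (chi (Γ := Γ)))

lemma mem_V_iff {f : (Γ → Bool) → ℝ} : f ∈ V Γ ↔ ∃ c : Finset Γ →₀ ℝ, ∀ w, f w = W c w := by
  unfold V
  rw [Finsupp.mem_span_range_iff_exists_finsupp]
  have h : ∀ c : Finset Γ →₀ ℝ, (c.sum fun i a => a • chi (Γ := Γ) i) = W c := by
    intro c
    funext w
    unfold W Finsupp.sum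
    rw [Finset.sum_apply]
    rfl
  constructor
  · rintro ⟨c, hc⟩
    rw [h] at hc
    exact ⟨c, fun w => by rw [hc]⟩
  · rintro ⟨c, hc⟩
    exact ⟨c, by rw [h]; funext w; exact (hc w).symm⟩

lemma V_mul {f g : (Γ → Bool) → ℝ} (hf : f ∈ V Γ) (hg : g ∈ V Γ) : f * g ∈ V Γ := by
  classical
  have h1 : f * g ∈ V Γ * V Γ := Submodule.mul_mem_mul hf hg
  have h2 : V Γ * V Γ ≤ V Γ := by
    unfold V
    rw [Submodule.span_mul_span]
    refine Submodule.span_mono ?_
    rintro _ ⟨_, ⟨F, rfl⟩, _, ⟨H, rfl⟩, rfl⟩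
    exact ⟨F ∆ H, by funext w; exact (chi_mul F H w).symm⟩
  exact h2 h1

lemma V_one : (1 : (Γ → Bool) → ℝ) ∈ V Γ :=
  Submodule.subset_span ⟨∅, by funext w; simp⟩

lemma mem_Alg_iff {S : Set (Γ → Bool)} : S ∈ Alg Γ ↔ S.indicator (fun _ => (1 : ℝ)) ∈ V Γ := by
  rw [mem_V_iff]; rfl

lemma Alg_compl {S : Set (Γ → Bool)} (hS : S ∈ Alg Γ) : Sᶜ ∈ Alg Γ := by
  rw [mem_Alg_iff] at hS ⊢
  have : Sᶜ.indicator (fun _ => (1 : ℝ)) = 1 - S.indicator (fun _ => (1 : ℝ)) := by
    funext w
    by_cases hw : w ∈ S <;> simp [hw]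
  rw [this]
  exact Submodule.sub_mem _ V_one hS

lemma Alg_inter {S T : Set (Γ → Bool)} (hS : S ∈ Alg Γ) (hT : T ∈ Alg Γ) : S ∩ T ∈ Alg Γ := by
  rw [mem_Alg_iff] at hS hT ⊢
  have : (S ∩ T).indicator (fun _ => (1 : ℝ)) =
      S.indicator (fun _ => (1 : ℝ)) * T.indicator (fun _ => (1 : ℝ)) := by
    funext w
    by_cases hw : w ∈ S <;> by_cases hw' : w ∈ T <;> simp [hw, hw']
  rw [this]
  exact V_mul hS hT

lemma isSetAlgebra_Alg : IsSetAlgebra (Alg Γ) where
  empty_mem := by
    rw [mem_Alg_iff]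
    have : (∅ : Set (Γ → Bool)).indicator (fun _ => (1 : ℝ)) = 0 := by
      funext w; simp
    rw [this]
    exact Submodule.zero_mem _
  compl_mem _ hS := Alg_compl hS
  union_mem S T hS hT := by
    have : S ∪ T = (Sᶜ ∩ Tᶜ)ᶜ := by
      rw [Set.compl_inter, compl_compl, compl_compl]
    rw [this]
    exact Alg_compl (Alg_inter (Alg_compl hS) (Alg_compl hT))

lemma coord_mem_Alg (i : Γ) : {w : Γ → Bool | w i = true} ∈ Alg Γ := by
  rw [mem_Alg_iff]
  have : {w : Γ → Bool | w i = true}.indicator (fun _ => (1 : ℝ)) =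
      (1 / 2 : ℝ) • (1 : (Γ → Bool) → ℝ) + (1 / 2 : ℝ) • chi {i} := by
    funext w
    by_cases hw : w i = true
    · simp [hw, chi, sgn]; norm_num
    · simp [hw, chi, sgn]
  rw [this]
  exact Submodule.add_mem _ (Submodule.smul_mem _ _ V_one)
    (Submodule.smul_mem _ _ (Submodule.subset_span ⟨{i}, rfl⟩))

lemma measurableSet_of_mem_Alg {S : Set (Γ → Bool)} (hS : S ∈ Alg Γ) : MeasurableSet S := by
  obtain ⟨c, hc⟩ := hS
  have : S = W c ⁻¹' {1} := by
    ext w
    rw [Set.mem_preimage, Set.mem_singleton_iff, ← hc w]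
    by_cases hw : w ∈ S <;> simp [hw]
  rw [this]
  exact measurable_W c (measurableSet_singleton 1)

lemma generateFrom_Alg : (MeasurableSpace.pi : MeasurableSpace (Γ → Bool)) =
    MeasurableSpace.generateFrom (Alg Γ) := by
  apply le_antisymm
  · refine iSup_le fun i => ?_
    rintro _ ⟨B, -, rfl⟩
    have hgen : MeasurableSet[MeasurableSpace.generateFrom (Alg Γ)] {w : Γ → Bool | w i = true} :=
      MeasurableSpace.measurableSet_generateFrom (coord_mem_Alg i)
    have hmeas : Measurable[MeasurableSpace.generateFrom (Alg Γ)] (fun w : Γ → Bool => w i) := by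
      apply measurable_to_bool
      exact hgen
    exact hmeas (Set.toFinite B).measurableSet
  · exact MeasurableSpace.generateFrom_le fun S hS => measurableSet_of_mem_Alg hS

/-! ### the shift -/

variable [Group Γ]

/-- translation of finite sets -/
def tr (g : Γ) : Equiv.Perm (Finset Γ) := (Equiv.mulLeft g).finsetCongr

lemma tr_apply (g : Γ) (F : Finset Γ) : tr g F = F.map (Equiv.mulLeft g).toEmbedding := rfl

lemma tr_one (F : Finset Γ) : tr 1 F = F := by
  classical
  ext x
  rw [tr_apply, Finset.mem_map]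
  simp

lemma tr_mul (g h : Γ) (F : Finset Γ) : tr (g * h) F = tr g (tr h F) := by
  rw [tr_apply, tr_apply, tr_apply, Finset.map_map]
  congr 1
  ext x
  simp [mul_assoc]

lemma tr_symm (g : Γ) : (tr g).symm = tr g⁻¹ := by
  ext1 F
  rw [Equiv.symm_apply_eq, ← tr_mul, mul_inv_cancel, tr_one]

lemma tr_empty (g : Γ) : tr g ∅ = ∅ := by rw [tr_apply]; simp

lemma tr_eq_empty {g : Γ} {F : Finset Γ} : tr g F = ∅ ↔ F = ∅ := by
  rw [tr_apply]; simp

lemma chi_sh (g : Γ) (F : Finset Γ) (w : Γ → Bool) : chi F (sh g w) = chi (tr g⁻¹ F) w := by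
  unfold chi sh
  rw [tr_apply, Finset.prod_map]
  rfl

lemma W_sh (g : Γ) (c : Finset Γ →₀ ℝ) (w : Γ → Bool) :
    W c (sh g w) = W (c.equivMapDomain (tr g⁻¹)) w := by
  unfold W
  rw [Finsupp.equivMapDomain_eq_mapDomain, Finsupp.sum_mapDomain_index_inj (tr g⁻¹).injective]
  simp only [chi_sh]

lemma corr_eq {c : Finset Γ →₀ ℝ} {S : Set (Γ → Bool)}
    (hc : ∀ w, S.indicator (fun _ => (1 : ℝ)) w = W c w) (g : Γ) :
    (mu0 Γ).real (S ∩ sh g ⁻¹' S) = ∑' F, c F * c (tr g F) := by
  have hS : MeasurableSet S := measurableSet_of_mem_Alg ⟨c, hc⟩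
  have h1 : (mu0 Γ).real (S ∩ sh g ⁻¹' S) =
      ∫ w, W c w * W (c.equivMapDomain (tr g⁻¹)) w ∂(mu0 Γ) := by
    rw [← integral_indicator_one (hS.inter (measurable_sh g hS))]
    refine integral_congr_ae (Filter.Eventually.of_forall fun w => ?_)
    simp only
    rw [← W_sh, ← hc, ← hc]
    by_cases hw : w ∈ S <;> by_cases hw' : sh g w ∈ S <;> simp [hw, hw']
  rw [h1, integral_W_mul_W, tsum_eq_sum (s := c.support)]
  · unfold Finsupp.sum
    refine Finset.sum_congr rfl fun F _ => ?_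
    change c F * c ((tr g⁻¹).symm F) = c F * c (tr g F)
    rw [tr_symm, inv_inv]
  · intro F hF
    rw [Finsupp.notMem_support_iff.mp hF, zero_mul]

omit [Group Γ] in
lemma coef_empty {c : Finset Γ →₀ ℝ} {S : Set (Γ → Bool)}
    (hc : ∀ w, S.indicator (fun _ => (1 : ℝ)) w = W c w) :
    (mu0 Γ).real S = c ∅ := by
  have hS : MeasurableSet S := measurableSet_of_mem_Alg ⟨c, hc⟩
  have h1 : (mu0 Γ).real S = ∫ w, W c w * W (Finsupp.single ∅ 1) w ∂(mu0 Γ) := by
    rw [← integral_indicator_one hS]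
    refine integral_congr_ae (Filter.Eventually.of_forall fun w => ?_)
    simp only
    rw [← hc]
    have : W (Finsupp.single (∅ : Finset Γ) (1 : ℝ)) w = 1 := by
      unfold W
      rw [Finsupp.sum_single_index] <;> simp
    rw [this, mul_one]
    rfl
  rw [h1, integral_W_mul_W]
  unfold Finsupp.sum
  rw [Finset.sum_eq_single ∅]
  · simp
  · intro F _ hF
    change c F * (Finsupp.single ∅ 1 : Finset Γ →₀ ℝ) F = 0
    rw [Finsupp.single_eq_of_ne hF, mul_zero]
  · intro h
    change c ∅ * (Finsupp.single ∅ 1 : Finset Γ →₀ ℝ) ∅ = 0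
    rw [Finsupp.notMem_support_iff.mp h, zero_mul]

/-- the action of the free group on finite subsets -/
abbrev act (ι : FreeGroup (Fin 2) →* Γ) : MulAction (FreeGroup (Fin 2)) (Finset Γ) where
  smul g F := tr (ι g) F
  one_smul F := by
    change tr (ι 1) F = F
    rw [map_one, tr_one]
  mul_smul g h F := by
    change tr (ι (g * h)) F = tr (ι g) (tr (ι h) F)
    rw [map_mul, tr_mul]

lemma act_free {ι : FreeGroup (Fin 2) →* Γ} (hι : Function.Injective ι) {F : Finset Γ}
    (hF : F.Nonempty) {g : FreeGroup (Fin 2)} (h : tr (ι g) F = F) : g = 1 := by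
  obtain ⟨i, hi⟩ := hF
  have hmem : ∀ n : ℕ, (ι g) ^ n * i ∈ F := by
    intro n
    induction n with
    | zero => simpa using hi
    | succ n ih =>
      have h1 : (ι g) * ((ι g) ^ n * i) ∈ tr (ι g) F := by
        rw [tr_apply, Finset.mem_map]
        exact ⟨_, ih, rfl⟩
      rw [h] at h1
      rw [pow_succ', mul_assoc]
      exact h1
  have : ∃ m n : ℕ, m ≠ n ∧ (ι g) ^ m * i = (ι g) ^ n * i := by
    obtain ⟨m, n, hmn, he⟩ := Finite.exists_ne_map_eq_of_infinite
      (fun n : ℕ => (⟨(ι g) ^ n * i, hmem n⟩ : F))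
    exact ⟨m, n, hmn, congrArg Subtype.val he⟩
  obtain ⟨m, n, hmn, he⟩ := this
  have he' : (ι g) ^ m = (ι g) ^ n := mul_right_cancel he
  rw [← map_pow, ← map_pow] at he'
  have he2 : g ^ m = g ^ n := hι he'
  by_contra hg
  have hinj : Function.Injective (fun n : ℕ => g ^ n) := by
    rw [injective_pow_iff_not_isOfFinOrder]
    intro hfin
    rw [isOfFinOrder_iff_pow_eq_one] at hfin
    obtain ⟨k, hk, hk'⟩ := hfin
    exact hg ((pow_eq_one_iff_left hk.ne').mp hk')
  exact hmn (hinj he2)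

/-- the gap inequality for sets with finite Walsh expansion -/
lemma gap_Alg (ι : FreeGroup (Fin 2) →* Γ) (hι : Function.Injective ι) {S : Set (Γ → Bool)}
    (hS : S ∈ Alg Γ) :
    1 / 8 * ((mu0 Γ).real S * (1 - (mu0 Γ).real S)) ≤ (mu0 Γ).real S -
      (mu0 Γ).real (S ∩ sh (ι (.of 0)) ⁻¹' S ∩ sh (ι (.of 1)) ⁻¹' S) := by
  classical
  obtain ⟨c, hc⟩ := hS
  set m := (mu0 Γ).real S with hm
  set c0 : Finset Γ → ℝ := fun F => if F = ∅ then 0 else c F with hc0
  have hcfin : (Function.support c).Finite := c.hasFiniteSupport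
  have hsupp : Function.support c0 ⊆ Function.support c := by
    intro F hF
    rw [Function.mem_support] at hF ⊢
    simp only [hc0] at hF
    split_ifs at hF with h
    · exact absurd rfl hF
    · exact hF
  have hc0fin : (Function.support c0).Finite := hcfin.subset hsupp
  have key : ∀ g : Γ, (mu0 Γ).real (S ∩ sh g ⁻¹' S) = m ^ 2 + ∑' F, c0 F * c0 (tr g F) := by
    intro g
    rw [corr_eq hc g]
    have h1 : ∀ F : Finset Γ, c F * c (tr g F) =
        (if F = ∅ then m ^ 2 else 0) + c0 F * c0 (tr g F) := by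
      intro F
      simp only [hc0, tr_eq_empty]
      by_cases hF : F = ∅
      · subst hF
        rw [tr_empty, hm, coef_empty hc]; simp [sq]
      · simp [hF]
    rw [tsum_congr h1, Summable.tsum_add, tsum_ite_eq]
    · exact summable_of_hasFiniteSupport ((Set.finite_singleton (∅ : Finset Γ)).subset
        (by
          intro F hF
          by_contra h
          rw [Set.mem_singleton_iff] at h
          exact hF (if_neg h)))
    · refine summable_of_hasFiniteSupport (hc0fin.subset ?_)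
      intro F hF
      rw [Function.mem_support] at hF ⊢
      exact left_ne_zero_of_mul hF
  have hsq : ∑' F, c0 F ^ 2 = m - m ^ 2 := by
    have h1 := key 1
    have h2 : sh (1 : Γ) ⁻¹' S = S := by
      ext w; simp
    rw [h2, Set.inter_self, ← hm] at h1
    have h3 : ∀ F : Finset Γ, c0 F * c0 (tr 1 F) = c0 F ^ 2 := by
      intro F; rw [tr_one]; ring
    rw [tsum_congr h3] at h1
    linarith
  let _ := act ι
  have hk := kesten (Y := Finset Γ) c0 (by
      intro F hF g hg
      have hne : F.Nonempty := by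
        rw [Finset.nonempty_iff_ne_empty]
        intro h
        apply hF
        simp [hc0, h]
      exact act_free hι hne hg)
    (summable_of_hasFiniteSupport (hc0fin.subset (by
      intro F hF
      rw [Function.mem_support] at hF ⊢
      exact fun h => hF (by rw [h]; norm_num))))
  rw [hsq] at hk
  have ha := key (ι (.of 0))
  have hb := key (ι (.of 1))
  have hk' : (∑' F, c0 F * c0 (tr (ι (.of 0)) F)) + (∑' F, c0 F * c0 (tr (ι (.of 1)) F)) ≤
      7 / 4 * (m - m ^ 2) := hk
  have h1 : (mu0 Γ).real (S ∩ sh (ι (.of 0)) ⁻¹' S ∩ sh (ι (.of 1)) ⁻¹' S) ≤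
      (mu0 Γ).real (S ∩ sh (ι (.of 0)) ⁻¹' S) := measureReal_mono Set.inter_subset_left
  have h2 : (mu0 Γ).real (S ∩ sh (ι (.of 0)) ⁻¹' S ∩ sh (ι (.of 1)) ⁻¹' S) ≤
      (mu0 Γ).real (S ∩ sh (ι (.of 1)) ⁻¹' S) :=
    measureReal_mono (fun w hw => ⟨hw.1.1, hw.2⟩)
  nlinarith

omit [Group Γ] in
lemma abs_real_sub_le (A B : Set (Γ → Bool)) :
    |(mu0 Γ).real A - (mu0 Γ).real B| ≤ (mu0 Γ).real (A ∆ B) := by
  have h : ∀ A B : Set (Γ → Bool), (mu0 Γ).real A ≤ (mu0 Γ).real B + (mu0 Γ).real (A ∆ B) := by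
    intro A B
    calc (mu0 Γ).real A ≤ (mu0 Γ).real (B ∪ A ∆ B) := by
          refine measureReal_mono fun w hw => ?_
          by_cases hB : w ∈ B
          · exact Or.inl hB
          · exact Or.inr (Or.inl ⟨hw, hB⟩)
      _ ≤ _ := measureReal_union_le _ _
  rw [abs_le]
  constructor
  · have := h B A
    rw [symmDiff_comm] at this
    linarith
  · have := h A B
    linarith

/-- **Spectral gap** for Bernoulli shifts, restricted to a free subgroup of rank two. -/
theorem gap (ι : FreeGroup (Fin 2) →* Γ) (hι : Function.Injective ι) {S : Set (Γ → Bool)}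
    (hS : MeasurableSet S) :
    1 / 8 * ((mu0 Γ).real S * (1 - (mu0 Γ).real S)) ≤ (mu0 Γ).real S -
      (mu0 Γ).real (S ∩ sh (ι (.of 0)) ⁻¹' S ∩ sh (ι (.of 1)) ⁻¹' S) := by
  refine le_of_forall_pos_le_add fun ε hε => ?_
  have hdense := Measure.MeasureDense.of_generateFrom_isSetAlgebra_finite (μ := mu0 Γ)
    isSetAlgebra_Alg generateFrom_Alg
  obtain ⟨T, hT, hST⟩ := hdense.approx S hS (measure_ne_top _ _) (ε / 5) (by positivity)
  have hST' : (mu0 Γ).real (S ∆ T) < ε / 5 := by
    rw [measureReal_def]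
    exact (ENNReal.lt_ofReal_iff_toReal_lt (measure_ne_top _ _)).mp hST
  have hTm : MeasurableSet T := measurableSet_of_mem_Alg hT
  have hg := gap_Alg ι hι hT
  set a := ι (.of 0)
  set b := ι (.of 1)
  have h1 := abs_le.mp (abs_real_sub_le S T)
  have hpre : ∀ g : Γ, (mu0 Γ).real ((sh g ⁻¹' S) ∆ (sh g ⁻¹' T)) = (mu0 Γ).real (S ∆ T) := by
    intro g
    rw [← Set.preimage_symmDiff, measureReal_def, measureReal_def,
      (mp_sh g).measure_preimage (hS.symmDiff hTm).nullMeasurableSet]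
  have h2 : (mu0 Γ).real ((S ∩ sh a ⁻¹' S ∩ sh b ⁻¹' S) ∆ (T ∩ sh a ⁻¹' T ∩ sh b ⁻¹' T)) ≤
      3 * (mu0 Γ).real (S ∆ T) := by
    calc (mu0 Γ).real ((S ∩ sh a ⁻¹' S ∩ sh b ⁻¹' S) ∆ (T ∩ sh a ⁻¹' T ∩ sh b ⁻¹' T))
        ≤ (mu0 Γ).real ((S ∆ T) ∪ ((sh a ⁻¹' S) ∆ (sh a ⁻¹' T)) ∪ ((sh b ⁻¹' S) ∆ (sh b ⁻¹' T))) := by
          refine measureReal_mono fun w hw => ?_
          simp only [Set.mem_union, Set.mem_symmDiff, Set.mem_inter_iff] at hw ⊢
          tauto
      _ ≤ (mu0 Γ).real (S ∆ T) + (mu0 Γ).real ((sh a ⁻¹' S) ∆ (sh a ⁻¹' T)) +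
          (mu0 Γ).real ((sh b ⁻¹' S) ∆ (sh b ⁻¹' T)) := by
          refine (measureReal_union_le _ _).trans ?_
          gcongr
          exact measureReal_union_le _ _
      _ = _ := by rw [hpre, hpre]; ring
  have h3 := abs_le.mp ((abs_real_sub_le (S ∩ sh a ⁻¹' S ∩ sh b ⁻¹' S)
    (T ∩ sh a ⁻¹' T ∩ sh b ⁻¹' T)).trans h2)
  set s := (mu0 Γ).real S
  set t := (mu0 Γ).real T
  have hs0 : 0 ≤ s := measureReal_nonneg
  have hs1 : s ≤ 1 := measureReal_le_one
  have ht0 : 0 ≤ t := measureReal_nonneg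
  have ht1 : t ≤ 1 := measureReal_le_one
  have h4 : s * (1 - s) - t * (1 - t) ≤ (mu0 Γ).real (S ∆ T) := by
    have h5 : s * (1 - s) - t * (1 - t) = (s - t) * (1 - s - t) := by ring
    have h6 : |(s - t) * (1 - s - t)| ≤ (mu0 Γ).real (S ∆ T) * 1 := by
      rw [abs_mul]
      refine mul_le_mul (abs_real_sub_le S T) ?_ (abs_nonneg _) measureReal_nonneg
      rw [abs_le]; constructor <;> linarith
    rw [h5]
    exact (le_abs_self _).trans (h6.trans_eq (mul_one _))
  linarith [h1.1, h1.2, h3.1, h3.2]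

end

end Crest.Agent.R191.Gap
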