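import Crest.Agent.R191.Bernoulli
import Crest.Agent.R191.Gap

/-! Row 191, T17: `exists_action`. -/

set_option autoImplicit false

namespace Crest.Agent.R191

open MeasureTheory

theorem exists_action (Γ : Type) [Group Γ] [Countable Γ] (ι : F2 →* Γ)
    (hι : Function.Injective ι) :
    ∃ (X : Type) (_ : MeasurableSpace X) (_ : StandardBorelSpace X) (μ : Measure X)
      (_ : IsProbabilityMeasure μ) (_ : MulAction Γ X), FreeAct Γ X μ ∧
      (∀ S : Set X, MeasurableSet S → 1 / 100 * (μ.real S * (1 - μ.real S)) ≤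
        μ.real S - μ.real {y | y ∈ S ∧ ι la • y ∈ S ∧ ι lb • y ∈ S}) ∧
      ∃ U : Fin 4 → Set X, (∀ i, MeasurableSet (U i)) ∧ (∀ i, μ (U i) ≤ 1 / 4) ∧
        ⋃ i, U i = Set.univ := by
  refine Bern.exists_action_of_gap Γ ι hι (fun S hS => ?_)
  have h := Gap.gap ι hι hS
  have h0 : 0 ≤ (Bern.mu0 Γ).real S * (1 - (Bern.mu0 Γ).real S) :=
    mul_nonneg measureReal_nonneg (sub_nonneg.mpr measureReal_le_one)
  refine le_trans ?_ h
  nlinarith

end Crest.Agent.R191
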