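import Crest.Agent.R191.PathWord

/-!
# Row 191, T14: the typed graph of a finite family of chords
-/

set_option autoImplicit false

namespace Crest.Agent.R191

open MeasureTheory

namespace Build

theorem pathProd_append (l₁ l₂ : List (Fin 3 × Fin 3)) :
    pathProd (l₁ ++ l₂) = pathProd l₂ * pathProd l₁ := by
  induction l₁ with
  | nil => simp [pathProd]
  | cons a l₁ ih => simp [pathProd, ih, mul_assoc]

/-- the group element from the start to the `i`-th e-node of the path -/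
def pos (l : List (Fin 3 × Fin 3)) (i : ℕ) : F2 := pathProd (l.take i)

theorem pos_zero (l : List (Fin 3 × Fin 3)) : pos l 0 = 1 := by simp [pos, pathProd]

theorem pos_length (l : List (Fin 3 × Fin 3)) : pos l l.length = pathProd l := by simp [pos]

theorem pos_succ (l : List (Fin 3 × Fin 3)) (i : ℕ) (hi : i < l.length) :
    pos l (i + 1) = gam (l[i]).2 * (gam (l[i]).1)⁻¹ * pos l i := by
  unfold pos
  rw [List.take_succ_eq_append_getElem hi, pathProd_append]
  simp [pathProd]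

/-- data: a finite set of group elements and a path for each -/
structure Dat where
  F : Finset F2
  l : F2 → List (Fin 3 × Fin 3)
  nb : ∀ g ∈ F, NB (l g)
  prod : ∀ g ∈ F, pathProd (l g) = g
  one : ∀ g ∈ F, g ≠ 1

namespace Dat

variable (D : Dat)

/-- interior e-types -/
abbrev KeT : Type := Σ g : D.F, Fin ((D.l g).length - 1)
/-- interior P-types -/
abbrev KpT : Type := Σ g : D.F, Fin (D.l g).length

theorem length_pos {g : F2} (hg : g ∈ D.F) : 0 < (D.l g).length := by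
  rcases Nat.eq_zero_or_pos (D.l g).length with h | h
  · exfalso
    apply D.one g hg
    have := D.prod g hg
    rw [List.length_eq_zero_iff.mp h] at this
    exact this.symm
  · exact h

/-- the type of the `m`-th e-node of the path of `g` -/
def eN (g : D.F) (m : ℕ) : Ie D.KeT :=
  if h : m - 1 < (D.l g).length - 1 ∧ 0 < m then Sum.inr ⟨g, ⟨m - 1, h.1⟩⟩ else Sum.inl true

theorem eN_zero (g : D.F) : D.eN g 0 = Sum.inl true := by simp [eN]

theorem eN_length (g : D.F) : D.eN g (D.l g).length = Sum.inl true := by simp [eN]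

theorem eN_eq_inr {g g' : D.F} {m : ℕ} {i : Fin ((D.l g').length - 1)}
    (h : D.eN g m = Sum.inr ⟨g', i⟩) : g = g' ∧ m = (i : ℕ) + 1 := by
  unfold eN at h
  split_ifs at h with h1
  have h2 := Sum.inr_injective h
  obtain ⟨rfl, h3⟩ := Sigma.mk.inj_iff.mp h2
  refine ⟨rfl, ?_⟩
  have h4 := congrArg Fin.val (eq_of_heq h3)
  simp only at h4
  omega

theorem eN_succ (g : D.F) (i : Fin ((D.l g).length - 1)) :
    D.eN g ((i : ℕ) + 1) = Sum.inr ⟨g, i⟩ := by
  unfold eN
  rw [dif_pos ⟨by simp, Nat.succ_pos _⟩]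
  rfl

section
variable {X : Type*} [MulAction F2 X] (Ψ : Gr F2 X)

/-- presence of interior P-nodes -/
def pP (k : D.KpT) : Set X :=
  {y | (pos (D.l k.1) k.2)⁻¹ • gam ((D.l k.1)[k.2]).1 • y ∈ Ψ k.1}

/-- presence of interior e-nodes -/
def pE (k : D.KeT) : Set X := {x | (pos (D.l k.1) (k.2 + 1))⁻¹ • x ∈ Ψ k.1}

/-- The typed graph. -/
def tg : TG X D.KeT D.KpT where
  ed := fun j q a => match q, a with
    | Sum.inl c, Sum.inl false => {_y | j = c}
    | Sum.inl c, Sum.inl true => {_y | j = c + 1}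
    | Sum.inl _, Sum.inr _ => ∅
    | Sum.inr k, a => {y | y ∈ D.pP Ψ k ∧
        ((j = ((D.l k.1)[k.2]).1 ∧ a = D.eN k.1 k.2) ∨
          (j = ((D.l k.1)[k.2]).2 ∧ a = D.eN k.1 (k.2 + 1)))}
  pe := D.pE Ψ
  pp := D.pP Ψ

open Classical in
/-- The labelling. -/
noncomputable def lab : Lab X D.KeT D.KpT where
  ce := fun x a => match a with
    | Sum.inl b => Sum.inl b
    | Sum.inr k => if x ∈ D.pE Ψ k then Sum.inr k else Sum.inl true
  cp := fun y q => match q with
    | Sum.inl c => Sum.inl c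
    | Sum.inr k => if y ∈ D.pP Ψ k then Sum.inr k else Sum.inl 0

variable {Ψ}

theorem mem_pP_iff (k : D.KpT) (x : X) :
    (gam ((D.l k.1)[k.2]).1)⁻¹ • pos (D.l k.1) k.2 • x ∈ D.pP Ψ k ↔ x ∈ Ψ k.1 := by
  unfold pP
  rw [Set.mem_ofPred_eq, smul_inv_smul, inv_smul_smul]

theorem mem_pE_iff (k : D.KeT) (x : X) :
    pos (D.l k.1) (k.2 + 1) • x ∈ D.pE Ψ k ↔ x ∈ Ψ k.1 := by
  unfold pE
  rw [Set.mem_ofPred_eq, inv_smul_smul]

end

section
variable {X : Type*} [MulAction F2 X] [MeasurableSpace X] {μ : Measure X} {Ψ : Gr F2 X}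

theorem meas_pP (hF : FreeAct F2 X μ) (hΨ : Ψ.Meas) (k : D.KpT) : MeasurableSet (D.pP Ψ k) := by
  unfold pP
  have h1 := (hF.mp (gam ((D.l k.1)[k.2]).1)).measurable
  have h2 := (hF.mp (pos (D.l k.1) k.2)⁻¹).measurable
  exact (h2.comp h1) (hΨ k.1)

theorem meas_pE (hF : FreeAct F2 X μ) (hΨ : Ψ.Meas) (k : D.KeT) : MeasurableSet (D.pE Ψ k) := by
  unfold pE
  exact (hF.mp (pos (D.l k.1) (k.2 + 1))⁻¹).measurable (hΨ k.1)

theorem measure_pP (hF : FreeAct F2 X μ) (hΨ : Ψ.Meas) (k : D.KpT) :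
    μ (D.pP Ψ k) = μ (Ψ k.1) := by
  have h := (hF.mp (pos (D.l k.1) k.2)⁻¹).comp (hF.mp (gam ((D.l k.1)[k.2]).1))
  exact h.measure_preimage (hΨ k.1).nullMeasurableSet

theorem measure_pE (hF : FreeAct F2 X μ) (hΨ : Ψ.Meas) (k : D.KeT) :
    μ (D.pE Ψ k) = μ (Ψ k.1) :=
  (hF.mp (pos (D.l k.1) (k.2 + 1))⁻¹).measure_preimage (hΨ k.1).nullMeasurableSet

theorem tg_good (hF : FreeAct F2 X μ) (hΨ : Ψ.Meas) : (D.tg Ψ).Good where
  meas_ed := by
    intro j q a
    match q, a with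
    | Sum.inl c, Sum.inl false => exact MeasurableSet.const _
    | Sum.inl c, Sum.inl true => exact MeasurableSet.const _
    | Sum.inl c, Sum.inr _ => exact MeasurableSet.empty
    | Sum.inr k, Sum.inl b => exact (D.meas_pP hF hΨ k).inter (MeasurableSet.const _)
    | Sum.inr k, Sum.inr k' => exact (D.meas_pP hF hΨ k).inter (MeasurableSet.const _)
  meas_pe := fun k => D.meas_pE hF hΨ k
  meas_pp := fun k => D.meas_pP hF hΨ k
  core_in := fun j y => rfl
  core_out := fun j y => rfl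
  deg_e := by
    rintro ⟨g, i⟩ x hx
    have hi : (i : ℕ) + 1 < (D.l g).length := by have := i.2; omega
    have hi0 : (i : ℕ) < (D.l g).length := by omega
    have hx' : (pos (D.l g) (i + 1))⁻¹ • x ∈ Ψ g := hx
    set x0 := (pos (D.l g) (i + 1))⁻¹ • x with hx0
    have hxx : x = pos (D.l g) (i + 1) • x0 := by rw [hx0, smul_inv_smul]
    clear_value x0
    refine ⟨((D.l g)[(i : ℕ)]).2, ((D.l g)[(i : ℕ) + 1]).1, Sum.inr ⟨g, ⟨i, hi0⟩⟩,
      Sum.inr ⟨g, ⟨i + 1, hi⟩⟩, ?_, ⟨?_, ?_⟩, ⟨?_, ?_⟩⟩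
    · have := (D.nb g g.2).2
      rw [List.isChain_iff_getElem] at this
      exact this i hi
    · have e : (gam ((D.l g)[(i : ℕ)]).2)⁻¹ • x =
          (gam ((D.l g)[(i : ℕ)]).1)⁻¹ • pos (D.l g) i • x0 := by
        rw [hxx, pos_succ _ _ hi0, ← mul_smul, ← mul_smul]
        group
      rw [e]
      exact (D.mem_pP_iff ⟨g, ⟨i, hi0⟩⟩ x0).mpr hx'
    · exact Or.inr ⟨rfl, (D.eN_succ g i).symm⟩
    · have := (D.mem_pP_iff (Ψ := Ψ) ⟨g, ⟨i + 1, hi⟩⟩ x0).mpr hx'
      rw [hxx]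
      exact this
    · exact Or.inl ⟨rfl, (D.eN_succ g i).symm⟩
  deg_p := by
    rintro ⟨g, i⟩ y hy
    refine ⟨((D.l g)[(i : ℕ)]).1, ((D.l g)[(i : ℕ)]).2, D.eN g i, D.eN g (i + 1), ?_, ?_, ?_⟩
    · exact (D.nb g g.2).1 _ (List.getElem_mem _)
    · exact ⟨hy, Or.inl ⟨rfl, rfl⟩⟩
    · exact ⟨hy, Or.inr ⟨rfl, rfl⟩⟩
  abs_e := by
    rintro ⟨g, i⟩ j q y hy
    match q with
    | Sum.inl c => exact absurd hy (Set.notMem_empty _)
    | Sum.inr ⟨g', i'⟩ =>
      obtain ⟨hy1, hy2⟩ := hy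
      have hy1' : (pos (D.l g') i')⁻¹ • gam ((D.l g')[(i' : ℕ)]).1 • y ∈ Ψ g' := hy1
      rcases hy2 with ⟨hj, ha⟩ | ⟨hj, ha⟩
      · obtain ⟨rfl, h2⟩ := D.eN_eq_inr ha.symm
        change (pos (D.l g') (i + 1))⁻¹ • gam j • y ∈ Ψ g'
        rw [← h2, hj]
        exact hy1'
      · obtain ⟨rfl, h2⟩ := D.eN_eq_inr ha.symm
        change (pos (D.l g') (i + 1))⁻¹ • gam j • y ∈ Ψ g'
        rw [← h2, hj, pos_succ _ _ i'.2]
        have e : (gam ((D.l g')[(i' : ℕ)]).2 * (gam ((D.l g')[(i' : ℕ)]).1)⁻¹ *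
            pos (D.l g') i')⁻¹ • gam ((D.l g')[(i' : ℕ)]).2 • y =
            (pos (D.l g') i')⁻¹ • gam ((D.l g')[(i' : ℕ)]).1 • y := by
          rw [← mul_smul, ← mul_smul]; group
        exact e ▸ hy1'
  abs_p := by
    rintro ⟨g, i⟩ j a y hy
    match a with
    | Sum.inl b => exact hy.1
    | Sum.inr k => exact hy.1

theorem lab_good (hF : FreeAct F2 X μ) (hΨ : Ψ.Meas) : (D.lab Ψ).Good (D.tg Ψ) where
  meas_e := by
    intro a l
    match a with
    | Sum.inl b => exact (MeasurableSet.const (Sum.inl b = l) : MeasurableSet {_x : X | Sum.inl b = l})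
    | Sum.inr k =>
      have : {x : X | (D.lab Ψ).ce x (Sum.inr k) = l} =
          (D.pE Ψ k ∩ {_x | Sum.inr k = l}) ∪ ((D.pE Ψ k)ᶜ ∩ {_x | Sum.inl true = l}) := by
        ext x
        by_cases hx : x ∈ D.pE Ψ k <;> simp [lab, hx]
      rw [this]
      exact ((D.meas_pE hF hΨ k).inter (MeasurableSet.const _)).union
        ((D.meas_pE hF hΨ k).compl.inter (MeasurableSet.const _))
  meas_p := by
    intro a l
    match a with
    | Sum.inl b => exact (MeasurableSet.const (Sum.inl b = l) : MeasurableSet {_x : X | Sum.inl b = l})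
    | Sum.inr k =>
      have : {x : X | (D.lab Ψ).cp x (Sum.inr k) = l} =
          (D.pP Ψ k ∩ {_x | Sum.inr k = l}) ∪ ((D.pP Ψ k)ᶜ ∩ {_x | Sum.inl 0 = l}) := by
        ext x
        by_cases hx : x ∈ D.pP Ψ k <;> simp [lab, hx]
      rw [this]
      exact ((D.meas_pP hF hΨ k).inter (MeasurableSet.const _)).union
        ((D.meas_pP hF hΨ k).compl.inter (MeasurableSet.const _))
  abs_e := by
    intro k x hx
    have hx' : x ∉ D.pE Ψ k := hx
    simp [lab, hx']
  abs_p := by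
    intro k x hx
    have hx' : x ∉ D.pP Ψ k := hx
    simp [lab, hx']

omit [MeasurableSpace X] in
theorem lab_S : (D.lab Ψ).S = ∅ := by
  ext x
  simp [Lab.S, lab]

end

/-! ### counting -/

section count
variable {X : Type*} [MulAction F2 X] {Ψ : Gr F2 X}

open Classical in
theorem nVe_eq (x : X) : nVe (D.lab Ψ) x =
    2 + ∑ k : D.KeT, (if x ∈ D.pE Ψ k then 1 else 0) := by
  have h : (Finset.univ.image ((D.lab Ψ).ce x)) =
      Finset.disjSum (Finset.univ : Finset Bool)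
        ((Finset.univ : Finset D.KeT).filter (fun k => x ∈ D.pE Ψ k)) := by
    ext a
    rw [Finset.mem_image, Finset.mem_disjSum]
    constructor
    · rintro ⟨a', -, rfl⟩
      match a' with
      | Sum.inl b => exact Or.inl ⟨b, Finset.mem_univ _, rfl⟩
      | Sum.inr k =>
        by_cases hk : x ∈ D.pE Ψ k
        · refine Or.inr ⟨k, by simpa using hk, by simp [lab, hk]⟩
        · refine Or.inl ⟨true, Finset.mem_univ _, by simp [lab, hk]⟩
    · rintro (⟨b, -, rfl⟩ | ⟨k, hk, rfl⟩)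
      · exact ⟨Sum.inl b, Finset.mem_univ _, rfl⟩
      · have hk' : x ∈ D.pE Ψ k := by simpa using hk
        exact ⟨Sum.inr k, Finset.mem_univ _, by simp [lab, hk']⟩
  unfold nVe
  have h2 : (Finset.image ((D.lab Ψ).ce x) Finset.univ).card =
      (Finset.disjSum (Finset.univ : Finset Bool)
        ((Finset.univ : Finset D.KeT).filter (fun k => x ∈ D.pE Ψ k))).card := by
    rw [← h]
  rw [h2, Finset.card_disjSum, Finset.card_filter]
  rfl

open Classical in
theorem nVp_eq (x : X) : nVp (D.lab Ψ) x =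
    3 + ∑ k : D.KpT, (if x ∈ D.pP Ψ k then 1 else 0) := by
  have h : (Finset.univ.image ((D.lab Ψ).cp x)) =
      Finset.disjSum (Finset.univ : Finset (Fin 3))
        ((Finset.univ : Finset D.KpT).filter (fun k => x ∈ D.pP Ψ k)) := by
    ext a
    rw [Finset.mem_image, Finset.mem_disjSum]
    constructor
    · rintro ⟨a', -, rfl⟩
      match a' with
      | Sum.inl b => exact Or.inl ⟨b, Finset.mem_univ _, rfl⟩
      | Sum.inr k =>
        by_cases hk : x ∈ D.pP Ψ k
        · refine Or.inr ⟨k, by simpa using hk, by simp [lab, hk]⟩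
        · refine Or.inl ⟨0, Finset.mem_univ _, by simp [lab, hk]⟩
    · rintro (⟨b, -, rfl⟩ | ⟨k, hk, rfl⟩)
      · exact ⟨Sum.inl b, Finset.mem_univ _, rfl⟩
      · have hk' : x ∈ D.pP Ψ k := by simpa using hk
        exact ⟨Sum.inr k, Finset.mem_univ _, by simp [lab, hk']⟩
  unfold nVp
  have h2 : (Finset.image ((D.lab Ψ).cp x) Finset.univ).card =
      (Finset.disjSum (Finset.univ : Finset (Fin 3))
        ((Finset.univ : Finset D.KpT).filter (fun k => x ∈ D.pP Ψ k))).card := by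
    rw [← h]
  rw [h2, Finset.card_disjSum, Finset.card_filter]
  rfl

open Classical in
/-- total number of edges over `P_y` -/
theorem edSet_le (y : X) : ∀ j : Fin 3, (edSet (D.tg Ψ) (D.lab Ψ) j y).card ≤
    ∑ q : Ip D.KpT, ∑ a : Ie D.KeT, (if y ∈ (D.tg Ψ).ed j q a then 1 else 0) := by
  intro j
  unfold edSet
  refine Finset.card_image_le.trans ?_
  rw [Finset.card_filter, ← Finset.univ_product_univ, Finset.sum_product]

open Classical in
theorem sum_ed_le (y : X) : ∑ j : Fin 3, ∑ q : Ip D.KpT, ∑ a : Ie D.KeT,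
      (if y ∈ (D.tg Ψ).ed j q a then 1 else 0) ≤
    6 + 2 * ∑ k : D.KpT, (if y ∈ D.pP Ψ k then 1 else 0) := by
  rw [Finset.sum_comm, Fintype.sum_sum_type]
  refine Nat.add_le_add ?_ ?_
  · -- core
    have : ∀ c : Fin 3, ∑ j : Fin 3, ∑ a : Ie D.KeT,
        (if y ∈ (D.tg Ψ).ed j (Sum.inl c) a then 1 else 0) = 2 := by
      intro c
      have e : ∀ j : Fin 3, ∑ a : Ie D.KeT,
        (if y ∈ (D.tg Ψ).ed j (Sum.inl c) a then 1 else 0) =
          (if j = c + 1 then 1 else 0) + (if j = c then 1 else 0) := by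
        intro j
        rw [Fintype.sum_sum_type, Fintype.sum_bool]
        have h3 : ∑ k : D.KeT, (if y ∈ (D.tg Ψ).ed j (Sum.inl c) (Sum.inr k) then 1 else 0) = 0 := by
          refine Finset.sum_eq_zero fun k _ => ?_
          rw [if_neg]
          exact Set.notMem_empty _
        have h1 : y ∈ (D.tg Ψ).ed j (Sum.inl c) (Sum.inl true) ↔ j = c + 1 := Iff.rfl
        have h2 : y ∈ (D.tg Ψ).ed j (Sum.inl c) (Sum.inl false) ↔ j = c := Iff.rfl
        rw [h3, add_zero]
        simp only [h1, h2]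
      rw [Finset.sum_congr rfl fun j _ => e j, Finset.sum_add_distrib]
      simp
    rw [Finset.sum_congr rfl fun c _ => this c]
    simp
  · rw [Finset.mul_sum]
    refine Finset.sum_le_sum fun k _ => ?_
    by_cases hy : y ∈ D.pP Ψ k
    · rw [if_pos hy]
      have e : ∀ (j : Fin 3) (a : Ie D.KeT),
          (if y ∈ (D.tg Ψ).ed j (Sum.inr k) a then 1 else 0) ≤
          (if j = ((D.l k.1)[k.2]).1 then (if a = D.eN k.1 k.2 then 1 else 0) else 0) +
          (if j = ((D.l k.1)[k.2]).2 then (if a = D.eN k.1 (k.2 + 1) then 1 else 0) else 0) := by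
        intro j a
        by_cases h : y ∈ (D.tg Ψ).ed j (Sum.inr k) a
        · rw [if_pos h]
          have h' : (j = ((D.l k.1)[k.2]).1 ∧ a = D.eN k.1 k.2) ∨
              (j = ((D.l k.1)[k.2]).2 ∧ a = D.eN k.1 (k.2 + 1)) := by
            match a, h with
            | Sum.inl b, h => exact h.2
            | Sum.inr k', h => exact h.2
          rcases h' with ⟨h1, h2⟩ | ⟨h1, h2⟩
          · rw [if_pos h1, if_pos h2]; omega
          · rw [if_pos h1, if_pos h2]; omega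
        · rw [if_neg h]; omega
      refine (Finset.sum_le_sum fun j _ => Finset.sum_le_sum fun a _ => e j a).trans ?_
      simp only [Finset.sum_add_distrib]
      simp
    · have : ∀ (j : Fin 3) (a : Ie D.KeT),
          (if y ∈ (D.tg Ψ).ed j (Sum.inr k) a then 1 else 0) = 0 := by
        intro j a
        rw [if_neg]
        intro h
        match a, h with
        | Sum.inl b, h => exact hy h.1
        | Sum.inr k', h => exact hy h.1
      rw [Finset.sum_congr rfl fun j _ => Finset.sum_congr rfl fun a _ => this j a]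
      simp

end count

/-! ### connectivity -/

section conn
variable {X : Type*} [MulAction F2 X] {Ψ : Gr F2 X}

theorem chord_conn (g : D.F) (x : X) (hx : x ∈ Ψ g) (i : ℕ) (hi : i ≤ (D.l g).length) :
    Relation.EqvGen (D.tg Ψ).Adj (Sum.inl (x, Sum.inl true))
      (Sum.inl (pos (D.l g) i • x, D.eN g i)) := by
  induction i with
  | zero => rw [pos_zero, one_smul, D.eN_zero]; exact Relation.EqvGen.refl _
  | succ i ih =>
    have hi' : i < (D.l g).length := hi
    refine (ih hi'.le).trans _ _ _ ?_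
    set y := (gam ((D.l g)[i]).1)⁻¹ • pos (D.l g) i • x with hy
    have hmem : y ∈ D.pP Ψ ⟨g, ⟨i, hi'⟩⟩ := (D.mem_pP_iff ⟨g, ⟨i, hi'⟩⟩ x).mpr hx
    have e1 : (D.tg Ψ).Adj (Sum.inr (y, Sum.inr ⟨g, ⟨i, hi'⟩⟩))
        (Sum.inl (pos (D.l g) i • x, D.eN g i)) := by
      refine ⟨((D.l g)[i]).1, y, Sum.inr ⟨g, ⟨i, hi'⟩⟩, D.eN g i, ?_, rfl, ?_⟩
      · exact ⟨hmem, Or.inl ⟨rfl, rfl⟩⟩
      · rw [hy, smul_inv_smul]
    have e2 : (D.tg Ψ).Adj (Sum.inr (y, Sum.inr ⟨g, ⟨i, hi'⟩⟩))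
        (Sum.inl (pos (D.l g) (i + 1) • x, D.eN g (i + 1))) := by
      refine ⟨((D.l g)[i]).2, y, Sum.inr ⟨g, ⟨i, hi'⟩⟩, D.eN g (i + 1), ?_, rfl, ?_⟩
      · exact ⟨hmem, Or.inr ⟨rfl, rfl⟩⟩
      · rw [hy, pos_succ _ _ hi', mul_smul, mul_smul]
    exact ((Relation.EqvGen.rel _ _ e1).symm _ _).trans _ _ _ (Relation.EqvGen.rel _ _ e2)

theorem chord_conn' (g : D.F) (x : X) (hx : x ∈ Ψ g) :
    Relation.EqvGen (D.tg Ψ).Adj (Sum.inl (x, Sum.inl true))
      (Sum.inl ((g : F2) • x, Sum.inl true)) := by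
  have h := D.chord_conn g x hx (D.l g).length le_rfl
  rwa [pos_length, D.prod g g.2, D.eN_length] at h

/-- corner `j` joins `in (gam j • y)` with `out (gam (j+1) • y)` -/
theorem corner_conn (j : Fin 3) (y : X) :
    Relation.EqvGen (D.tg Ψ).Adj (Sum.inl (gam j • y, Sum.inl false))
      (Sum.inl (gam (j + 1) • y, Sum.inl true)) := by
  have e1 : (D.tg Ψ).Adj (Sum.inr (y, Sum.inl j)) (Sum.inl (gam j • y, Sum.inl false)) :=
    ⟨j, y, Sum.inl j, Sum.inl false, rfl, rfl, rfl⟩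
  have e2 : (D.tg Ψ).Adj (Sum.inr (y, Sum.inl j)) (Sum.inl (gam (j + 1) • y, Sum.inl true)) :=
    ⟨j + 1, y, Sum.inl j, Sum.inl true, rfl, rfl, rfl⟩
  exact ((Relation.EqvGen.rel _ _ e1).symm _ _).trans _ _ _ (Relation.EqvGen.rel _ _ e2)

theorem corner_conn' (j : Fin 3) (z : X) :
    Relation.EqvGen (D.tg Ψ).Adj (Sum.inl (z, Sum.inl false))
      (Sum.inl ((gam (j + 1) * (gam j)⁻¹) • z, Sum.inl true)) := by
  have h := D.corner_conn (Ψ := Ψ) j ((gam j)⁻¹ • z)
  rwa [smul_inv_smul, ← mul_smul] at h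

theorem out_conn (i j : Fin 3) (z : X) :
    Relation.EqvGen (D.tg Ψ).Adj
      (Sum.inl (z, Sum.inl true))
      (Sum.inl ((gam (j + 1) * (gam j)⁻¹ * (gam (i + 1) * (gam i)⁻¹)⁻¹) • z, Sum.inl true)) := by
  have h1 := D.corner_conn' (Ψ := Ψ) i ((gam (i + 1) * (gam i)⁻¹)⁻¹ • z)
  have h2 := D.corner_conn' (Ψ := Ψ) j ((gam (i + 1) * (gam i)⁻¹)⁻¹ • z)
  rw [smul_inv_smul] at h1
  rw [← mul_smul] at h2
  exact (h1.symm _ _).trans _ _ _ h2

theorem out_conn_EF (h : F2) (hh : h ∈ EF) : ∀ z : X,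
    Relation.EqvGen (D.tg Ψ).Adj
      (Sum.inl (z, Sum.inl true)) (Sum.inl (h • z, Sum.inl true)) := by
  unfold EF at hh
  induction hh using Subgroup.closure_induction with
  | mem x hx =>
    intro z
    rcases hx with rfl | rfl
    · have := D.out_conn (Ψ := Ψ) 2 0 z
      have e : gam (0 + 1) * (gam 0)⁻¹ * (gam (2 + 1) * (gam 2)⁻¹)⁻¹ = la * lb := by
        simp [gam]
      rwa [e] at this
    · have := D.out_conn (Ψ := Ψ) 2 1 z
      have e : gam (1 + 1) * (gam 1)⁻¹ * (gam (2 + 1) * (gam 2)⁻¹)⁻¹ = lb * la⁻¹ * lb := by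
        simp [gam]
      rwa [e] at this
  | one => intro z; rw [one_smul]; exact Relation.EqvGen.refl _
  | mul x y _ _ hx hy =>
    intro z
    rw [mul_smul]
    exact (hy z).trans _ _ _ (hx _)
  | inv x _ hx =>
    intro z
    have := hx (x⁻¹ • z)
    rw [smul_inv_smul] at this
    exact this.symm _ _

theorem conn (hall : ∀ g : F2, (Ψ g).Nonempty → g ≠ 1 → g ∈ D.F) {p q : X}
    (h : Gen (OR EF) Ψ p q) :
    Relation.EqvGen (D.tg Ψ).Adj (Sum.inl (p, Sum.inl true)) (Sum.inl (q, Sum.inl true)) := by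
  unfold Gen at h
  induction h with
  | rel p q h =>
    rcases h with ⟨e, he, rfl⟩ | ⟨g, hg, rfl⟩
    · exact D.out_conn_EF e he p
    · by_cases hg1 : g = 1
      · subst hg1; rw [one_smul]; exact Relation.EqvGen.refl _
      · exact D.chord_conn' ⟨g, hall g ⟨p, hg⟩ hg1⟩ p hg
  | refl p => exact Relation.EqvGen.refl _
  | symm p q _ ih => exact ih.symm _ _
  | trans p q r _ _ ih1 ih2 => exact ih1.trans _ _ _ ih2

end conn

/-! ### the excess -/

section exc
variable {X : Type*} [MulAction F2 X] [MeasurableSpace X] {μ : Measure X}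
  [IsProbabilityMeasure μ] {Ψ : Gr F2 X}

omit [MulAction F2 X] in
open Classical in
theorem integrable_ind {s : Set X} (hs : MeasurableSet s) :
    Integrable (fun y => ((if y ∈ s then 1 else 0 : ℕ) : ℝ)) μ := by
  have e : (fun y => ((if y ∈ s then 1 else 0 : ℕ) : ℝ)) = s.indicator (fun _ => (1 : ℝ)) := by
    ext y
    by_cases hy : y ∈ s <;> simp [hy]
  rw [e]
  exact (integrable_const (1 : ℝ)).indicator hs

omit [MulAction F2 X] [IsProbabilityMeasure μ] in
open Classical in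
theorem integral_ind {s : Set X} (hs : MeasurableSet s) :
    ∫ y, ((if y ∈ s then 1 else 0 : ℕ) : ℝ) ∂μ = μ.real s := by
  have e : (fun y => ((if y ∈ s then 1 else 0 : ℕ) : ℝ)) = s.indicator (fun _ => (1 : ℝ)) := by
    ext y
    by_cases hy : y ∈ s <;> simp [hy]
  rw [e, integral_indicator_const _ hs]
  simp

theorem integral_nVe (hF : FreeAct F2 X μ) (hΨ : Ψ.Meas) :
    ∫ x, (nVe (D.lab Ψ) x : ℝ) ∂μ = 2 + ∑ k : D.KeT, μ.real (Ψ k.1) := by
  classical
  have e : ∀ x, (nVe (D.lab Ψ) x : ℝ) =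
      2 + ∑ k : D.KeT, ((if x ∈ D.pE Ψ k then 1 else 0 : ℕ) : ℝ) := by
    intro x
    rw [D.nVe_eq x]
    push_cast
    rfl
  simp only [e]
  rw [integral_add (integrable_const _)
    (integrable_finsetSum _ fun k _ => integrable_ind (D.meas_pE hF hΨ k)),
    integral_finsetSum _ fun k _ => integrable_ind (D.meas_pE hF hΨ k)]
  congr 1
  · simp
  · refine Finset.sum_congr rfl fun k _ => ?_
    rw [integral_ind (D.meas_pE hF hΨ k), Measure.real, Measure.real, D.measure_pE hF hΨ k]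

theorem integral_nVp (hF : FreeAct F2 X μ) (hΨ : Ψ.Meas) :
    ∫ x, (nVp (D.lab Ψ) x : ℝ) ∂μ = 3 + ∑ k : D.KpT, μ.real (Ψ k.1) := by
  classical
  have e : ∀ x, (nVp (D.lab Ψ) x : ℝ) =
      3 + ∑ k : D.KpT, ((if x ∈ D.pP Ψ k then 1 else 0 : ℕ) : ℝ) := by
    intro x
    rw [D.nVp_eq x]
    push_cast
    rfl
  simp only [e]
  rw [integral_add (integrable_const _)
    (integrable_finsetSum _ fun k _ => integrable_ind (D.meas_pP hF hΨ k)),
    integral_finsetSum _ fun k _ => integrable_ind (D.meas_pP hF hΨ k)]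
  congr 1
  · simp
  · refine Finset.sum_congr rfl fun k _ => ?_
    rw [integral_ind (D.meas_pP hF hΨ k), Measure.real, Measure.real, D.measure_pP hF hΨ k]

theorem integral_ed (hF : FreeAct F2 X μ) (hΨ : Ψ.Meas) :
    ∑ j : Fin 3, ∫ y, ((edSet (D.tg Ψ) (D.lab Ψ) j y).card : ℝ) ∂μ ≤
      6 + 2 * ∑ k : D.KpT, μ.real (Ψ k.1) := by
  classical
  have hm := (D.tg_good hF hΨ).meas_ed
  have h1 : ∀ j : Fin 3, ∫ y, ((edSet (D.tg Ψ) (D.lab Ψ) j y).card : ℝ) ∂μ ≤
      ∫ y, ∑ q : Ip D.KpT, ∑ a : Ie D.KeT,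
        ((if y ∈ (D.tg Ψ).ed j q a then 1 else 0 : ℕ) : ℝ) ∂μ := by
    intro j
    refine integral_mono_of_nonneg (Filter.Eventually.of_forall fun y => by positivity) ?_
      (Filter.Eventually.of_forall fun y => ?_)
    · exact integrable_finsetSum _ fun q _ => integrable_finsetSum _ fun a _ =>
        integrable_ind (hm j q a)
    · have := D.edSet_le (Ψ := Ψ) y j
      beta_reduce
      exact_mod_cast this
  refine (Finset.sum_le_sum fun j _ => h1 j).trans ?_
  rw [← integral_finsetSum _ fun j _ => integrable_finsetSum _ fun q _ =>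
    integrable_finsetSum _ fun a _ => integrable_ind (hm j q a)]
  have h2 : ∫ y, ∑ j : Fin 3, ∑ q : Ip D.KpT, ∑ a : Ie D.KeT,
        ((if y ∈ (D.tg Ψ).ed j q a then 1 else 0 : ℕ) : ℝ) ∂μ ≤
      ∫ y, (6 + 2 * ∑ k : D.KpT, ((if y ∈ D.pP Ψ k then 1 else 0 : ℕ) : ℝ)) ∂μ := by
    refine integral_mono_of_nonneg (Filter.Eventually.of_forall fun y => by positivity) ?_
      (Filter.Eventually.of_forall fun y => ?_)
    · exact (integrable_const _).add (Integrable.const_mul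
        (integrable_finsetSum _ fun k _ => integrable_ind (D.meas_pP hF hΨ k)) _)
    · have := D.sum_ed_le (Ψ := Ψ) y
      beta_reduce
      exact_mod_cast this
  refine h2.trans (le_of_eq ?_)
  rw [integral_add (integrable_const _) (Integrable.const_mul
        (integrable_finsetSum _ fun k _ => integrable_ind (D.meas_pP hF hΨ k)) _),
    integral_const_mul, integral_finsetSum _ fun k _ => integrable_ind (D.meas_pP hF hΨ k)]
  congr 1
  · simp
  · congr 1
    refine Finset.sum_congr rfl fun k _ => ?_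
    rw [integral_ind (D.meas_pP hF hΨ k), Measure.real, Measure.real, D.measure_pP hF hΨ k]

theorem exc_le (hF : FreeAct F2 X μ) (hΨ : Ψ.Meas) :
    Exc μ (D.tg Ψ) (D.lab Ψ) ≤ 1 + ∑ g : D.F, μ.real (Ψ g) := by
  unfold Exc
  rw [D.integral_nVe hF hΨ, D.integral_nVp hF hΨ]
  have h := D.integral_ed (μ := μ) hF hΨ
  have h1 : ∑ k : D.KpT, μ.real (Ψ k.1) = ∑ g : D.F, ((D.l g).length : ℝ) * μ.real (Ψ g) := by
    rw [Fintype.sum_sigma]
    refine Finset.sum_congr rfl fun g _ => ?_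
    simp
  have h2 : ∑ k : D.KeT, μ.real (Ψ k.1) =
      ∑ g : D.F, (((D.l g).length : ℝ) - 1) * μ.real (Ψ g) := by
    rw [Fintype.sum_sigma]
    refine Finset.sum_congr rfl fun g _ => ?_
    have := D.length_pos g.2
    simp [Nat.cast_sub (show 1 ≤ (D.l g).length from this)]
  have h3 : ∑ g : D.F, ((D.l g).length : ℝ) * μ.real (Ψ g) -
      ∑ g : D.F, (((D.l g).length : ℝ) - 1) * μ.real (Ψ g) = ∑ g : D.F, μ.real (Ψ g) := by
    rw [← Finset.sum_sub_distrib]
    refine Finset.sum_congr rfl fun g _ => by ring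
  rw [h2]
  rw [h1] at h ⊢
  linarith

end exc

end Dat

end Build

/-- T14 `BuildTG.lean` : the typed graph of a finite family of chords. -/
theorem build {X : Type*} [MulAction F2 X] [MeasurableSpace X] {μ : Measure X}
    [IsProbabilityMeasure μ] (hF : FreeAct F2 X μ) {Ψ : Gr F2 X} (hΨ : Ψ.Meas)
    (hfin : Ψ.FinSupp) (hcost : Ψ.cost μ ≠ ⊤)
    (hgen : ∀ x : X, Gen (OR EF) Ψ x (la • x)) :
    ∃ (Ke Kp : Type) (_ : Fintype Ke) (_ : Fintype Kp) (_ : DecidableEq Ke) (_ : DecidableEq Kp)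
      (T : TG X Ke Kp) (L : Lab X Ke Kp), T.Good ∧ L.Good T ∧ L.S = ∅ ∧
      Exc μ T L ≤ 1 + (Ψ.cost μ).toReal ∧
      ∀ x : X, Relation.EqvGen T.Adj (Sum.inl (x, Sum.inl true)) (Sum.inl (x, Sum.inl false)) := by
  classical
  choose l hl1 hl2 using exists_path
  let D : Build.Dat :=
    { F := hfin.toFinset.filter (fun g => g ≠ 1)
      l := l
      nb := fun g _ => hl1 g
      prod := fun g _ => hl2 g
      one := fun g hg => (Finset.mem_filter.mp hg).2 }
  refine ⟨D.KeT, D.KpT, inferInstance, inferInstance, inferInstance, inferInstance,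
    D.tg Ψ, D.lab Ψ, D.tg_good hF hΨ, D.lab_good hF hΨ, D.lab_S, ?_, ?_⟩
  · refine (D.exc_le hF hΨ).trans ?_
    have h : ∑ g : D.F, μ.real (Ψ g) ≤ (Ψ.cost μ).toReal := by
      have h1 : ∑ g : D.F, μ.real (Ψ g) = (∑ g ∈ D.F, μ (Ψ g)).toReal := by
        rw [ENNReal.toReal_sum (fun g _ => measure_ne_top _ _)]
        exact (Finset.sum_coe_sort D.F (fun g => μ.real (Ψ g)))
      rw [h1]
      exact ENNReal.toReal_mono hcost (ENNReal.sum_le_tsum D.F)
    linarith
  · intro x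
    have hall : ∀ g : F2, (Ψ g).Nonempty → g ≠ 1 → g ∈ D.F := by
      intro g hg hg1
      exact Finset.mem_filter.mpr ⟨hfin.mem_toFinset.mpr hg, hg1⟩
    have h1 := D.conn hall (hgen x)
    have h2 := D.corner_conn' (Ψ := Ψ) 0 x
    have e : gam (0 + 1) * (gam 0)⁻¹ = la := by simp [gam]
    rw [e] at h2
    exact h1.trans _ _ _ (h2.symm _ _)

end Crest.Agent.R191
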