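import Mathlib

/-!
# Random permutations are asymptotically free (row 191, module C2)

For a nontrivial word `w` in the free group on a finite type `α`, the total number of fixed
points of `w(π)`, summed over all tuples `π : α → Perm V`, is at most `C(w) * (n!)^|α|`.
-/

set_option autoImplicit false
set_option linter.unusedSectionVars false

namespace Crest.Agent.R191.C2

open Equiv

variable {α V : Type*}

/-- One step along the letter `g`. -/
def step (π : α → Perm V) (g : α × Bool) : Perm V := cond g.2 (π g.1) (π g.1)⁻¹

/-- Endpoint of the path starting at `x` reading the word `l` from the right. -/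
def ev (π : α → Perm V) : List (α × Bool) → V → V
  | [], x => x
  | g :: l, x => step π g (ev π l x)

/-- All the positions along the path (last position first). -/
def pos (π : α → Perm V) : List (α × Bool) → V → List V
  | [], x => [x]
  | g :: l, x => step π g (ev π l x) :: pos π l x

theorem length_pos (π : α → Perm V) (l : List (α × Bool)) (x : V) :
    (pos π l x).length = l.length + 1 := by
  induction l with
  | nil => rfl
  | cons g l ih => simp [pos, ih]

theorem ev_mem_pos (π : α → Perm V) (l : List (α × Bool)) (x : V) : ev π l x ∈ pos π l x := by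
  cases l <;> simp [pos, ev]

theorem start_mem_pos (π : α → Perm V) (l : List (α × Bool)) (x : V) : x ∈ pos π l x := by
  induction l with
  | nil => simp [pos]
  | cons g l ih => simp [pos, ih]

theorem ev_eq_prod (π : α → Perm V) (l : List (α × Bool)) (x : V) :
    ev π l x = (l.map fun x => cond x.2 (π x.1) (π x.1)⁻¹).prod x := by
  induction l with
  | nil => rfl
  | cons g l ih => simp [ev, step, ih]

theorem lift_eq_ev [DecidableEq α] (π : α → Perm V) (w : FreeGroup α) (x : V) :
    FreeGroup.lift π w x = ev π w.toWord x := by
  rw [ev_eq_prod, ← FreeGroup.lift_mk, FreeGroup.mk_toWord]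

theorem not_nodup_of_fixed (π : α → Perm V) (l : List (α × Bool)) (x : V) (hl : l ≠ [])
    (h : ev π l x = x) : ¬ (pos π l x).Nodup := by
  cases l with
  | nil => exact absurd rfl hl
  | cons g l =>
    intro hn
    simp only [pos, List.nodup_cons] at hn
    apply hn.1
    have h' : step π g (ev π l x) = x := h
    rw [h']
    exact start_mem_pos π l x

variable [DecidableEq α] [DecidableEq V]

/-- Modify `π` so that the letter `g` at `z` leads to `y`. -/
def switch (π : α → Perm V) (g : α × Bool) (z y : V) : α → Perm V :=
  Function.update π g.1
    (cond g.2 (swap (step π g z) y * π g.1) (π g.1 * swap (step π g z) y))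

theorem step_switch_self (π : α → Perm V) (g : α × Bool) (z y : V) :
    step (switch π g z y) g = swap (step π g z) y * step π g := by
  obtain ⟨a, b⟩ := g
  cases b <;> simp [step, switch, mul_inv_rev]

theorem step_switch_inv (π : α → Perm V) (a : α) (b : Bool) (z y : V) :
    step (switch π (a, b) z y) (a, !b) = step π (a, !b) * swap (step π (a, b) z) y := by
  cases b <;> simp [step, switch, mul_inv_rev]

theorem step_switch_of_ne (π : α → Perm V) (g h : α × Bool) (z y : V) (hne : h.1 ≠ g.1) :
    step (switch π g z y) h = step π h := by
  simp [step, switch, Function.update_of_ne hne]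

theorem step_inv (π : α → Perm V) (a : α) (b : Bool) : step π (a, !b) = (step π (a, b))⁻¹ := by
  cases b <;> simp [step]

/-- Key invariance: switching at the end of a reduced self-avoiding path does not change it. -/
theorem pos_switch (π : α → Perm V) (g : α × Bool) (l : List (α × Bool)) (x y : V)
    (hred : FreeGroup.IsReduced (g :: l)) (hn : (pos π l x).Nodup) (hy : y ∉ pos π l x) :
    ∀ s, s <:+ l → ev (switch π g (ev π l x) y) s x = ev π s x := by
  obtain ⟨a, b⟩ := g
  set z := ev π l x with hz
  intro s
  induction s with
  | nil => intro _; rfl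
  | cons h s ih =>
    intro hs
    obtain ⟨t, rfl⟩ := hs
    have hs' : s <:+ t ++ h :: s := ⟨t ++ [h], by simp⟩
    have ih' := ih hs'
    -- positions of suffixes are suffixes of positions
    have hpos : ∀ t' : List (α × Bool), ∀ r, (pos π r x) <:+ (pos π (t' ++ r) x) := by
      intro t' r
      induction t' with
      | nil => simp
      | cons c t' iht =>
        simp only [List.cons_append, pos]
        exact iht.trans (List.suffix_cons _ _)
    have hsub : pos π (h :: s) x <:+ pos π (t ++ h :: s) x := hpos t (h :: s)
    set u := ev π s x with hu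
    have hu_mem : u ∈ pos π s x := ev_mem_pos π s x
    have hv_mem : step π h u ∈ pos π (t ++ h :: s) x :=
      hsub.subset (by simp [pos, hu])
    have hu_mem' : u ∈ pos π (t ++ h :: s) x :=
      hsub.subset (by simp [pos, hu_mem])
    have huy : u ≠ y := fun e => hy (e ▸ hu_mem')
    have hvy : step π h u ≠ y := fun e => hy (e ▸ hv_mem)
    -- `z` differs from every position strictly before the last
    have hzu : z ≠ u := by
      intro e
      have h1 : pos π s x <:+ (pos π (t ++ h :: s) x).tail := by
        cases t with
        | nil => simp [pos]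
        | cons c t =>
          simp only [List.cons_append, pos, List.tail_cons]
          exact (List.suffix_cons _ _).trans (hpos t (h :: s))
      have h2 : z ∈ (pos π (t ++ h :: s) x).tail := by
        rw [e]; exact h1.subset hu_mem
      have h3 : pos π (t ++ h :: s) x = z :: (pos π (t ++ h :: s) x).tail := by
        rw [hz]
        cases t <;> simp [pos, ev]
      rw [h3, List.nodup_cons] at hn
      exact hn.1 h2
    show step (switch π (a, b) z y) h (ev (switch π (a, b) z y) s x) = step π h u
    rw [ih']
    by_cases hc : h.1 = a
    · by_cases hb : h.2 = b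
      · have hh : h = (a, b) := Prod.ext hc hb
        subst hh
        rw [step_switch_self, Perm.mul_apply]
        apply swap_apply_of_ne_of_ne
        · intro e
          exact hzu ((step π (a, b)).injective e).symm
        · exact hvy
      · have hh : h = (a, !b) := by
          refine Prod.ext hc ?_
          have : h.2 ≠ b := hb
          cases b <;> cases h2 : h.2 <;> simp_all
        subst hh
        rw [step_switch_inv, Perm.mul_apply]
        congr 1
        apply swap_apply_of_ne_of_ne
        · intro e
          -- then the step leads back to `z`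
          have h4 : step π (a, !b) u = z := by
            rw [step_inv, e]; simp
          cases t with
          | nil =>
            -- adjacent inverse letters
            have := (List.isChain_cons_cons.mp hred).1 rfl
            simp at this
          | cons c t =>
            have h5 : z ∈ (pos π (c :: t ++ (a, !b) :: s) x).tail := by
              simp only [List.cons_append, pos, List.tail_cons]
              apply (hpos t ((a, !b) :: s)).subset
              rw [← h4]
              simp [pos, hu]
            have h3 : pos π (c :: t ++ (a, !b) :: s) x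
                = z :: (pos π (c :: t ++ (a, !b) :: s) x).tail := by
              rw [hz]; simp [pos, ev]
            rw [h3, List.nodup_cons] at hn
            exact hn.1 h5
        · exact huy
    · rw [step_switch_of_ne _ _ _ _ _ hc]

theorem pos_eq_of_ev_eq (π π' : α → Perm V) (l : List (α × Bool)) (x : V)
    (h : ∀ s, s <:+ l → ev π' s x = ev π s x) : pos π' l x = pos π l x := by
  induction l with
  | nil => rfl
  | cons g l ih =>
    simp only [pos]
    congr 1
    · exact h (g :: l) (List.suffix_refl _)
    · exact ih fun s hs => h s (hs.trans (List.suffix_cons _ _))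

variable [Fintype α] [Fintype V]

open Classical in
/-- Counting the tuples for which the next step hits the old path. -/
theorem card_hit_mul_le (g : α × Bool) (l : List (α × Bool)) (x : V)
    (hred : FreeGroup.IsReduced (g :: l)) :
    (Finset.univ.filter fun π : α → Perm V =>
        (pos π l x).Nodup ∧ step π g (ev π l x) ∈ pos π l x).card *
      (Fintype.card V - (l.length + 1)) ≤ (l.length + 1) * Fintype.card (α → Perm V) := by
  set A := Finset.univ.filter fun π : α → Perm V =>
    (pos π l x).Nodup ∧ step π g (ev π l x) ∈ pos π l x with hA
  -- pairs (π, y) with y off the path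
  set B : Finset (Σ _ : (α → Perm V), V) :=
    A.sigma fun π => Finset.univ \ (pos π l x).toFinset with hB
  have hBcard : B.card = A.card * (Fintype.card V - (l.length + 1)) := by
    rw [hB, Finset.card_sigma]
    rw [Finset.sum_const_nat (m := Fintype.card V - (l.length + 1))]
    intro π hπ
    have hπ' := (Finset.mem_filter.mp hπ).2
    rw [Finset.card_sdiff_of_subset (Finset.subset_univ _), Finset.card_univ,
      List.toFinset_card_of_nodup hπ'.1, length_pos]
  rw [← hBcard]
  have hcard : (l.length + 1) * Fintype.card (α → Perm V)
      = (Finset.univ : Finset (Fin (l.length + 1) × (α → Perm V))).card := by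
    simp [Finset.card_univ, Fintype.card_prod]
  rw [hcard]
  -- the injection
  have hidx : ∀ π : α → Perm V, step π g (ev π l x) ∈ pos π l x →
      (pos π l x).idxOf (step π g (ev π l x)) < l.length + 1 := by
    intro π h
    rw [← length_pos π l x]
    exact List.idxOf_lt_length_iff.mpr h
  let f : (Σ _ : (α → Perm V), V) → Fin (l.length + 1) × (α → Perm V) := fun p =>
    (if h : step p.1 g (ev p.1 l x) ∈ pos p.1 l x then
        ⟨(pos p.1 l x).idxOf (step p.1 g (ev p.1 l x)), hidx p.1 h⟩ else 0,
      switch p.1 g (ev p.1 l x) p.2)
  apply Finset.card_le_card_of_injOn f (fun _ _ => Finset.mem_coe.mpr (Finset.mem_univ _))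
  rintro ⟨π₁, y₁⟩ h₁ ⟨π₂, y₂⟩ h₂ heq
  simp only [hB, hA, Finset.coe_sigma, Set.mem_sigma_iff, Finset.mem_coe, Finset.mem_filter,
    Finset.mem_univ, true_and, Finset.mem_sdiff, List.mem_toFinset] at h₁ h₂
  obtain ⟨⟨hn₁, hm₁⟩, hy₁⟩ := h₁
  obtain ⟨⟨hn₂, hm₂⟩, hy₂⟩ := h₂
  simp only [f, Prod.mk.injEq, dif_pos hm₁, dif_pos hm₂] at heq
  obtain ⟨hi, hs⟩ := heq
  have hi' : (pos π₁ l x).idxOf (step π₁ g (ev π₁ l x))
      = (pos π₂ l x).idxOf (step π₂ g (ev π₂ l x)) := by
    have := congrArg Fin.val hi
    simpa using this
  have e₁ := pos_switch π₁ g l x y₁ hred hn₁ hy₁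
  have e₂ := pos_switch π₂ g l x y₂ hred hn₂ hy₂
  have p₁ := pos_eq_of_ev_eq _ _ l x e₁
  have p₂ := pos_eq_of_ev_eq _ _ l x e₂
  have hpos : pos π₁ l x = pos π₂ l x := by rw [← p₁, hs, p₂]
  have hev : ev π₁ l x = ev π₂ l x := by
    rw [← e₁ l (List.suffix_refl _), hs, e₂ l (List.suffix_refl _)]
  have hhit : step π₁ g (ev π₁ l x) = step π₂ g (ev π₂ l x) := by
    rw [hpos] at hm₁ hi'
    have h1 := List.getElem_idxOf (List.idxOf_lt_length_iff.mpr hm₁)
    have h2 := List.getElem_idxOf (List.idxOf_lt_length_iff.mpr hm₂)
    rw [← h1, ← h2]
    congr 1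
  have hself₁ := step_switch_self π₁ g (ev π₁ l x) y₁
  have hself₂ := step_switch_self π₂ g (ev π₂ l x) y₂
  have hy : y₁ = y₂ := by
    have a1 : step (switch π₁ g (ev π₁ l x) y₁) g (ev π₁ l x) = y₁ := by
      rw [hself₁, Perm.mul_apply, swap_apply_left]
    have a2 : step (switch π₂ g (ev π₂ l x) y₂) g (ev π₂ l x) = y₂ := by
      rw [hself₂, Perm.mul_apply, swap_apply_left]
    rw [← a1, ← a2, hs, hev]
  subst hy
  have hstep : step π₁ g = step π₂ g := by
    have : swap (step π₁ g (ev π₁ l x)) y₁ * step π₁ g
        = swap (step π₂ g (ev π₂ l x)) y₁ * step π₂ g := by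
      rw [← hself₁, ← hself₂, hs]
    rw [hhit] at this
    exact mul_left_cancel this
  have hπ : π₁ = π₂ := by
    funext c
    by_cases hc : c = g.1
    · subst hc
      obtain ⟨a, b⟩ := g
      cases b
      · simpa [step] using hstep
      · simpa [step] using hstep
    · have := congrFun hs c
      simpa [switch, Function.update_of_ne hc] using this
  subst hπ
  rfl

open Classical in
theorem card_not_nodup_mul_le (l : List (α × Bool)) (x : V) (hred : FreeGroup.IsReduced l)
    (L : ℕ) (hL : l.length ≤ L) :
    (Finset.univ.filter fun π : α → Perm V => ¬ (pos π l x).Nodup).card *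
      (Fintype.card V - L) ≤ l.length ^ 2 * Fintype.card (α → Perm V) := by
  induction l with
  | nil => simp [pos]
  | cons g l ih =>
    have hred' : FreeGroup.IsReduced l := List.IsChain.tail hred
    have hL' : l.length ≤ L := by simp at hL; omega
    have ih' := ih hred' hL'
    have key := card_hit_mul_le (V := V) g l x hred
    have hsub : (Finset.univ.filter fun π : α → Perm V => ¬ (pos π (g :: l) x).Nodup) ⊆
        (Finset.univ.filter fun π : α → Perm V => ¬ (pos π l x).Nodup) ∪
        (Finset.univ.filter fun π : α → Perm V =>
        (pos π l x).Nodup ∧ step π g (ev π l x) ∈ pos π l x) := by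
      intro π hπ
      simp only [Finset.mem_filter, Finset.mem_univ, true_and, Finset.mem_union, pos,
        List.nodup_cons, not_and_or, not_not] at hπ ⊢
      tauto
    have hcard := (Finset.card_le_card hsub).trans (Finset.card_union_le _ _)
    have hLn : Fintype.card V - L ≤ Fintype.card V - (l.length + 1) := by
      simp at hL; omega
    calc _ ≤ (_ + _) * (Fintype.card V - L) := Nat.mul_le_mul_right _ hcard
      _ = _ * (Fintype.card V - L) + _ * (Fintype.card V - L) := add_mul _ _ _
      _ ≤ l.length ^ 2 * Fintype.card (α → Perm V)
          + (l.length + 1) * Fintype.card (α → Perm V) := by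
        apply add_le_add ih'
        exact (Nat.mul_le_mul_left _ hLn).trans key
      _ ≤ (g :: l).length ^ 2 * Fintype.card (α → Perm V) := by
        rw [← add_mul]
        apply Nat.mul_le_mul_right
        simp only [List.length_cons]
        nlinarith

open Classical in
/-- **C2.** For a nontrivial `w`, the number of pairs `(π, x)` with `w(π) x = x` is at most
`C(w)` times the number of tuples `π`. -/
theorem sum_card_fixed_le (w : FreeGroup α) (hw : w ≠ 1) :
    ∃ C : ℕ, ∀ (V : Type) [Fintype V] [DecidableEq V],
      ∑ π : α → Perm V, (Finset.univ.filter fun x : V => FreeGroup.lift π w x = x).card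
        ≤ C * Fintype.card (α → Perm V) := by
  set l := w.toWord with hl
  have hlne : l ≠ [] := by
    intro h
    exact hw (FreeGroup.toWord_eq_nil_iff.mp h)
  have hred : FreeGroup.IsReduced l := FreeGroup.isReduced_toWord
  refine ⟨2 * l.length ^ 2, ?_⟩
  intro V _ _
  have hlen : 1 ≤ l.length := List.length_pos_iff.mpr hlne
  set N := Fintype.card (α → Perm V)
  set n := Fintype.card V with hn
  have hswap : ∑ π : α → Perm V, (Finset.univ.filter fun x : V => FreeGroup.lift π w x = x).card
      = ∑ x : V, (Finset.univ.filter fun π : α → Perm V => FreeGroup.lift π w x = x).card := by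
    simp only [Finset.card_filter]
    exact Finset.sum_comm
  rw [hswap]
  have hx : ∀ x : V, (Finset.univ.filter fun π : α → Perm V => FreeGroup.lift π w x = x).card
      * (n - l.length) ≤ l.length ^ 2 * N := by
    intro x
    refine le_trans (Nat.mul_le_mul_right _ (Finset.card_le_card ?_))
      (card_not_nodup_mul_le l x hred l.length le_rfl)
    intro π hπ
    simp only [Finset.mem_filter, Finset.mem_univ, true_and] at hπ ⊢
    rw [lift_eq_ev] at hπ
    exact not_nodup_of_fixed π l x hlne hπ
  by_cases hbig : 2 * l.length ≤ n
  · have h1 : (∑ x : V, (Finset.univ.filter fun π : α → Perm V =>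
        FreeGroup.lift π w x = x).card) * (n - l.length) ≤ n * (l.length ^ 2 * N) := by
      rw [Finset.sum_mul]
      calc _ ≤ ∑ _x : V, l.length ^ 2 * N := Finset.sum_le_sum fun x _ => hx x
        _ = n * (l.length ^ 2 * N) := by simp [hn]
    have h2 : n ≤ 2 * (n - l.length) := by omega
    have h3 : 0 < n - l.length := by omega
    have h4 : n * (l.length ^ 2 * N) ≤ (2 * l.length ^ 2 * N) * (n - l.length) := by
      calc n * (l.length ^ 2 * N) ≤ (2 * (n - l.length)) * (l.length ^ 2 * N) :=
            Nat.mul_le_mul_right _ h2
        _ = _ := by ring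
    exact Nat.le_of_mul_le_mul_right (h1.trans h4) h3
  · have h1 : ∀ x : V, (Finset.univ.filter fun π : α → Perm V =>
        FreeGroup.lift π w x = x).card ≤ N := fun x => Finset.card_le_univ _
    calc ∑ x : V, (Finset.univ.filter fun π : α → Perm V => FreeGroup.lift π w x = x).card
        ≤ ∑ _x : V, N := Finset.sum_le_sum fun x _ => h1 x
      _ = n * N := by simp [hn]
      _ ≤ 2 * l.length ^ 2 * N := by
        apply Nat.mul_le_mul_right
        nlinarith

end Crest.Agent.R191.C2
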