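import Mathlib

/-!
# Cactus lemma (row 191, module A1)

In the group `⟨s_i (i : ZMod k) | s_{k-1} ⋯ s_1 s_0 = 1⟩` (free of rank `k-1`) a nonempty freely
reduced word in the letters `s_i^{±1}` which represents `1` contains a full cyclic relator
`s_{i+k-1} ⋯ s_{i+1} s_i` or its inverse as a contiguous subword.
-/

set_option autoImplicit false

namespace Crest.Agent.R191

open Monoid

/-- The factor groups (copies of `ℤ/2`). -/
abbrev CZ2 (k : ℕ) : ZMod k → Type := fun _ => Multiplicative (ZMod 2)

/-- The involutions of the free product of copies of `ℤ/2`. -/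
def ctau {k : ℕ} (i : ZMod k) : CoprodI (CZ2 k) := CoprodI.of (i := i) (Multiplicative.ofAdd 1)

theorem ctau_mul_self {k : ℕ} (i : ZMod k) : ctau i * ctau i = 1 := by
  unfold ctau
  rw [← map_mul]
  have : (Multiplicative.ofAdd (1 : ZMod 2) * Multiplicative.ofAdd (1 : ZMod 2)) = 1 := by decide
  rw [this, map_one]

theorem ctau_inv {k : ℕ} (i : ZMod k) : (ctau i)⁻¹ = ctau i :=
  inv_eq_of_mul_eq_one_left (ctau_mul_self i)

/-- A nonempty reduced word in the involutions is not `1`. -/
theorem ctau_prod_ne_one {k : ℕ} (l : List (ZMod k)) (hl : l ≠ [])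
    (hc : l.IsChain (fun a b => a ≠ b)) : (l.map ctau).prod ≠ 1 := by
  classical
  intro h
  let w : CoprodI.Word (CZ2 k) :=
    { toList := l.map (fun i => (⟨i, Multiplicative.ofAdd 1⟩ : Σ i, CZ2 k i))
      ne_one := by
        intro x hx
        obtain ⟨i, _, rfl⟩ := List.mem_map.mp hx
        show (Multiplicative.ofAdd (1 : ZMod 2)) ≠ 1
        decide
      chain_ne := by
        rw [List.isChain_map]
        exact hc }
  have hw : w.prod = (l.map ctau).prod := by
    simp only [CoprodI.Word.prod, w, List.map_map]
    rfl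
  have h1 : w.prod = (CoprodI.Word.empty : CoprodI.Word (CZ2 k)).prod := by
    rw [hw, h, CoprodI.Word.prod_empty]
  have h2 : w = CoprodI.Word.empty := CoprodI.Word.equiv.symm.injective h1
  have h3 : w.toList = [] := by rw [h2]; rfl
  have h4 : l.map (fun i => (⟨i, Multiplicative.ofAdd 1⟩ : Σ i, CZ2 k i)) = [] := h3
  exact hl (List.map_eq_nil_iff.mp h4)

/-- The direction of a letter: positive letters are followed by `i-1`, negative ones by `i+1`. -/
def cdir (k : ℕ) (b : Bool) : ZMod k := if b then -1 else 1

/-- First involution of a letter. -/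
def cfst {k : ℕ} (x : ZMod k × Bool) : ZMod k := if x.2 then x.1 + 1 else x.1

/-- The run of length `m` starting with the letter `(i, b)`. -/
def crun {k : ℕ} (i : ZMod k) (b : Bool) (m : ℕ) : List (ZMod k × Bool) :=
  (List.range m).map (fun t : ℕ => (i + (t : ZMod k) * cdir k b, b))

theorem crun_succ {k : ℕ} (i : ZMod k) (b : Bool) (m : ℕ) :
    crun i b (m + 1) = (i, b) :: crun (i + cdir k b) b m := by
  unfold crun
  rw [List.range_succ_eq_map, List.map_cons, List.map_map]
  congr 1
  · simp
  · apply List.map_congr_left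
    intro t _
    simp only [Function.comp, Nat.succ_eq_add_one, Nat.cast_add, Nat.cast_one, Prod.mk.injEq,
      and_true]
    ring

@[simp] theorem crun_length {k : ℕ} (i : ZMod k) (b : Bool) (m : ℕ) : (crun i b m).length = m := by
  simp [crun]

/-- The value of a letter in a group. -/
def cval {k : ℕ} {G : Type*} [Group G] (s : ZMod k → G) (x : ZMod k × Bool) : G :=
  if x.2 then s x.1 else (s x.1)⁻¹

theorem cval_image {k : ℕ} {G : Type*} [Group G] (s : ZMod k → G) (φ : G →* CoprodI (CZ2 k))
    (hφ : ∀ i, φ (s i) = ctau (i + 1) * ctau i) (x : ZMod k × Bool) :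
    φ (cval s x) = ctau (cfst x) * ctau (cfst x + cdir k x.2) := by
  obtain ⟨i, b⟩ := x
  cases b
  · simp [cval, cfst, cdir, hφ, ctau_inv, mul_inv_rev]
  · simp [cval, cfst, cdir, hφ]

/-- Two adjacent letters of a freely reduced word whose involutions cancel continue a run. -/
theorem cadj {k : ℕ} {x y : ZMod k × Bool} (h : y ≠ (x.1, !x.2))
    (hc : cfst x + cdir k x.2 = cfst y) : y = (x.1 + cdir k x.2, x.2) := by
  obtain ⟨i, b⟩ := x
  obtain ⟨j, c⟩ := y
  cases b <;> cases c <;> simp_all [cfst, cdir]

/-- Induction statement. -/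
theorem cactus_aux {k : ℕ} (hk : 2 ≤ k) {G : Type*} [Group G] (s : ZMod k → G)
    (φ : G →* CoprodI (CZ2 k)) (hφ : ∀ i, φ (s i) = ctau (i + 1) * ctau i) :
    ∀ L : List (ZMod k × Bool), L.IsChain (fun x y => y ≠ (x.1, !x.2)) →
      (∀ i b, ¬ (crun i b k) <:+: L) →
      ∀ x L', L = x :: L' → ∃ m : ℕ, 1 ≤ m ∧ m < k ∧ (crun x.1 x.2 m) <+: L ∧
        ∃ rest : List (ZMod k),
          (cfst x :: (cfst x + (m : ZMod k) * cdir k x.2) :: rest).IsChain (fun a b => a ≠ b) ∧
          φ (L.map (cval s)).prod =
            ((cfst x :: (cfst x + (m : ZMod k) * cdir k x.2) :: rest).map ctau).prod := by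
  have hne : ∀ m : ℕ, 1 ≤ m → m < k → ∀ b, (m : ZMod k) * cdir k b ≠ 0 := by
    intro m h1 h2 b h
    have h3 : (m : ZMod k) = 0 := by
      cases b
      · simpa [cdir] using h
      · simpa [cdir] using h
    rw [ZMod.natCast_eq_zero_iff] at h3
    exact absurd (Nat.le_of_dvd h1 h3) (by omega)
  intro L
  induction L with
  | nil => intro _ _ x L' h; exact absurd h (by simp)
  | cons x L ih =>
    intro hred hno x0 L0 hx0
    obtain ⟨rfl, rfl⟩ : x = x0 ∧ L = L0 := by simpa using hx0
    have hno' : ∀ i b, ¬ (crun i b k) <:+: L := fun i b h =>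
      hno i b (h.trans (List.suffix_cons x L).isInfix)
    have hfirst : φ ((x :: L).map (cval s)).prod =
        ctau (cfst x) * (ctau (cfst x + cdir k x.2) * φ (L.map (cval s)).prod) := by
      rw [List.map_cons, List.prod_cons, map_mul, cval_image s φ hφ, mul_assoc]
    cases L with
    | nil =>
      refine ⟨1, le_refl _, by omega, ?_, [], ?_, ?_⟩
      · simp [crun]
      · simp only [Nat.cast_one, one_mul, List.isChain_cons_cons, ne_eq, List.isChain_singleton,
          and_true]
        intro h
        exact hne 1 (le_refl _) (by omega) x.2 (by simpa using h)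
      · rw [hfirst]
        simp
    | cons y L =>
      obtain ⟨m, hm1, hmk, hrun, rest, hchain, hprod⟩ :=
        ih (List.isChain_cons_cons.mp hred).2 hno' y L rfl
      have hxy : y ≠ (x.1, !x.2) := (List.isChain_cons_cons.mp hred).1
      by_cases hc : cfst x + cdir k x.2 = cfst y
      · -- the run continues
        have hy := cadj hxy hc
        have hrun' : (crun x.1 x.2 (m + 1)) <+: (x :: y :: L) := by
          rw [crun_succ]
          rw [hy] at hrun
          have := (List.prefix_cons_inj x).mpr hrun
          have e2 : crun y.1 y.2 m = crun (x.1 + cdir k x.2) x.2 m := by rw [hy]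
          rw [← e2]
          rw [← hy] at this
          exact this
        have hmk' : m + 1 < k := by
          rcases Nat.lt_or_ge (m + 1) k with h | h
          · exact h
          · exfalso
            have : m + 1 = k := by omega
            rw [this] at hrun'
            exact hno _ _ hrun'.isInfix
        have hy2 : y.2 = x.2 := by rw [hy]
        refine ⟨m + 1, by omega, hmk', hrun', rest, ?_, ?_⟩
        · have e : cfst x + ((m + 1 : ℕ) : ZMod k) * cdir k x.2 =
              cfst y + (m : ZMod k) * cdir k y.2 := by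
            rw [← hc, hy2]; push_cast; ring
          rw [e]
          rw [List.isChain_cons_cons] at hchain ⊢
          refine ⟨?_, hchain.2⟩
          rw [← e]
          intro h
          exact hne (m + 1) (by omega) hmk' x.2 (by simpa using h)
        · have e : cfst x + ((m + 1 : ℕ) : ZMod k) * cdir k x.2 =
              cfst y + (m : ZMod k) * cdir k y.2 := by
            rw [← hc, hy2]; push_cast; ring
          rw [hfirst, hprod, hc, e]
          simp only [List.map_cons, List.prod_cons]
          rw [← mul_assoc (ctau (cfst y)) (ctau (cfst y)), ctau_mul_self, one_mul]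
      · refine ⟨1, le_refl _, by omega, ?_,
          cfst y :: (cfst y + (m : ZMod k) * cdir k y.2) :: rest, ?_, ?_⟩
        · simp [crun]
        · simp only [Nat.cast_one, one_mul]
          rw [List.isChain_cons_cons, List.isChain_cons_cons]
          refine ⟨?_, hc, hchain⟩
          intro h
          exact hne 1 (le_refl _) (by omega) x.2 (by simpa using h)
        · rw [hfirst, hprod]
          simp

/-- **Cactus lemma**, general form. -/
theorem cactus {k : ℕ} (hk : 2 ≤ k) {G : Type*} [Group G] (s : ZMod k → G)
    (φ : G →* CoprodI (CZ2 k)) (hφ : ∀ i, φ (s i) = ctau (i + 1) * ctau i)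
    (L : List (ZMod k × Bool)) (hL : L ≠ [])
    (hred : L.IsChain (fun x y => y ≠ (x.1, !x.2))) (hprod : (L.map (cval s)).prod = 1) :
    ∃ i b, (crun i b k) <:+: L := by
  by_contra hno
  push Not at hno
  obtain ⟨x, L', rfl⟩ := List.exists_cons_of_ne_nil hL
  obtain ⟨m, _, _, _, rest, hchain, hp⟩ := cactus_aux hk s φ hφ _ hred hno x L' rfl
  rw [hprod, map_one] at hp
  exact ctau_prod_ne_one _ (by simp) hchain hp.symm

end Crest.Agent.R191
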