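import Crest.Prelude.Def_Cost
import Mathlib

/-!
# Cheap actions (row 191, upper bound)

`cheap_action`: abstract upper bound for the cost of `Γ ↷ ZMod M × X`.
-/

set_option autoImplicit false

namespace Crest.Agent.R191.Cheap

open MeasureTheory Crest.Dynamics

/-- Transfer a graphing indexed by a countable type to one indexed by `ℕ`. -/
theorem actionCost_le_tsum {Γ Y ι : Type*} [Group Γ] [MulAction Γ Y] [MeasurableSpace Y]
    (ν : Measure Y) [Countable ι] (Ψ : ι → Γ × Set Y) (hmeas : ∀ i, MeasurableSet (Ψ i).2)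
    (hgen : ∀ᵐ y ∂ν, ∀ g : Γ,
      Relation.EqvGen (fun x y : Y => ∃ i, x ∈ (Ψ i).2 ∧ y = (Ψ i).1 • x) y (g • y)) :
    actionCost Γ Y ν ≤ ∑' i, ν (Ψ i).2 := by
  classical
  obtain ⟨e, he⟩ := Countable.exists_injective_nat ι
  let Φ : ℕ → Γ × Set Y := fun n => if h : ∃ i, e i = n then Ψ h.choose else (1, ∅)
  have hΦ : ∀ i, Φ (e i) = Ψ i := by
    intro i
    have h : ∃ j, e j = e i := ⟨i, rfl⟩
    have h2 : h.choose = i := he h.choose_spec
    simp only [Φ, dif_pos h, h2]
  have hΦ' : ∀ n, (¬ ∃ i, e i = n) → Φ n = (1, ∅) := fun n h => by simp only [Φ, dif_neg h]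
  have hcost : graphingCost ν Φ = ∑' i, ν (Ψ i).2 := by
    unfold graphingCost
    rw [← he.tsum_eq (f := fun n => ν (Φ n).2)]
    · simp only [hΦ]
    · intro n hn
      by_contra h
      apply hn
      have h' : ¬ ∃ i, e i = n := fun ⟨i, hi⟩ => h ⟨i, hi⟩
      simp [hΦ' n h']
  have hsub : ∀ x y, (∃ i, x ∈ (Ψ i).2 ∧ y = (Ψ i).1 • x) → GraphingStep Φ x y := by
    rintro x y ⟨i, hx, hy⟩
    exact ⟨e i, by rw [hΦ]; exact hx, by rw [hΦ]; exact hy⟩
  rw [← hcost]
  apply sInf_le
  refine ⟨Φ, ⟨?_, ?_⟩, rfl⟩
  · intro n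
    by_cases h : ∃ i, e i = n
    · obtain ⟨i, rfl⟩ := h
      rw [hΦ]; exact hmeas i
    · rw [hΦ' n h]; exact MeasurableSet.empty
  · refine ⟨{y | ¬ ∀ g : Γ,
      Relation.EqvGen (fun x y : Y => ∃ i, x ∈ (Ψ i).2 ∧ y = (Ψ i).1 • x) y (g • y)},
      hgen, ?_⟩
    intro x hx g
    have hx' := not_not.mp hx
    exact (hx' g).mono hsub

section

variable {Γ X : Type*} [Group Γ] [MulAction Γ X]

/-- The action of `Γ` on `ZMod M × X` where the first coordinate is rotated by `φ`. -/
@[reducible]
def prodAction {M : ℕ} (φ : Γ →* Multiplicative (ZMod M)) : MulAction Γ (ZMod M × X) where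
  smul g y := ((φ g).toAdd + y.1, g • y.2)
  one_smul y := by
    change ((φ 1).toAdd + y.1, (1 : Γ) • y.2) = y
    simp
  mul_smul g h y := by
    change ((φ (g * h)).toAdd + y.1, (g * h) • y.2) =
      ((φ g).toAdd + ((φ h).toAdd + y.1), g • h • y.2)
    simp [mul_smul, add_assoc]

/-- The measure on `ZMod M × X`. -/
noncomputable def prodMeasure (M : ℕ) [MeasurableSpace X] (μ : Measure X) : Measure (ZMod M × X) :=
  ((M : ENNReal)⁻¹ • (Measure.count : Measure (ZMod M))).prod μ

instance {M : ℕ} [NeZero M] : SigmaFinite ((M : ENNReal)⁻¹ • (Measure.count : Measure (ZMod M))) := by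
  have : IsFiniteMeasure ((M : ENNReal)⁻¹ • (Measure.count : Measure (ZMod M))) := by
    constructor
    rw [Measure.smul_apply, Measure.count_univ, smul_eq_mul]
    refine ENNReal.mul_lt_top ?_ ?_
    · simp [Nat.pos_of_ne_zero (NeZero.ne M)]
    · simp
  infer_instance

theorem prodMeasure_prod {M : ℕ} [NeZero M] [MeasurableSpace X] (μ : Measure X) [IsProbabilityMeasure μ]
    (A : Set (ZMod M)) (B : Set X) :
    prodMeasure M μ (A ×ˢ B) = (M : ENNReal)⁻¹ * (A.encard : ENNReal) * μ B := by
  rw [prodMeasure, Measure.prod_prod, Measure.smul_apply, Measure.count_apply (MeasurableSet.of_discrete),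
    smul_eq_mul]

instance isProb {M : ℕ} [NeZero M] [MeasurableSpace X] (μ : Measure X) [IsProbabilityMeasure μ] :
    IsProbabilityMeasure (prodMeasure M μ) := by
  constructor
  rw [← Set.univ_prod_univ, prodMeasure_prod]
  simp only [Set.encard_univ, measure_univ, mul_one]
  rw [ENat.card_eq_coe_natCard]
  simp only [Nat.card_zmod]
  exact ENNReal.inv_mul_cancel (by simp [NeZero.ne]) (by simp)

theorem isFreePMP_prod {M : ℕ} [NeZero M] [MeasurableSpace X] (μ : Measure X)
    [IsProbabilityMeasure μ]
    (φ : Γ →* Multiplicative (ZMod M)) (h : IsFreePMPAction Γ X μ) :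
    @IsFreePMPAction Γ (ZMod M × X) _ (prodAction φ) _ (prodMeasure M μ) := by
  let _ := prodAction (X := X) φ
  refine ⟨fun g => ?_, fun g hg => ?_⟩
  · have h1 : MeasurePreserving (fun l : ZMod M => (φ g).toAdd + l)
        ((M : ENNReal)⁻¹ • (Measure.count : Measure (ZMod M)))
        ((M : ENNReal)⁻¹ • (Measure.count : Measure (ZMod M))) := by
      refine MeasurePreserving.smul_measure ⟨measurable_of_finite _, ?_⟩ _
      ext s hs
      rw [Measure.map_apply (measurable_of_finite _) hs, Measure.count_apply MeasurableSet.of_discrete,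
        Measure.count_apply hs]
      congr 1
      have : Function.Bijective (fun l : ZMod M => (φ g).toAdd + l) :=
        (Equiv.addLeft ((φ g).toAdd)).bijective
      rw [← this.injective.encard_image, Set.image_preimage_eq _ this.surjective]
    exact h1.prod (h.1 g)
  · refine measure_mono_null (t := Set.univ ×ˢ {x : X | g • x = x}) ?_ ?_
    · rintro ⟨l, x⟩ hy
      have : ((φ g).toAdd + l, g • x) = (l, x) := hy
      exact ⟨Set.mem_univ _, (Prod.ext_iff.mp this).2⟩
    · rw [prodMeasure_prod, h.2 g hg, mul_zero]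

/-- Word in `c * t` moves a point along the levels. -/
theorem word_path {M : ℕ} (φ : Γ →* Multiplicative (ZMod M)) (t : Γ)
    (r : (ZMod M × X) → (ZMod M × X) → Prop)
    (hrefl : ∀ y, r y y) (htrans : ∀ x y z, r x y → r y z → r x z)
    (act : Γ → (ZMod M × X) → (ZMod M × X))
    (hact : ∀ g y, act g y = ((φ g).toAdd + y.1, g • y.2))
    (ht0 : φ t = 1) (a : ℕ) :
    ∀ cs : List Γ, (∀ c ∈ cs, (∀ y, r y (act c y)) ∧ φ c = Multiplicative.ofAdd 1) →
      ∀ u : ZMod M × X, u.1 = (a : ZMod M) →
      (∀ j < cs.length, ∀ y : ZMod M × X, y.1 = ((a + j : ℕ) : ZMod M) → r y (act t y)) →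
      r u (act ((cs.map (fun c => c * t)).prod) u) ∧
        (act ((cs.map (fun c => c * t)).prod) u).1 = ((a + cs.length : ℕ) : ZMod M) := by
  have hmul : ∀ g h y, act (g * h) y = act g (act h y) := by
    intro g h y
    simp [hact, mul_smul, add_assoc]
  have hone : ∀ y, act 1 y = y := by
    intro y; simp [hact]
  intro cs
  induction cs with
  | nil =>
    intro _ u hu _
    simp only [List.map_nil, List.prod_nil, hone, List.length_nil, Nat.add_zero]
    exact ⟨hrefl _, hu⟩
  | cons c cs ih =>
    intro hc u hu hj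
    obtain ⟨h1, h2⟩ := ih (fun c' hc' => hc c' (List.mem_cons_of_mem _ hc')) u hu
      (fun j hj' => hj j (by simp; omega))
    simp only [List.map_cons, List.prod_cons, List.length_cons]
    rw [hmul, hmul]
    set v := act ((cs.map (fun c => c * t)).prod) u with hv
    have h3 := hj cs.length (by simp) v h2
    have h4 := (hc c (List.mem_cons_self)).1 (act t v)
    refine ⟨htrans _ _ _ h1 (htrans _ _ _ h3 h4), ?_⟩
    rw [hact c, hact t]
    have h5 := (hc c (List.mem_cons_self)).2
    rw [h5, ht0]
    simp only [toAdd_ofAdd, toAdd_one, zero_add]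
    rw [h2]
    push_cast
    ring

/-- Abstract upper bound: a group generated by `z`, `f j` (commuting with `z`) and `t`, with a
relation `c₁ t c₂ t ⋯ c_D t = 1`, where the corners lie in `⟨z, f⟩`, and a homomorphism to `ZMod M`
with `z, c₁, …, c_{D-1} ↦ 1`, `f j, t ↦ 0`, has an action of cost `≤ 1 + (r + (D-1))/M`. -/
theorem cheap_action {M : ℕ} [NeZero M] {r : ℕ} [MeasurableSpace X] (μ : Measure X)
    [IsProbabilityMeasure μ] (φ : Γ →* Multiplicative (ZMod M))
    (z t : Γ) (f : Fin r → Γ) (hcomm : ∀ j, z * f j = f j * z)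
    (hgen : Subgroup.closure (insert t (insert z (Set.range f))) = ⊤)
    (hz : φ z = Multiplicative.ofAdd 1) (_hf : ∀ j, φ (f j) = 1) (ht : φ t = 1)
    (cs : List Γ) (clast : Γ) (hcs : ∀ c ∈ cs, c ∈ Subgroup.closure (insert z (Set.range f)))
    (hclast : clast ∈ Subgroup.closure (insert z (Set.range f)))
    (hcsφ : ∀ c ∈ cs, φ c = Multiplicative.ofAdd 1)
    (hrel : (cs.map (fun c => c * t)).prod * (clast * t) = 1) :
    @actionCost Γ (ZMod M × X) _ (prodAction φ) _ (prodMeasure M μ) ≤
      1 + ((r + cs.length : ℕ) : ENNReal) / (M : ENNReal) := by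
  let _ := prodAction (X := X) φ
  -- the graphing
  let Ψ : (Unit ⊕ Fin r ⊕ Fin cs.length) → Γ × Set (ZMod M × X) := fun i =>
    match i with
    | Sum.inl _ => (z, Set.univ)
    | Sum.inr (Sum.inl j) => (f j, {0} ×ˢ Set.univ)
    | Sum.inr (Sum.inr l) => (t, {((l : ℕ) : ZMod M)} ×ˢ Set.univ)
  have hmeas : ∀ i, MeasurableSet (Ψ i).2 := by
    rintro (_ | _ | _)
    · exact MeasurableSet.univ
    · exact (MeasurableSet.of_discrete).prod MeasurableSet.univ
    · exact (MeasurableSet.of_discrete).prod MeasurableSet.univ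
  set R : (ZMod M × X) → (ZMod M × X) → Prop :=
    fun x y => ∃ i, x ∈ (Ψ i).2 ∧ y = (Ψ i).1 • x with hR
  set E := Relation.EqvGen R with hE
  have hrefl : ∀ y, E y y := fun y => Relation.EqvGen.refl y
  have hsymm : ∀ x y, E x y → E y x := fun x y => Relation.EqvGen.symm x y
  have htrans : ∀ x y z, E x y → E y z → E x z := fun x y z => Relation.EqvGen.trans x y z
  have hsmul : ∀ (g : Γ) (y : ZMod M × X), g • y = ((φ g).toAdd + y.1, g • y.2) := fun _ _ => rfl
  -- subgroup of everywhere-joined elements
  let S : Subgroup Γ :=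
    { carrier := {g | ∀ y, E y (g • y)}
      mul_mem' := by
        intro a b ha hb y
        rw [mul_smul]
        exact htrans _ _ _ (hb y) (ha (b • y))
      one_mem' := by
        intro y
        rw [one_smul]
        exact hrefl y
      inv_mem' := by
        intro a ha y
        have := ha (a⁻¹ • y)
        rw [smul_inv_smul] at this
        exact hsymm _ _ this }
  have hzS : z ∈ S := by
    intro y
    exact Relation.EqvGen.rel _ _ ⟨Sum.inl (), Set.mem_univ _, rfl⟩
  have hfS : ∀ j, f j ∈ S := by
    intro j y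
    -- move to level 0
    obtain ⟨n, hn⟩ : ∃ n : ℤ, (z ^ n • y).1 = 0 := by
      refine ⟨-((ZMod.val y.1 : ℕ) : ℤ), ?_⟩
      rw [hsmul, map_zpow, hz]
      simp only [toAdd_zpow, toAdd_ofAdd, zsmul_eq_mul, mul_one, Int.cast_neg, Int.cast_natCast]
      rw [ZMod.natCast_zmod_val, neg_add_cancel]
    have hzn : z ^ n ∈ S := S.zpow_mem hzS n
    have h1 : E y (z ^ n • y) := hzn y
    have h2 : E (z ^ n • y) (f j • z ^ n • y) := by
      refine Relation.EqvGen.rel _ _ ⟨Sum.inr (Sum.inl j), ?_, rfl⟩
      exact ⟨hn, Set.mem_univ _⟩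
    have h3 : f j • z ^ n • y = z ^ n • f j • y := by
      rw [← mul_smul, ← mul_smul]
      congr 1
      exact ((show Commute z (f j) from hcomm j).zpow_left n).eq.symm
    have h4 : E (f j • y) (z ^ n • f j • y) := hzn _
    rw [h3] at h2
    exact htrans _ _ _ h1 (htrans _ _ _ h2 (hsymm _ _ h4))
  have hCS : Subgroup.closure (insert z (Set.range f)) ≤ S := by
    rw [Subgroup.closure_le]
    rintro g (rfl | ⟨j, rfl⟩)
    · exact hzS
    · exact hfS j
  have htS : ∀ n : ℕ, ∀ y : ZMod M × X, y.1 = (n : ZMod M) → E y (t • y) := by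
    intro n
    induction n using Nat.strong_induction_on with
    | _ n ih =>
      intro y hy
      by_cases hn : n < cs.length
      · exact Relation.EqvGen.rel _ _ ⟨Sum.inr (Sum.inr ⟨n, hn⟩), ⟨hy, Set.mem_univ _⟩, rfl⟩
      · rw [not_lt] at hn
        -- degree of `clast`
        have hφlast : φ clast = Multiplicative.ofAdd (-(cs.length : ZMod M)) := by
          have h := congrArg φ hrel
          rw [map_mul, map_mul, ht, mul_one, map_one] at h
          have hp : φ ((cs.map (fun c => c * t)).prod) = Multiplicative.ofAdd (cs.length : ZMod M) := by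
            have : ∀ l : List Γ, (∀ c ∈ l, φ c = Multiplicative.ofAdd 1) →
                φ ((l.map (fun c => c * t)).prod) = Multiplicative.ofAdd (l.length : ZMod M) := by
              intro l
              induction l with
              | nil => intro _; simp
              | cons c l ihl =>
                intro hl
                simp only [List.map_cons, List.prod_cons, map_mul, List.length_cons]
                rw [ihl (fun c' hc' => hl c' (List.mem_cons_of_mem _ hc')), hl c (List.mem_cons_self),
                  ht, mul_one, ← ofAdd_add]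
                congr 1
                push_cast
                ring
            exact this cs hcsφ
          rw [hp] at h
          have h' := eq_inv_of_mul_eq_one_right h
          rw [h', ← ofAdd_neg]
        obtain ⟨a, rfl⟩ := Nat.exists_eq_add_of_le hn
        set u := clast • t • y with hu
        have hu1 : u.1 = (a : ZMod M) := by
          rw [hu, hsmul, hsmul, hφlast, ht]
          simp only [toAdd_ofAdd, toAdd_one, zero_add]
          rw [hy]
          push_cast
          ring
        obtain ⟨h1, _⟩ := word_path φ t E hrefl htrans (fun g y => g • y) (fun _ _ => rfl) ht a cs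
          (fun c hc => ⟨hCS (hcs c hc), hcsφ c hc⟩) u hu1
          (fun j hj y' hy' => ih (a + j) (by omega) y' hy')
        have h2 : (cs.map (fun c => c * t)).prod • u = y := by
          rw [hu, ← mul_smul clast t y, ← mul_smul, hrel, one_smul]
        have h1' : E u y := by
          rw [h2] at h1
          exact h1
        exact hsymm _ _ (htrans _ _ _ (hCS hclast (t • y)) h1')
  have htS' : t ∈ S := by
    intro y
    refine htS (ZMod.val y.1) y ?_
    rw [ZMod.natCast_zmod_val]
  have hS : S = ⊤ := by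
    rw [eq_top_iff, ← hgen, Subgroup.closure_le]
    rintro g (rfl | rfl | ⟨j, rfl⟩)
    · exact htS'
    · exact hzS
    · exact hfS j
  have hle := actionCost_le_tsum (prodMeasure M μ) Ψ hmeas
    (Filter.Eventually.of_forall (fun y g => (by rw [hS]; trivial : g ∈ S) y))
  refine hle.trans (le_of_eq ?_)
  rw [tsum_fintype, Fintype.sum_sum_type, Fintype.sum_sum_type]
  have e1 : ∀ l : ZMod M, prodMeasure M μ ({l} ×ˢ (Set.univ : Set X)) = (M : ENNReal)⁻¹ := by
    intro l
    rw [prodMeasure_prod]
    simp
  simp only [Ψ, e1, Finset.sum_const, Finset.card_univ, Fintype.card_fin, Finset.univ_unique,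
    Finset.card_singleton, one_smul, measure_univ, nsmul_eq_mul]
  rw [← add_mul, ENNReal.div_eq_inv_mul, mul_comm]
  push_cast
  rfl

end

end Crest.Agent.R191.Cheap
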