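import Crest.Agent.R191.Cheap

set_option autoImplicit false

namespace Crest.Agent.R191.Cheap

open MeasureTheory Crest.Dynamics

/-- Cheap actions for a group generated by `a, b, z` with `z` commuting with `a b` and
`b a⁻¹ b`, and having homomorphisms to `ℤ/M` with `a ↦ 1, b ↦ 2, z ↦ 1`. -/
theorem cheap_of_data {Γ X : Type} [Group Γ] [MulAction Γ X] [MeasurableSpace X]
    [StandardBorelSpace X] (μ : Measure X) [IsProbabilityMeasure μ]
    (hX : IsFreePMPAction Γ X μ) (a b z : Γ)
    (hc1 : z * (a * b) = (a * b) * z) (hc2 : z * (b * a⁻¹ * b) = (b * a⁻¹ * b) * z)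
    (hgen : Subgroup.closure ({a, b, z} : Set Γ) = ⊤)
    (φ : ∀ M : ℕ, Γ →* Multiplicative (ZMod M))
    (ha : ∀ M, φ M a = Multiplicative.ofAdd 1) (hb : ∀ M, φ M b = Multiplicative.ofAdd 2)
    (hz : ∀ M, φ M z = Multiplicative.ofAdd 1) (M : ℕ) (hM : 100 < M) :
    ∃ (Y : Type) (_ : MeasurableSpace Y) (_ : StandardBorelSpace Y) (ν : Measure Y)
      (_ : IsProbabilityMeasure ν) (_ : MulAction Γ Y),
      IsFreePMPAction Γ Y ν ∧ actionCost Γ Y ν ≤ 1 + 99 / (M : ENNReal) := by
  have : NeZero M := ⟨by omega⟩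
  set t : Γ := z⁻¹ * a with ht
  set f : Fin 2 → Γ := ![z⁻¹ ^ 3 * (a * b), z⁻¹ ^ 3 * (b * a⁻¹ * b)] with hf
  have hcz1 : Commute z (a * b) := hc1
  have hcz2 : Commute z (b * a⁻¹ * b) := hc2
  have hcomm : ∀ j, z * f j = f j * z := by
    intro j
    have h0 : Commute z (z⁻¹ ^ 3) := ((Commute.refl z).inv_right).pow_right 3
    fin_cases j
    · exact (h0.mul_right hcz1)
    · exact (h0.mul_right hcz2)
  have hφt : φ M t = 1 := by
    rw [ht, map_mul, map_inv, ha, hz]; simp
  have hφf : ∀ j, φ M (f j) = 1 := by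
    intro j
    fin_cases j
    · simp only [hf, Fin.zero_eta, Matrix.cons_val_zero, map_mul, map_pow, map_inv, ha, hb, hz]
      rw [← ofAdd_neg, ← ofAdd_nsmul, ← ofAdd_add, ← ofAdd_add]
      rw [ofAdd_eq_one]
      norm_num
    · simp only [hf, Fin.mk_one, Matrix.cons_val_one, Matrix.cons_val_fin_one, map_mul, map_pow,
        map_inv, ha, hb, hz]
      rw [← ofAdd_neg, ← ofAdd_nsmul, ← ofAdd_add, ← ofAdd_add, ← ofAdd_add]
      rw [ofAdd_eq_one]
      norm_num
  -- closures
  set K : Subgroup Γ := Subgroup.closure (insert z (Set.range f)) with hK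
  have hzK : z ∈ K := Subgroup.subset_closure (Set.mem_insert _ _)
  have hf0 : f 0 ∈ K := Subgroup.subset_closure (Set.mem_insert_of_mem _ ⟨0, rfl⟩)
  have hf1 : f 1 ∈ K := Subgroup.subset_closure (Set.mem_insert_of_mem _ ⟨1, rfl⟩)
  have hab : a * b = z ^ 3 * f 0 := by
    simp [hf, ← mul_assoc]
  have hbab : b * a⁻¹ * b = z ^ 3 * f 1 := by
    simp only [hf, Matrix.cons_val_one, Matrix.cons_val_fin_one]
    group
  have habK : a * b ∈ K := by rw [hab]; exact K.mul_mem (K.pow_mem hzK 3) hf0
  have hbabK : b * a⁻¹ * b ∈ K := by rw [hbab]; exact K.mul_mem (K.pow_mem hzK 3) hf1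
  have hgen' : Subgroup.closure (insert t (insert z (Set.range f))) = ⊤ := by
    rw [eq_top_iff, ← hgen, Subgroup.closure_le]
    set L : Subgroup Γ := Subgroup.closure (insert t (insert z (Set.range f))) with hL
    have hKL : K ≤ L := Subgroup.closure_mono (Set.subset_insert _ _)
    have htL : t ∈ L := Subgroup.subset_closure (Set.mem_insert _ _)
    have haL : a ∈ L := by
      have : a = z * t := by rw [ht]; group
      rw [this]; exact L.mul_mem (hKL hzK) htL
    have hbL : b ∈ L := by
      have : b = a⁻¹ * (a * b) := by group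
      rw [this]; exact L.mul_mem (L.inv_mem haL) (hKL habK)
    rintro x (rfl | rfl | rfl)
    · exact haL
    · exact hbL
    · exact hKL hzK
  have hrel : (([b * a⁻¹ * b * (a * b)⁻¹ * z, z] : List Γ).map (fun c => c * t)).prod *
      (((a * b)⁻¹ * z) * t) = 1 := by
    simp only [List.map_cons, List.map_nil, List.prod_cons, List.prod_nil, ht]
    group
  have key := cheap_action (X := X) (M := M) μ (φ M) z t f hcomm hgen' (hz M) hφf hφt
    [b * a⁻¹ * b * (a * b)⁻¹ * z, z] ((a * b)⁻¹ * z)
    (by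
      intro c hc
      simp only [List.mem_cons, List.not_mem_nil, or_false] at hc
      rcases hc with rfl | rfl
      · exact K.mul_mem (K.mul_mem hbabK (K.inv_mem habK)) hzK
      · exact hzK)
    (K.mul_mem (K.inv_mem habK) hzK)
    (by
      intro c hc
      simp only [List.mem_cons, List.not_mem_nil, or_false] at hc
      rcases hc with rfl | rfl
      · simp only [map_mul, map_inv, ha, hb, hz, ← ofAdd_neg, ← ofAdd_add]
        congr 1
        ring
      · exact hz M)
    hrel
  let _ := prodAction (X := X) (φ M)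
  refine ⟨ZMod M × X, inferInstance, inferInstance, prodMeasure M μ, isProb μ,
    prodAction (φ M), ?_, ?_⟩
  · exact isFreePMP_prod μ (φ M) hX
  · refine key.trans ?_
    gcongr
    norm_num

end Crest.Agent.R191.Cheap
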