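import Crest.Agent.R191.Defs

/-!
Row 191 (S0291), module M3: the contraction lemma.
-/

set_option autoImplicit false

namespace Crest.Agent.R191

open MeasureTheory Set
open scoped ENNReal

namespace Contr

variable {G Z : Type*} [Group G] [MulAction G Z]

/-- Group element of a move. -/
def elt (i : G × Bool) : G := if i.2 then i.1 else i.1⁻¹

/-- Validity of a move at `p`. -/
def valid (Φ : G → Set Z) (i : G × Bool) (p : Z) : Prop :=
  if i.2 then p ∈ Φ i.1 else i.1⁻¹ • p ∈ Φ i.1

/-- Balls around `A`. -/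
def ball (Φ : G → Set Z) (A : Set Z) : ℕ → Set Z
  | 0 => A
  | n + 1 => ball Φ A n ∪ {p | ∃ i, valid Φ i p ∧ elt i • p ∈ ball Φ A n}

lemma ball_succ (Φ : G → Set Z) (A : Set Z) (n : ℕ) :
    ball Φ A (n + 1) = ball Φ A n ∪ {p | ∃ i, valid Φ i p ∧ elt i • p ∈ ball Φ A n} := rfl

lemma exists_ball (Φ : G → Set Z) (A : Set Z) (S : Z → Z → Prop)
    (hS : ∀ p q, S p q → p ∈ A ∧ q ∈ A) {p q : Z} (h : Gen S Φ p q) :
    (∃ n, p ∈ ball Φ A n) ↔ (∃ n, q ∈ ball Φ A n) := by
  induction h with
  | rel p q h =>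
    rcases h with h | ⟨g, hg, rfl⟩
    · have := hS p q h
      exact ⟨fun _ => ⟨0, this.2⟩, fun _ => ⟨0, this.1⟩⟩
    · constructor
      · rintro ⟨n, hn⟩
        refine ⟨n + 1, Or.inr ⟨(g, false), ?_, ?_⟩⟩
        · simpa [valid] using hg
        · simpa [elt] using hn
      · rintro ⟨n, hn⟩
        refine ⟨n + 1, Or.inr ⟨(g, true), ?_, ?_⟩⟩
        · simpa [valid] using hg
        · simpa [elt] using hn
  | refl p => exact Iff.rfl
  | symm p q _ ih => exact ih.symm
  | trans p q r _ _ ih1 ih2 => exact ih1.trans ih2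

section measurability

variable [MeasurableSpace Z] (hm : ∀ g : G, Measurable (fun p : Z => g • p))

include hm in
lemma measurableSet_valid (Φ : G → Set Z) (hΦ : ∀ g, MeasurableSet (Φ g)) (i : G × Bool) :
    MeasurableSet {p | valid Φ i p} := by
  rcases i with ⟨g, b⟩
  cases b
  · have : {p | valid Φ (g, false) p} = (fun p : Z => g⁻¹ • p) ⁻¹' Φ g := by
      ext p; simp [valid]
    rw [this]; exact hm g⁻¹ (hΦ g)
  · have : {p | valid Φ (g, true) p} = Φ g := by
      ext p; simp [valid]
    rw [this]; exact hΦ g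

include hm in
lemma measurableSet_ball [Countable G] (Φ : G → Set Z) (hΦ : ∀ g, MeasurableSet (Φ g)) (A : Set Z)
    (hA : MeasurableSet A) (n : ℕ) : MeasurableSet (ball Φ A n) := by
  induction n with
  | zero => exact hA
  | succ n ih =>
    rw [ball_succ]
    refine ih.union ?_
    have : {p | ∃ i, valid Φ i p ∧ elt i • p ∈ ball Φ A n}
        = ⋃ i : G × Bool, ({p | valid Φ i p} ∩ (fun p : Z => elt i • p) ⁻¹' (ball Φ A n)) := by
      ext p; simp
    rw [this]
    exact MeasurableSet.iUnion fun i => (measurableSet_valid hm Φ hΦ i).inter (hm _ ih)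

end measurability

end Contr

open Contr in
/-- **Contraction lemma.** -/
theorem contraction {G Z : Type*} [Group G] [Countable G] [MulAction G Z] [MeasurableSpace Z]
    (ν : Measure Z) (hinv : ∀ g : G, MeasurePreserving (fun p : Z => g • p) ν ν)
    (Φ : G → Set Z) (hΦ : ∀ g, MeasurableSet (Φ g)) (A : Set Z) (hA : MeasurableSet A)
    (S : Z → Z → Prop) (hS : ∀ p q, S p q → p ∈ A ∧ q ∈ A)
    (hgen : ∀ p, ∃ a ∈ A, Gen S Φ p a) :
    ∃ Ψ : G → Set Z, (∀ g, MeasurableSet (Ψ g)) ∧ (∀ g, Ψ g ⊆ A) ∧ (∀ g, ∀ p ∈ Ψ g, g • p ∈ A) ∧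
      (∀ p ∈ A, ∀ q ∈ A, Gen S Φ p q ↔ Gen S Ψ p q) ∧
      (∀ p q, Gen S Ψ p q → Gen S Φ p q) ∧
      ∑' g, ν (Ψ g) + ν Aᶜ ≤ ∑' g, ν (Φ g) := by
  classical
  have hm : ∀ g : G, Measurable (fun p : Z => g • p) := fun g => (hinv g).measurable
  -- distance
  have hU : ∀ p, ∃ n, p ∈ ball Φ A n := by
    intro p
    obtain ⟨a, ha, hpa⟩ := hgen p
    exact (exists_ball Φ A S hS hpa).2 ⟨0, ha⟩
  let d : Z → ℕ := fun p => Nat.find (hU p)
  have hd_mem : ∀ p, p ∈ ball Φ A (d p) := fun p => Nat.find_spec (hU p)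
  have hd_le : ∀ p n, p ∈ ball Φ A n → d p ≤ n := fun p n h => Nat.find_min' (hU p) h
  have hd0 : ∀ p, p ∈ A → d p = 0 := fun p hp => Nat.le_zero.1 (hd_le p 0 hp)
  have hd0' : ∀ p, d p = 0 → p ∈ A := fun p hp => by
    have := hd_mem p
    rw [hp] at this
    exact this
  have hball_mono : ∀ n, ball Φ A n ⊆ ball Φ A (n + 1) := fun n => subset_union_left
  have hball_mono' : ∀ m n, m ≤ n → ball Φ A m ⊆ ball Φ A n := by
    intro m n hmn
    induction hmn with
    | refl => exact Subset.rfl
    | step _ ih => exact ih.trans (hball_mono _)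
  have hd_iff : ∀ p n, d p ≤ n ↔ p ∈ ball Φ A n := fun p n =>
    ⟨fun h => hball_mono' _ _ h (hd_mem p), hd_le p n⟩
  -- good moves
  let Q : G × Bool → Z → Prop := fun i p => valid Φ i p ∧ d (elt i • p) < d p
  have hQ : ∀ p, p ∉ A → ∃ i, Q i p := by
    intro p hp
    obtain ⟨n, hn⟩ : ∃ n, d p = n + 1 := by
      rcases Nat.eq_zero_or_pos (d p) with h | h
      · exact absurd (hd0' p h) hp
      · exact ⟨d p - 1, by omega⟩
    have h1 := hd_mem p
    rw [hn, ball_succ] at h1
    rcases h1 with h1 | ⟨i, hi, hi'⟩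
    · have := hd_le p n h1
      omega
    · refine ⟨i, hi, ?_⟩
      have := hd_le _ n hi'
      omega
  obtain ⟨e, he⟩ := exists_injective_nat (G × Bool)
  -- the chosen move
  have hchoice : ∀ p, ∃ i : G × Bool, p ∉ A → (Q i p ∧ ∀ j, Q j p → e i ≤ e j) := by
    intro p
    by_cases hp : p ∈ A
    · exact ⟨(1, true), fun h => absurd hp h⟩
    · have hne : {i | Q i p}.Nonempty := hQ p hp
      obtain ⟨i, hi, hmin⟩ := (WellFounded.has_min (measure e).wf {i | Q i p} hne)
      refine ⟨i, fun _ => ⟨hi, fun j hj => ?_⟩⟩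
      by_contra hlt
      exact hmin j hj (not_le.1 hlt)
  choose c hc using hchoice
  have hc_iff : ∀ p, p ∉ A → ∀ i, c p = i ↔ (Q i p ∧ ∀ j, Q j p → e i ≤ e j) := by
    intro p hp i
    constructor
    · rintro rfl
      exact hc p hp
    · rintro ⟨h1, h2⟩
      exact he (le_antisymm ((hc p hp).2 i h1) (h2 _ (hc p hp).1))
  -- measurability of d and Q
  have hdm : ∀ n, MeasurableSet {p | d p ≤ n} := by
    intro n
    have : {p | d p ≤ n} = ball Φ A n := by ext p; exact hd_iff p n
    rw [this]; exact measurableSet_ball hm Φ hΦ A hA n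
  have hdmeas : Measurable d := measurable_of_Iic (fun n => hdm n)
  have hQm : ∀ i, MeasurableSet {p | Q i p} := by
    intro i
    refine (measurableSet_valid hm Φ hΦ i).inter ?_
    exact measurableSet_lt (hdmeas.comp (hm _)) hdmeas
  have hcm : ∀ i, MeasurableSet {p | p ∉ A ∧ c p = i} := by
    intro i
    have : {p | p ∉ A ∧ c p = i} = Aᶜ ∩ ({p | Q i p} ∩ ⋂ j : G × Bool, {p | Q j p → e i ≤ e j}) := by
      ext p
      simp only [mem_ofPred_eq, mem_inter_iff, mem_compl_iff, mem_iInter]
      constructor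
      · rintro ⟨hp, h⟩
        exact ⟨hp, (hc_iff p hp i).1 h⟩
      · rintro ⟨hp, h⟩
        exact ⟨hp, (hc_iff p hp i).2 h⟩
    rw [this]
    refine hA.compl.inter ((hQm i).inter (MeasurableSet.iInter fun j => ?_))
    by_cases hij : e i ≤ e j
    · have : {p | Q j p → e i ≤ e j} = univ := by ext p; simp [hij]
      rw [this]; exact MeasurableSet.univ
    · have : {p | Q j p → e i ≤ e j} = {p | Q j p}ᶜ := by ext p; simp [hij]
      rw [this]; exact (hQm j).compl
  -- the next group element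
  let nx : Z → G := fun p => if p ∈ A then 1 else elt (c p)
  let _ : MeasurableSpace G := ⊤
  have _ : MeasurableSingletonClass G := ⟨fun _ => trivial⟩
  have hnxm : Measurable nx := by
    refine measurable_to_countable' fun g => ?_
    have : nx ⁻¹' {g} = (A ∩ {_p | (1 : G) = g}) ∪
        ⋃ i : G × Bool, ({p | p ∉ A ∧ c p = i} ∩ {_p | elt i = g}) := by
      ext p
      simp only [mem_preimage, mem_singleton_iff, mem_union, mem_inter_iff, mem_ofPred_eq,
        mem_iUnion, nx]
      by_cases hp : p ∈ A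
      · simp [hp]
      · simp [hp]
    rw [this]
    refine (hA.inter (MeasurableSet.const _)).union (MeasurableSet.iUnion fun i =>
      (hcm i).inter (MeasurableSet.const _))
  have hsmul : Measurable (fun q : G × Z => q.1 • q.2) :=
    measurable_from_prod_countable_right (fun g => hm g)
  let nxt : Z → Z := fun p => nx p • p
  have hnxtm : Measurable nxt := hsmul.comp (hnxm.prodMk measurable_id)
  -- iterated products
  let Rn : ℕ → Z → G := fun n => Nat.rec (fun _ => 1) (fun _ f p => f (nxt p) * nx p) n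
  have hRn0 : ∀ p, Rn 0 p = 1 := fun _ => rfl
  have hRnS : ∀ n p, Rn (n + 1) p = Rn n (nxt p) * nx p := fun _ _ => rfl
  have hRnm : ∀ n, Measurable (Rn n) := by
    intro n
    induction n with
    | zero => exact measurable_const
    | succ n ih =>
      have hmul : Measurable (fun q : G × G => q.1 * q.2) := measurable_of_countable _
      exact hmul.comp ((ih.comp hnxtm).prodMk hnxm)
  have hnxA : ∀ p, p ∈ A → nx p = 1 := fun p hp => by simp [nx, hp]
  have hnxtA : ∀ p, p ∈ A → nxt p = p := fun p hp => by simp [nxt, hnxA p hp]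
  have hRnA : ∀ n p, p ∈ A → Rn n p = 1 := by
    intro n
    induction n with
    | zero => intro p _; rfl
    | succ n ih => intro p hp; rw [hRnS, hnxtA p hp, ih p hp, hnxA p hp, one_mul]
  have hdnxt : ∀ p, p ∉ A → d (nxt p) < d p := by
    intro p hp
    have := (hc p hp).1.2
    simpa [nxt, nx, hp] using this
  have hRstab : ∀ n p, d p ≤ n → Rn n p = Rn (d p) p := by
    intro n
    induction n using Nat.strong_induction_on with
    | _ n ih =>
      intro p hpn
      by_cases hp : p ∈ A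
      · rw [hRnA _ p hp, hRnA _ p hp]
      · have h1 := hdnxt p hp
        obtain ⟨n', rfl⟩ : ∃ n', n = n' + 1 := ⟨n - 1, by omega⟩
        obtain ⟨d', hd'⟩ : ∃ d', d p = d' + 1 := ⟨d p - 1, by omega⟩
        rw [hd', hRnS, hRnS]
        rcases Nat.lt_or_ge d' n' with hlt | hge
        · rw [ih n' (by omega) (nxt p) (by omega), ← ih d' (by omega) (nxt p) (by omega)]
        · have : d' = n' := by omega
          rw [this]
  let R : Z → G := fun p => Rn (d p) p
  have hRA : ∀ p, p ∈ A → R p = 1 := fun p hp => hRnA _ p hp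
  have hRstep : ∀ p, p ∉ A → R p = R (nxt p) * nx p := by
    intro p hp
    have h1 := hdnxt p hp
    obtain ⟨d', hd'⟩ : ∃ d', d p = d' + 1 := ⟨d p - 1, by omega⟩
    show Rn (d p) p = Rn (d (nxt p)) (nxt p) * nx p
    rw [hd', hRnS, hRstab d' (nxt p) (by omega)]
  have hRm : Measurable R := by
    refine measurable_to_countable' fun g => ?_
    have : R ⁻¹' {g} = ⋃ n : ℕ, ({p | d p = n} ∩ Rn n ⁻¹' {g}) := by
      ext p
      simp only [mem_preimage, mem_singleton_iff, mem_iUnion, mem_inter_iff, mem_ofPred_eq, R]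
      constructor
      · intro h; exact ⟨d p, rfl, h⟩
      · rintro ⟨n, rfl, h⟩; exact h
    rw [this]
    exact MeasurableSet.iUnion fun n => (hdmeas (measurableSet_singleton n)).inter
      (hRnm n (measurableSet_singleton g))
  let r : Z → Z := fun p => R p • p
  have hrA : ∀ p, p ∈ A → r p = p := fun p hp => by simp [r, hRA p hp]
  have hrstep : ∀ p, p ∉ A → r p = r (nxt p) := by
    intro p hp
    show R p • p = R (nxt p) • nx p • p
    rw [hRstep p hp, mul_smul]
  have hrmem : ∀ p, r p ∈ A := by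
    intro p
    induction hn : d p using Nat.strong_induction_on generalizing p with
    | _ n ih =>
      by_cases hp : p ∈ A
      · rw [hrA p hp]; exact hp
      · rw [hrstep p hp]
        exact ih (d (nxt p)) (hn ▸ hdnxt p hp) _ rfl
  -- a move is a generated step
  have hmove : ∀ i p, valid Φ i p → Gen S Φ p (elt i • p) := by
    rintro ⟨g, b⟩ p hv
    cases b
    · refine Relation.EqvGen.symm _ _ (Relation.EqvGen.rel _ _ (Or.inr ⟨g, ?_, ?_⟩))
      · simpa [valid, elt] using hv
      · simp [elt]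
    · exact Relation.EqvGen.rel _ _ (Or.inr ⟨g, by simpa [valid] using hv, by simp [elt]⟩)
  have hgenr : ∀ p, Gen S Φ p (r p) := by
    intro p
    induction hn : d p using Nat.strong_induction_on generalizing p with
    | _ n ih =>
      by_cases hp : p ∈ A
      · rw [hrA p hp]; exact Relation.EqvGen.refl _
      · rw [hrstep p hp]
        have h1 : nxt p = elt (c p) • p := by simp [nxt, nx, hp]
        have h2 : Gen S Φ p (nxt p) := by
          rw [h1]; exact hmove _ _ (hc p hp).1.1
        exact Relation.EqvGen.trans _ _ _ h2 (ih (d (nxt p)) (hn ▸ hdnxt p hp) _ rfl)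
  -- removed edges
  let P : G → Set Z := fun g => {q | q ∉ A ∧ c q = (g, true)}
  let N : G → Set Z := fun g => {q | g • q ∉ A ∧ c (g • q) = (g, false)}
  have hPm : ∀ g, MeasurableSet (P g) := fun g => hcm (g, true)
  have hNm : ∀ g, MeasurableSet (N g) := fun g => hm g (hcm (g, false))
  have hPsub : ∀ g, P g ⊆ Φ g := by
    rintro g q ⟨hq, hcq⟩
    have := (hc q hq).1.1
    rw [hcq] at this
    simpa [valid] using this
  have hNsub : ∀ g, N g ⊆ Φ g := by
    rintro g q ⟨hq, hcq⟩
    have := (hc (g • q) hq).1.1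
    rw [hcq] at this
    simpa [valid] using this
  have hPN : ∀ g, Disjoint (P g) (N g) := by
    intro g
    rw [Set.disjoint_left]
    rintro q ⟨hq, hcq⟩ ⟨hq', hcq'⟩
    have h1 := (hc q hq).1.2
    have h2 := (hc (g • q) hq').1.2
    rw [hcq] at h1
    rw [hcq'] at h2
    simp only [elt, if_true] at h1
    simp only [elt] at h2
    simp only [Bool.false_eq_true, if_false, inv_smul_smul] at h2
    omega
  let K : G → Set Z := fun g => Φ g \ (P g ∪ N g)
  have hKm : ∀ g, MeasurableSet (K g) := fun g => (hΦ g).diff ((hPm g).union (hNm g))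
  -- the new graphing
  let T : G → G → G → Set Z := fun k g h =>
    {q | q ∈ K g ∧ R q = h ∧ k = R (g • q) * g * h⁻¹}
  let Ψ : G → Set Z := fun k => {a | ∃ g h : G, h⁻¹ • a ∈ T k g h}
  have hTm : ∀ k g h, MeasurableSet (T k g h) := by
    intro k g h
    refine (hKm g).inter ((hRm (measurableSet_singleton h)).inter ?_)
    have h2 : Measurable (fun q : Z => R (g • q)) := hRm.comp (hm g)
    have h3 : MeasurableSet {x : G | k = x * g * h⁻¹} := trivial
    exact h2 h3
  have hΨU : ∀ k, Ψ k = ⋃ gh : G × G, (fun a : Z => gh.2⁻¹ • a) ⁻¹' T k gh.1 gh.2 := by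
    intro k
    ext a
    simp [Ψ]
  have hΨm : ∀ k, MeasurableSet (Ψ k) := by
    intro k
    rw [hΨU]
    exact MeasurableSet.iUnion fun gh => hm _ (hTm _ _ _)
  have hΨchar : ∀ k a, a ∈ Ψ k → ∃ g q, q ∈ K g ∧ a = r q ∧ k • a = r (g • q) := by
    rintro k a ⟨g, h, hq, hR, hk⟩
    refine ⟨g, h⁻¹ • a, hq, ?_, ?_⟩
    · show a = R (h⁻¹ • a) • h⁻¹ • a
      rw [hR, smul_inv_smul]
    · show k • a = R (g • h⁻¹ • a) • g • h⁻¹ • a
      rw [← mul_smul, ← mul_smul, ← hk]
  have hΨA : ∀ k, Ψ k ⊆ A := by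
    intro k a ha
    obtain ⟨g, q, _, h1, _⟩ := hΨchar k a ha
    rw [h1]; exact hrmem q
  have hΨA' : ∀ k, ∀ a ∈ Ψ k, k • a ∈ A := by
    intro k a ha
    obtain ⟨g, q, _, _, h1⟩ := hΨchar k a ha
    rw [h1]; exact hrmem _
  have hback : ∀ p q, Gen S Ψ p q → Gen S Φ p q := by
    intro p q h
    induction h with
    | rel p q h =>
      rcases h with h | ⟨k, hk, rfl⟩
      · exact Relation.EqvGen.rel _ _ (Or.inl h)
      · obtain ⟨g, q, hq, h1, h2⟩ := hΨchar k p hk
        rw [h1] at h2 ⊢
        rw [h2]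
        have e1 : Gen S Φ (r q) q := Relation.EqvGen.symm _ _ (hgenr q)
        have e2 : Gen S Φ q (g • q) := Relation.EqvGen.rel _ _ (Or.inr ⟨g, hq.1, rfl⟩)
        exact Relation.EqvGen.trans _ _ _ e1 (Relation.EqvGen.trans _ _ _ e2 (hgenr _))
    | refl p => exact Relation.EqvGen.refl _
    | symm p q _ ih => exact Relation.EqvGen.symm _ _ ih
    | trans p q s _ _ ih1 ih2 => exact Relation.EqvGen.trans _ _ _ ih1 ih2
  have hforw : ∀ p q, Gen S Φ p q → Gen S Ψ (r p) (r q) := by
    intro p q h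
    induction h with
    | rel p q h =>
      rcases h with h | ⟨g, hg, rfl⟩
      · have := hS p q h
        rw [hrA p this.1, hrA q this.2]
        exact Relation.EqvGen.rel _ _ (Or.inl h)
      · by_cases hPg : p ∈ P g
        · obtain ⟨hp, hcp⟩ := hPg
          have : nxt p = g • p := by simp [nxt, nx, hp, hcp, elt]
          rw [hrstep p hp, this]
          exact Relation.EqvGen.refl _
        by_cases hNg : p ∈ N g
        · obtain ⟨hp, hcp⟩ := hNg
          have : nxt (g • p) = p := by simp [nxt, nx, hp, hcp, elt]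
          rw [hrstep _ hp, this]
          exact Relation.EqvGen.refl _
        have hK : p ∈ K g := ⟨hg, by simp only [mem_union, not_or]; exact ⟨hPg, hNg⟩⟩
        refine Relation.EqvGen.rel _ _ (Or.inr ⟨R (g • p) * g * (R p)⁻¹, ?_, ?_⟩)
        · refine ⟨g, R p, ?_⟩
          have : (R p)⁻¹ • r p = p := by simp [r]
          rw [this]
          exact ⟨hK, rfl, rfl⟩
        · simp [r, mul_smul]
    | refl p => exact Relation.EqvGen.refl _
    | symm p q _ ih => exact Relation.EqvGen.symm _ _ ih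
    | trans p q s _ _ ih1 ih2 => exact Relation.EqvGen.trans _ _ _ ih1 ih2
  refine ⟨Ψ, hΨm, hΨA, hΨA', ?_, hback, ?_⟩
  · intro p hp q hq
    constructor
    · intro h
      have := hforw p q h
      rwa [hrA p hp, hrA q hq] at this
    · exact hback p q
  · -- cost
    have hKcost : ∑' k, ν (Ψ k) ≤ ∑' g, ν (K g) := by
      have h1 : ∀ k, ν (Ψ k) ≤ ∑' gh : G × G, ν (T k gh.1 gh.2) := by
        intro k
        rw [hΨU]
        refine (measure_iUnion_le _).trans ?_
        refine ENNReal.tsum_le_tsum fun gh => ?_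
        rw [(hinv gh.2⁻¹).measure_preimage (hTm _ _ _).nullMeasurableSet]
      have h2 : ∀ g, ∑' hk : G × G, ν (T hk.2 g hk.1) = ν (K g) := by
        intro g
        let F : Z → G × G := fun q => (R q, R (g • q) * g * (R q)⁻¹)
        have hF : Measurable F := by
          refine hRm.prodMk ?_
          have hmul : Measurable (fun q : G × G => q.1 * g * q.2⁻¹) := measurable_of_countable _
          exact hmul.comp ((hRm.comp (hm g)).prodMk hRm)
        have hT : ∀ hk : G × G, T hk.2 g hk.1 = F ⁻¹' {hk} ∩ K g := by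
          rintro ⟨h, k⟩
          ext q
          simp only [T, F, mem_ofPred_eq, mem_inter_iff, mem_preimage, mem_singleton_iff, Prod.mk.injEq]
          constructor
          · rintro ⟨h1, h2, h3⟩
            exact ⟨⟨h2, by rw [h3, h2]⟩, h1⟩
          · rintro ⟨⟨h2, h3⟩, h1⟩
            exact ⟨h1, h2, by rw [← h3, h2]⟩
        have h3 : ∀ hk : G × G, ν (T hk.2 g hk.1) = (ν.restrict (K g)) (F ⁻¹' {hk}) := by
          intro hk
          rw [hT, Measure.restrict_apply (hF (measurableSet_singleton _))]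
        simp only [h3]
        have h4 : (ν.restrict (K g)) (F ⁻¹' (univ : Set (G × G))) = ν (K g) := by
          simp
        rw [← h4, ← tsum_measure_preimage_singleton (countable_univ)
          (fun y _ => hF (measurableSet_singleton y))]
        exact (tsum_univ (fun y : G × G => (ν.restrict (K g)) (F ⁻¹' {y}))).symm
      calc ∑' k, ν (Ψ k) ≤ ∑' k, ∑' gh : G × G, ν (T k gh.1 gh.2) := ENNReal.tsum_le_tsum h1
        _ = ∑' k, ∑' g, ∑' h, ν (T k g h) := by
            refine tsum_congr fun k => ?_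
            exact ENNReal.tsum_prod (f := fun g h => ν (T k g h))
        _ = ∑' g, ∑' k, ∑' h, ν (T k g h) := ENNReal.tsum_comm
        _ = ∑' g, ∑' h, ∑' k, ν (T k g h) := by
            refine tsum_congr fun g => ?_
            exact ENNReal.tsum_comm
        _ = ∑' g, ∑' hk : G × G, ν (T hk.2 g hk.1) := by
            refine tsum_congr fun g => ?_
            exact (ENNReal.tsum_prod (f := fun h k => ν (T k g h))).symm
        _ = ∑' g, ν (K g) := tsum_congr h2
    have hΦcost : ∑' g, ν (Φ g) = ∑' g, ν (K g) + (∑' g, ν (P g) + ∑' g, ν (N g)) := by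
      rw [← ENNReal.tsum_add, ← ENNReal.tsum_add]
      refine tsum_congr fun g => ?_
      rw [← measure_union (hPN g) (hNm g)]
      rw [add_comm, ← measure_union disjoint_sdiff_right (hKm g)]
      congr 1
      exact (union_sdiff_cancel (union_subset (hPsub g) (hNsub g))).symm
    have hAc : ν Aᶜ = ∑' g, ν (P g) + ∑' g, ν (N g) := by
      have h1 : ∀ g, ν (N g) = ν {p | p ∉ A ∧ c p = (g, false)} := fun g =>
        (hinv g).measure_preimage (hcm (g, false)).nullMeasurableSet
      simp only [h1]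
      rw [← ENNReal.tsum_add]
      have h2 : Aᶜ = ⋃ i : G × Bool, {p | p ∉ A ∧ c p = i} := by
        ext p; simp
      rw [h2, measure_iUnion ?_ hcm]
      · rw [ENNReal.tsum_prod (f := fun g b => ν {p | p ∉ A ∧ c p = (g, b)})]
        refine tsum_congr fun g => ?_
        rw [tsum_bool]
        rw [add_comm]
      · intro i j hij
        rw [Function.onFun, Set.disjoint_left]
        rintro p ⟨_, h1⟩ ⟨_, h2⟩
        exact hij (h1.symm.trans h2)
    rw [hΦcost, hAc]
    gcongr

/-- T4: contraction lemma, in the form of the interface. -/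
theorem contract {G Z : Type*} [Group G] [Countable G] [MulAction G Z] [MeasurableSpace Z]
    {ν : Measure Z} [IsFiniteMeasure ν]
    (hF : FreeAct G Z ν) {S : Z → Z → Prop} {A : Set Z} (hA : MeasurableSet A)
    (hS : ∀ p q, S p q → p ∈ A ∧ q ∈ A) {Φ : Gr G Z} (hΦ : Φ.Meas)
    (hconn : ∀ p, ∃ q ∈ A, Gen S Φ p q) :
    ∃ Ψ : Gr G Z, Ψ.Meas ∧ (∀ g, Ψ g ⊆ A) ∧ (∀ g, ∀ p ∈ Ψ g, g • p ∈ A) ∧
      (∀ p q, Ψ.Step p q → Gen S Φ p q) ∧
      (∀ p ∈ A, ∀ q ∈ A, Gen S Φ p q → Gen S Ψ p q) ∧
      Ψ.cost ν + ν Aᶜ ≤ Φ.cost ν := by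
  obtain ⟨Ψ, h1, h2, h3, h4, h5, h6⟩ := contraction ν hF.mp Φ hΦ A hA S hS hconn
  exact ⟨Ψ, h1, h2, h3, fun p q h => h5 p q (Relation.EqvGen.rel _ _ (Or.inr h)),
    fun p hp q hq h => (h4 p hp q hq).1 h, h6⟩

end Crest.Agent.R191
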