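import Mathlib

/-!
# Row 191 (S0291): basic definitions

Framework: a countable group `G` acting freely (everywhere) on `Z` and preserving a measure `ν`.
Graphings are indexed by group elements: `Φ g` is the set of points `p` with an edge `p → g • p`.
-/

set_option autoImplicit false

namespace Crest.Agent.R191

open MeasureTheory

/-- A graphing, indexed by group elements: the edges are `p → g • p` for `p ∈ Φ g`. -/
abbrev Gr (G Z : Type*) := G → Set Z

section Rel

variable {G Z : Type*} [Group G] [MulAction G Z]

/-- One step of a graphing. -/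
def Gr.Step (Φ : Gr G Z) (p q : Z) : Prop := ∃ g : G, p ∈ Φ g ∧ q = g • p

/-- The equivalence relation generated by the pairs of `S` and the steps of `Φ`. -/
def Gen (S : Z → Z → Prop) (Φ : Gr G Z) : Z → Z → Prop :=
  Relation.EqvGen (fun p q => S p q ∨ Φ.Step p q)

/-- Orbit relation of a subgroup. -/
def OR (H : Subgroup G) (p q : Z) : Prop := ∃ h ∈ H, q = h • p

/-- Orbit relation of a subgroup, restricted to pairs of points of `A`. -/
def ORon (H : Subgroup G) (A : Set Z) (p q : Z) : Prop := p ∈ A ∧ q ∈ A ∧ OR H p q

/-- The graphing `Φ` only uses elements of `H`. -/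
def Gr.SuppIn (Φ : Gr G Z) (H : Subgroup G) : Prop := ∀ g, g ∉ H → Φ g = ∅

/-- `Φ` uses only finitely many group elements. -/
def Gr.FinSupp (Φ : Gr G Z) : Prop := {g : G | (Φ g).Nonempty}.Finite

/-- Alternating words in `B \ C` and `C \ B` (the first letter is in `B \ C` iff the flag is true). -/
def Alt (B C : Subgroup G) : Bool → List G → Prop
  | _, [] => True
  | true, g :: l => (g ∈ B ∧ g ∉ C) ∧ Alt B C false l
  | false, g :: l => (g ∈ C ∧ g ∉ B) ∧ Alt B C true l

/-- The amalgam property: alternating words of length at least two are not in `B`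
(so `⟨B, C⟩` is the amalgamated product over `B ⊓ C`). -/
def AmalgProp (B C : Subgroup G) : Prop :=
  ∀ (s : Bool) (l : List G), Alt B C s l → 2 ≤ l.length → l.prod ∉ B

end Rel

section Meas

variable {G Z : Type*} [MeasurableSpace Z]

/-- All sets of the graphing are measurable. -/
def Gr.Meas (Φ : Gr G Z) : Prop := ∀ g, MeasurableSet (Φ g)

/-- The cost of the graphing. -/
noncomputable def Gr.cost (ν : Measure Z) (Φ : Gr G Z) : ENNReal := ∑' g, ν (Φ g)

variable [Group G] [MulAction G Z]

/-- A relation contained in the orbit relation of `G`, with measurable sections. -/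
structure MRel (G : Type*) {Z : Type*} [MeasurableSpace Z] [Group G] [MulAction G Z]
    (ρ : Z → Z → Prop) : Prop where
  orb : ∀ p q, ρ p q → ∃ g : G, q = g • p
  meas : ∀ g : G, MeasurableSet {p | ρ p (g • p)}

/-- Everywhere free, measure-preserving action. -/
structure FreeAct (G Z : Type*) [Group G] [MulAction G Z] [MeasurableSpace Z] (ν : Measure Z) :
    Prop where
  free : ∀ (g : G) (p : Z), g • p = p → g = 1
  mp : ∀ g : G, MeasurePreserving (fun p : Z => g • p) ν ν

end Meas

end Crest.Agent.R191
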