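import Mathlib
import Crest.Agent.R191.Defs

/-! Row 191, T3: count lemma for graphings (and the two measure-theoretic tools
`exists_selector`, `measure_le_of_inj`). -/

set_option autoImplicit false

namespace Crest.Agent.R191

open MeasureTheory Set
open scoped ENNReal

/-- measurable selection of an index. -/
lemma exists_selector {ι Z : Type*} [Countable ι] [Nonempty ι] [MeasurableSpace Z]
    (Q : ι → Set Z) (hQ : ∀ i, MeasurableSet (Q i)) :
    ∃ s : Z → ι, (∀ i, MeasurableSet {p | s p = i}) ∧ ∀ p, (∃ i, p ∈ Q i) → p ∈ Q (s p) := by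
  classical
  obtain ⟨code, hcode⟩ := Countable.exists_injective_nat ι
  have hex : ∀ p, (∃ i, p ∈ Q i) → ∃ n, ∃ i, code i = n ∧ p ∈ Q i := by
    rintro p ⟨i, hi⟩
    exact ⟨code i, i, rfl, hi⟩
  let d : ι := Classical.arbitrary ι
  let s : Z → ι := fun p =>
    if h : ∃ i, p ∈ Q i then Classical.choose (Nat.find_spec (hex p h)) else d
  have hs : ∀ p (h : ∃ i, p ∈ Q i), code (s p) = Nat.find (hex p h) ∧ p ∈ Q (s p) := by
    intro p h
    have := Classical.choose_spec (Nat.find_spec (hex p h))
    simp only [s, h, dif_pos]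
    exact this
  refine ⟨s, ?_, fun p h => (hs p h).2⟩
  intro i
  have hset : {p | s p = i} = (Q i ∩ ⋂ (j : ι) (_ : code j < code i), (Q j)ᶜ) ∪
      (if i = d then ⋂ j, (Q j)ᶜ else ∅) := by
    ext p
    simp only [Set.mem_ofPred_eq, Set.mem_union, Set.mem_inter_iff, Set.mem_iInter,
      Set.mem_compl_iff]
    constructor
    · intro hp
      by_cases h : ∃ i, p ∈ Q i
      · left
        have h2 := hs p h
        rw [hp] at h2
        refine ⟨h2.2, ?_⟩
        intro j hj hpj
        rw [h2.1] at hj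
        exact Nat.find_min (hex p h) hj ⟨j, rfl, hpj⟩
      · right
        have : s p = d := by simp only [s, h, dif_neg, not_false_eq_true]
        rw [this] at hp
        subst hp
        simp only [if_true, Set.mem_iInter, Set.mem_compl_iff]
        intro j hj
        exact h ⟨j, hj⟩
    · rintro (⟨h1, h2⟩ | h)
      · have h : ∃ i, p ∈ Q i := ⟨i, h1⟩
        have h3 := hs p h
        apply hcode
        rw [h3.1]
        apply le_antisymm
        · exact Nat.find_min' (hex p h) ⟨i, rfl, h1⟩
        · by_contra hlt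
          push Not at hlt
          rw [← h3.1] at hlt
          exact h2 _ hlt h3.2
      · split_ifs at h with hi
        · subst hi
          simp only [Set.mem_iInter, Set.mem_compl_iff] at h
          have : ¬ ∃ i, p ∈ Q i := by
            rintro ⟨j, hj⟩
            exact h j hj
          simp only [s, this, dif_neg, not_false_eq_true]
        · exact absurd h (Set.notMem_empty _)
  rw [hset]
  apply MeasurableSet.union
  · apply (hQ i).inter
    apply MeasurableSet.iInter
    intro j
    apply MeasurableSet.iInter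
    intro _
    exact (hQ j).compl
  · split_ifs
    · exact MeasurableSet.iInter fun j => (hQ j).compl
    · exact MeasurableSet.empty

section

variable {G Z : Type*} [Group G] [MulAction G Z] [MeasurableSpace Z] {ν : Measure Z}

/-- A measurable injection `p ↦ (gi p, hf p • p)` of `T` into the disjoint union of the `J i`
gives `ν T ≤ ∑ ν (J i)`. -/
lemma measure_le_of_inj {ι : Type*} [Countable ι] [Countable G]
    (hinv : ∀ g : G, MeasurePreserving (fun x : Z => g • x) ν ν)
    {T : Set Z} (hT : MeasurableSet T) (gi : Z → ι) (hf : Z → G)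
    (mg : ∀ i, MeasurableSet {p | gi p = i}) (mh : ∀ h, MeasurableSet {p | hf p = h})
    (J : ι → Set Z)
    (hin : ∀ p ∈ T, hf p • p ∈ J (gi p))
    (hinj : ∀ p ∈ T, ∀ q ∈ T, gi p = gi q → hf p • p = hf q • q → p = q) :
    ν T ≤ ∑' i, ν (J i) := by
  classical
  let Tih : ι → G → Set Z := fun i h => {p | p ∈ T ∧ gi p = i ∧ hf p = h}
  have mT : ∀ i h, MeasurableSet (Tih i h) := by
    intro i h
    exact hT.inter ((mg i).inter (mh h))
  have h1 : ν T ≤ ∑' i, ∑' h, ν (Tih i h) := by
    calc ν T ≤ ν (⋃ i, ⋃ h, Tih i h) := by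
          apply measure_mono
          intro p hp
          simp only [Set.mem_iUnion]
          exact ⟨gi p, hf p, hp, rfl, rfl⟩
      _ ≤ ∑' i, ν (⋃ h, Tih i h) := measure_iUnion_le _
      _ ≤ ∑' i, ∑' h, ν (Tih i h) := ENNReal.tsum_le_tsum fun i => measure_iUnion_le _
  refine h1.trans (ENNReal.tsum_le_tsum fun i => ?_)
  let U : G → Set Z := fun h => (fun x : Z => h⁻¹ • x) ⁻¹' (Tih i h)
  have hU : ∀ h, ν (Tih i h) = ν (U h) := by
    intro h
    exact ((hinv h⁻¹).measure_preimage (mT i h).nullMeasurableSet).symm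
  have mU : ∀ h, MeasurableSet (U h) := fun h => (hinv h⁻¹).measurable (mT i h)
  have hdisj : Pairwise (Function.onFun Disjoint U) := by
    intro h h' hne
    rw [Function.onFun, Set.disjoint_left]
    intro u hu hu'
    simp only [U, Tih, Set.mem_preimage, Set.mem_ofPred_eq] at hu hu'
    obtain ⟨a1, a2, a3⟩ := hu
    obtain ⟨b1, b2, b3⟩ := hu'
    have := hinj _ a1 _ b1 (a2.trans b2.symm) (by rw [a3, b3]; simp)
    rw [this] at a3
    exact hne (a3.symm.trans b3)
  calc ∑' h, ν (Tih i h) = ∑' h, ν (U h) := by simp_rw [hU]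
    _ = ν (⋃ h, U h) := (measure_iUnion hdisj mU).symm
    _ ≤ ν (J i) := by
        apply measure_mono
        intro u hu
        simp only [Set.mem_iUnion] at hu
        obtain ⟨h, hu⟩ := hu
        simp only [U, Tih, Set.mem_preimage, Set.mem_ofPred_eq] at hu
        obtain ⟨a1, a2, a3⟩ := hu
        have := hin _ a1
        rw [a2, a3] at this
        simpa using this

/-- points at which the edge with code `i = (g, s)` starts: `s = true` is the edge
`p → g • p` (`p ∈ Φ g`), `s = false` is the inverse edge `p → g⁻¹ • p` (`g⁻¹ • p ∈ Φ g`). -/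
def EdgeAt (Φ : G → Set Z) (i : G × Bool) : Set Z :=
  if i.2 then Φ i.1 else {p | i.1⁻¹ • p ∈ Φ i.1}

/-- group element moving `p` along the edge `i` -/
def edgeMv (i : G × Bool) : G := if i.2 then i.1 else i.1⁻¹

lemma measurable_EdgeAt (hF : FreeAct G Z ν) {Φ : Gr G Z} (hΦ : Φ.Meas) (i : G × Bool) :
    MeasurableSet (EdgeAt Φ i) := by
  unfold EdgeAt
  split_ifs
  · exact hΦ _
  · exact (hF.mp i.1⁻¹).measurable (hΦ i.1)

/-- the neighbourhoods of `Rt` in the graph of `S`-classes with edges `J` -/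
def Bn (S : Z → Z → Prop) (J : Gr G Z) (Rt : Set Z) : ℕ → Set Z
  | 0 => {p | ∃ q ∈ Rt, S p q}
  | n + 1 => Bn S J Rt n ∪ {p | ∃ (h : G) (i : G × Bool), S p (h • p) ∧
      h • p ∈ EdgeAt J i ∧ edgeMv i • (h • p) ∈ Bn S J Rt n}

omit [MeasurableSpace Z] in
lemma Bn_mono (S : Z → Z → Prop) (J : Gr G Z) (Rt : Set Z) : Monotone (Bn S J Rt) :=
  monotone_nat_of_le_succ fun n => by
    intro p hp
    exact Or.inl hp

lemma Bn_sat {S : Z → Z → Prop} (hS : MRel G S) (hSe : Equivalence S) (J : Gr G Z)
    (Rt : Set Z) (n : ℕ) : ∀ p p', S p p' → p' ∈ Bn S J Rt n → p ∈ Bn S J Rt n := by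
  induction n with
  | zero =>
    rintro p p' hpp' ⟨q, hq, hq'⟩
    exact ⟨q, hq, hSe.trans hpp' hq'⟩
  | succ n ih =>
    intro p p' hpp' hp'
    rcases hp' with hp' | ⟨h, i, h1, h2, h3⟩
    · exact Or.inl (ih p p' hpp' hp')
    · right
      obtain ⟨k, hk⟩ := hS.orb p p' hpp'
      have e1 : (h * k) • p = h • p' := by rw [mul_smul, ← hk]
      refine ⟨h * k, i, ?_, ?_, ?_⟩
      · rw [e1]; exact hSe.trans hpp' h1
      · rw [e1]; exact h2
      · rw [e1]; exact h3

lemma measurable_Bn [Countable G] (hF : FreeAct G Z ν) {S : Z → Z → Prop} (hS : MRel G S)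
    {J : Gr G Z} (hJ : J.Meas) {Rt : Set Z} (hRt : MeasurableSet Rt) (n : ℕ) :
    MeasurableSet (Bn S J Rt n) := by
  induction n with
  | zero =>
    have : Bn S J Rt 0 = ⋃ g : G, ({p | S p (g • p)} ∩ (fun p : Z => g • p) ⁻¹' Rt) := by
      ext p
      simp only [Bn, Set.mem_iUnion, Set.mem_inter_iff, Set.mem_ofPred_eq, Set.mem_preimage]
      constructor
      · rintro ⟨q, hq, hq'⟩
        obtain ⟨g, rfl⟩ := hS.orb p q hq'
        exact ⟨g, hq', hq⟩
      · rintro ⟨g, h1, h2⟩
        exact ⟨g • p, h2, h1⟩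
    rw [this]
    exact MeasurableSet.iUnion fun g => (hS.meas g).inter ((hF.mp g).measurable hRt)
  | succ n ih =>
    have : Bn S J Rt (n + 1) = Bn S J Rt n ∪ ⋃ h : G, ⋃ i : G × Bool,
        ({p | S p (h • p)} ∩ ((fun p : Z => h • p) ⁻¹' (EdgeAt J i) ∩
          (fun p : Z => h • p) ⁻¹' ((fun p : Z => edgeMv i • p) ⁻¹' (Bn S J Rt n)))) := by
      ext p
      simp only [Bn, Set.mem_union, Set.mem_iUnion, Set.mem_inter_iff, Set.mem_ofPred_eq,
        Set.mem_preimage]
    rw [this]
    refine ih.union (MeasurableSet.iUnion fun h => MeasurableSet.iUnion fun i => ?_)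
    exact (hS.meas h).inter (((hF.mp h).measurable (measurable_EdgeAt hF hJ i)).inter
      ((hF.mp h).measurable ((hF.mp (edgeMv i)).measurable ih)))

lemma mem_Bn_of_gen {S : Z → Z → Prop} (hS : MRel G S) (hSe : Equivalence S) (J : Gr G Z)
    (Rt : Set Z) {p q : Z} (h : Gen S J p q) :
    (∃ n, p ∈ Bn S J Rt n) ↔ (∃ n, q ∈ Bn S J Rt n) := by
  induction h with
  | rel p q h =>
    rcases h with h | ⟨g, hg, rfl⟩
    · constructor
      · rintro ⟨n, hn⟩
        exact ⟨n, Bn_sat hS hSe J Rt n q p (hSe.symm h) hn⟩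
      · rintro ⟨n, hn⟩
        exact ⟨n, Bn_sat hS hSe J Rt n p q h hn⟩
    · constructor
      · rintro ⟨n, hn⟩
        refine ⟨n + 1, Or.inr ⟨1, (g, false), ?_, ?_, ?_⟩⟩
        · rw [one_smul]; exact hSe.refl _
        · simpa [EdgeAt] using hg
        · simpa [edgeMv] using hn
      · rintro ⟨n, hn⟩
        refine ⟨n + 1, Or.inr ⟨1, (g, true), ?_, ?_, ?_⟩⟩
        · rw [one_smul]; exact hSe.refl _
        · simpa [EdgeAt] using hg
        · simpa [edgeMv] using hn
  | refl p => exact Iff.rfl
  | symm p q _ ih => exact ih.symm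
  | trans p q r _ _ ih1 ih2 => exact ih1.trans ih2

/-- **Count lemma** (T3). -/
theorem count_le [Countable G] [IsFiniteMeasure ν] (hF : FreeAct G Z ν) {S : Z → Z → Prop}
    (hS : MRel G S) (hSe : Equivalence S)
    {J : Gr G Z} (hJ : J.Meas) {Rt T : Set Z} (hRt : MeasurableSet Rt) (hT : MeasurableSet T)
    (h1 : ∀ p ∈ T, ∀ q ∈ T, S p q → p = q) (h2 : ∀ p ∈ T, ∀ q ∈ Rt, ¬ S p q)
    (h3 : ∀ p ∈ T, ∃ q ∈ Rt, Gen S J p q) : ν T ≤ J.cost ν := by
  classical
  set B := Bn S J Rt with hB
  have mB : ∀ n, MeasurableSet (B n) := fun n => measurable_Bn hF hS hJ hRt n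
  let Q : G × (G × Bool) → Set Z := fun k => ⋃ n : ℕ,
    ((B n)ᶜ ∩ ({p | S p (k.1 • p)} ∩ ((fun p : Z => k.1 • p) ⁻¹' (EdgeAt J k.2) ∩
          (fun p : Z => k.1 • p) ⁻¹' ((fun p : Z => edgeMv k.2 • p) ⁻¹' (B n)))))
  have mQ : ∀ k, MeasurableSet (Q k) := by
    intro k
    refine MeasurableSet.iUnion fun n => (mB n).compl.inter ?_
    exact (hS.meas k.1).inter (((hF.mp k.1).measurable (measurable_EdgeAt hF hJ k.2)).inter
      ((hF.mp k.1).measurable ((hF.mp (edgeMv k.2)).measurable (mB n))))
  obtain ⟨s, ms, hs⟩ := exists_selector Q mQ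
  have hTQ : ∀ p ∈ T, p ∈ Q (s p) := by
    intro p hp
    apply hs
    obtain ⟨q, hq, hpq⟩ := h3 p hp
    have hex : ∃ n, p ∈ B n := by
      rw [hB, mem_Bn_of_gen hS hSe J Rt hpq]
      exact ⟨0, q, hq, hSe.refl q⟩
    have h0 : p ∉ B 0 := by
      rintro ⟨q', hq', hpq'⟩
      exact h2 p hp q' hq' hpq'
    have hm : Nat.find hex ≠ 0 := by
      intro h
      have := Nat.find_spec hex
      rw [h] at this
      exact h0 this
    obtain ⟨m, hm⟩ := Nat.exists_eq_succ_of_ne_zero hm
    have hmem : p ∈ B (m + 1) := by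
      have := Nat.find_spec hex
      rw [hm] at this
      exact this
    have hnm : p ∉ B m := Nat.find_min hex (by omega)
    rcases hmem with hmem | ⟨h, i, a1, a2, a3⟩
    · exact absurd hmem hnm
    · refine ⟨(h, i), Set.mem_iUnion.mpr ⟨m, hnm, a1, a2, a3⟩⟩
  let gi : Z → G := fun p => (s p).2.1
  let hf : Z → G := fun p => if (s p).2.2 then (s p).1 else (s p).2.1⁻¹ * (s p).1
  have mgen : ∀ (f : G × (G × Bool) → G) (g : G), MeasurableSet {p | f (s p) = g} := by
    intro f g
    have : {p | f (s p) = g} = ⋃ k ∈ {k | f k = g}, {p | s p = k} := by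
      ext p
      simp
    rw [this]
    exact MeasurableSet.biUnion (Set.to_countable _) fun k _ => ms k
  have hmain := measure_le_of_inj (ν := ν) (ι := G) hF.mp hT gi hf (mgen fun k => k.2.1)
    (mgen fun k => if k.2.2 then k.1 else k.2.1⁻¹ * k.1) J ?_ ?_
  · exact hmain
  · intro p hp
    have := hTQ p hp
    simp only [Q, Set.mem_iUnion] at this
    obtain ⟨n, _, a1, a2, a3⟩ := this
    simp only [gi, hf]
    simp only [Set.mem_preimage, EdgeAt] at a2
    split_ifs at a2 ⊢
    · exact a2
    · rw [mul_smul]; exact a2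
  · intro p hp q hq hgi hpt
    have hp' := hTQ p hp
    have hq' := hTQ q hq
    simp only [Q, Set.mem_iUnion] at hp' hq'
    obtain ⟨n, a0, a1, a2, a3⟩ := hp'
    obtain ⟨m, b0, b1, b2, b3⟩ := hq'
    simp only [Set.mem_preimage, Set.mem_compl_iff, Set.mem_ofPred_eq] at a0 a1 a2 a3 b0 b1 b2 b3
    simp only [gi] at hgi
    simp only [hf] at hpt
    have key : ∀ (p q : Z) (h h' g : G) (n m : ℕ), p ∈ T → q ∈ T → p ∉ B n → S p (h • p) →
        g • (h • p) ∈ B n → q ∉ B m → S q (h' • q) → g⁻¹ • (h' • q) ∈ B m →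
        h • p = g⁻¹ • (h' • q) → False := by
      intro p q h h' g n m hp hq a0 a1 a3 b0 b1 b3 heq
      have e1 : h' • q = g • (h • p) := by rw [heq, smul_inv_smul]
      have q1 : q ∈ B n := by
        apply Bn_sat hS hSe J Rt n q (h' • q) b1
        rw [e1]; exact a3
      have p1 : p ∈ B m := by
        apply Bn_sat hS hSe J Rt m p (h • p) a1
        rw [heq]; exact b3
      rcases le_total n m with hnm | hmn
      · exact b0 (Bn_mono S J Rt hnm q1)
      · exact a0 (Bn_mono S J Rt hmn p1)
    rcases hsp : (s p).2.2 with _ | _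
    · rcases hsq : (s q).2.2 with _ | _
      · -- false false
        simp only [hsp, hsq, Bool.false_eq_true, if_false, mul_smul] at hpt
        rw [hgi] at hpt
        have e := smul_left_cancel _ hpt
        apply h1 p hp q hq
        rw [e] at a1
        exact hSe.trans a1 (hSe.symm b1)
      · -- false true
        exfalso
        simp only [hsp, hsq, Bool.false_eq_true, if_false, if_true, mul_smul] at hpt
        have c3 : (s q).2.1 • ((s q).1 • q) ∈ B m := by
          have := b3
          simp only [edgeMv, hsq, if_true] at this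
          exact this
        have d3 : (s q).2.1⁻¹ • ((s p).1 • p) ∈ B n := by
          have := a3
          simp only [edgeMv, hsp, Bool.false_eq_true, if_false] at this
          rw [hgi] at this
          exact this
        rw [hgi] at hpt
        exact key q p (s q).1 (s p).1 (s q).2.1 m n hq hp b0 b1 c3 a0 a1 d3 hpt.symm
    · rcases hsq : (s q).2.2 with _ | _
      · -- true false
        exfalso
        simp only [hsp, hsq, Bool.false_eq_true, if_false, if_true, mul_smul] at hpt
        have c3 : (s q).2.1 • ((s p).1 • p) ∈ B n := by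
          have := a3
          simp only [edgeMv, hsp, if_true] at this
          rw [hgi] at this
          exact this
        have d3 : (s q).2.1⁻¹ • ((s q).1 • q) ∈ B m := by
          have := b3
          simp only [edgeMv, hsq, Bool.false_eq_true, if_false] at this
          exact this
        exact key p q (s p).1 (s q).1 (s q).2.1 n m hp hq a0 a1 c3 b0 b1 d3 hpt
      · -- true true
        simp only [hsp, hsq, if_true] at hpt
        apply h1 p hp q hq
        rw [hpt] at a1
        exact hSe.trans a1 (hSe.symm b1)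

end

end Crest.Agent.R191
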