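import Crest.Agent.R191.IIDefs

/-!
# Row 191, T13: a fold-closed quotient of a connected graph over the forest is injective

The partial injections between the classes over the P-node `y` and over the e-node `gam j • y` are
extended to permutations of a big type `W × ℕ`; this gives an action of the free group on
`X × (W × ℕ)` covering the free action on `X`, and connected nodes lie in one orbit.
-/

set_option autoImplicit false

namespace Crest.Agent.R191

/-- A partial injection of a type `W` extends to a permutation of `W × ℕ`. -/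
theorem exists_perm_extends_nat {W : Type*} (R : W → W → Prop)
    (h1 : ∀ p c c', R p c → R p c' → c = c') (h2 : ∀ p p' c, R p c → R p' c → p = p') :
    ∃ σ : Equiv.Perm (W × ℕ), ∀ p c, R p c → σ (p, 0) = (c, 0) := by
  classical
  let D : Set (W × ℕ) := {u | u.2 = 0 ∧ ∃ c, R u.1 c}
  let I : Set (W × ℕ) := {v | v.2 = 0 ∧ ∃ p, R p v.1}
  let f : D → I := fun u => ⟨(u.2.2.choose, 0), rfl, u.1.1, u.2.2.choose_spec⟩
  have hf : ∀ u : D, R u.1.1 (f u).1.1 := fun u => u.2.2.choose_spec
  have hf0 : ∀ u : D, (f u).1.2 = 0 := fun u => rfl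
  have hbij : Function.Bijective f := by
    constructor
    · intro u v huv
      have h := hf u
      rw [huv] at h
      apply Subtype.ext
      apply Prod.ext
      · exact h2 _ _ _ h (hf v)
      · rw [u.2.1, v.2.1]
    · rintro ⟨v, hv0, p, hp⟩
      refine ⟨⟨(p, 0), rfl, v.1, hp⟩, ?_⟩
      apply Subtype.ext
      apply Prod.ext
      · exact h1 _ _ _ (hf _) hp
      · exact hv0.symm
  let e : D ≃ I := Equiv.ofBijective f hbij
  -- the complements are equivalent
  let shift : W × ℕ → W × ℕ := fun u => (u.1, u.2 + 1)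
  have hshift : Function.Injective shift := by
    intro u v h
    apply Prod.ext
    · have : (shift u).1 = (shift v).1 := by rw [h]
      exact this
    · have : (shift u).2 = (shift v).2 := by rw [h]
      have : u.2 + 1 = v.2 + 1 := this
      omega
  have hex : Nonempty ((Dᶜ : Set (W × ℕ)) ≃ (Iᶜ : Set (W × ℕ))) := by
    have e1 : (Dᶜ : Set (W × ℕ)) ↪ (Iᶜ : Set (W × ℕ)) :=
      ⟨fun u => ⟨shift u.1, fun h => Nat.succ_ne_zero _ h.1⟩, fun u v h =>
        Subtype.ext (hshift (congrArg Subtype.val h))⟩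
    have e2 : (Iᶜ : Set (W × ℕ)) ↪ (Dᶜ : Set (W × ℕ)) :=
      ⟨fun u => ⟨shift u.1, fun h => Nat.succ_ne_zero _ h.1⟩, fun u v h =>
        Subtype.ext (hshift (congrArg Subtype.val h))⟩
    obtain ⟨g, hg⟩ := Function.Embedding.schroeder_bernstein e1.injective e2.injective
    exact ⟨Equiv.ofBijective g hg⟩
  obtain ⟨ec⟩ := hex
  let σ : Equiv.Perm (W × ℕ) :=
    (Equiv.Set.sumCompl D).symm.trans ((Equiv.sumCongr e ec).trans (Equiv.Set.sumCompl I))
  refine ⟨σ, fun p c hpc => ?_⟩
  have hp : ((p, 0) : W × ℕ) ∈ D := ⟨rfl, c, hpc⟩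
  show (Equiv.Set.sumCompl I) ((Equiv.sumCongr e ec) ((Equiv.Set.sumCompl D).symm (p, 0))) = (c, 0)
  rw [Equiv.Set.sumCompl_symm_apply_of_mem hp]
  show ((e ⟨(p, 0), hp⟩ : I) : W × ℕ) = (c, 0)
  apply Prod.ext
  · exact h1 _ _ _ (hf ⟨(p, 0), hp⟩) hpc
  · rfl

/-- An immersed coloured graph over the forest of a free action of `F₂` is injective. -/
theorem forest_merge_nat {X W : Type*} [MulAction F2 X]
    (hfree : ∀ (w : F2) (x : X), w • x = x → w = 1)
    (R : X → Fin 3 → W → W → Prop)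
    (h1 : ∀ y j p c c', R y j p c → R y j p c' → c = c')
    (h2 : ∀ y j p p' c, R y j p c → R y j p' c → p = p') {x : X} {c c' : W}
    (h : Relation.EqvGen (fun u v : (X × W) ⊕ (X × W) =>
      ∃ y j p c, R y j p c ∧ u = .inr (y, p) ∧ v = .inl (gam j • y, c))
        (.inl (x, c)) (.inl (x, c'))) : c = c' := by
  classical
  choose σ hσ using fun (y : X) (j : Fin 3) => exists_perm_extends_nat (R y j) (h1 y j) (h2 y j)
  let φ : Fin 3 → Equiv.Perm (X × (W × ℕ)) := fun j =>
    { toFun := fun u => (gam j • u.1, σ u.1 j u.2)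
      invFun := fun v => ((gam j)⁻¹ • v.1, (σ ((gam j)⁻¹ • v.1) j).symm v.2)
      left_inv := fun u => by simp
      right_inv := fun v => by simp }
  let Φ : F2 →* Equiv.Perm (X × (W × ℕ)) :=
    FreeGroup.lift ![φ 1 * (φ 0)⁻¹, φ 2 * (φ 0)⁻¹]
  have hφ1 : ∀ j u, (φ j u).1 = gam j • u.1 := fun j u => rfl
  have hinv : ∀ v, (φ 0)⁻¹ (φ 0 v) = v := fun v => (φ 0).symm_apply_apply v
  have hΦ : ∀ j, φ j * (φ 0)⁻¹ = Φ (gam j) := by
    intro j
    fin_cases j
    · simp [gam]
    · simp [gam, la, Φ]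
    · simp [gam, lb, Φ]
  have hcov : ∀ w : F2, ∀ u, (Φ w u).1 = w • u.1 := by
    intro w
    induction w using FreeGroup.induction_on with
    | C1 => intro u; simp
    | of i =>
      intro u
      have key : ∀ j, ∀ u, (Φ (gam j) u).1 = gam j • u.1 := by
        intro j u
        rw [← hΦ j]
        obtain ⟨v, rfl⟩ := (φ 0).surjective u
        simp only [Equiv.Perm.mul_apply, hinv, hφ1]
        simp [gam]
      fin_cases i
      · exact key 1 u
      · exact key 2 u
    | inv_of i hi =>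
      intro u
      have h := hi (Φ (FreeGroup.of i)⁻¹ u)
      rw [← Equiv.Perm.mul_apply, ← map_mul, mul_inv_cancel, map_one, Equiv.Perm.one_apply] at h
      rw [h, inv_smul_smul]
    | mul w₁ w₂ h₁ h₂ =>
      intro u
      rw [map_mul, Equiv.Perm.mul_apply, h₁, h₂, mul_smul]
  -- node potential
  let pot : (X × W) ⊕ (X × W) → X × (W × ℕ) :=
    Sum.elim (fun v => (v.1, (v.2, 0))) (fun u => φ 0 (u.1, (u.2, 0)))
  have hstep : ∀ u v, Relation.EqvGen (fun u v : (X × W) ⊕ (X × W) =>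
      ∃ y j p c, R y j p c ∧ u = .inr (y, p) ∧ v = .inl (gam j • y, c)) u v →
      ∃ w : F2, pot v = Φ w (pot u) := by
    intro u v huv
    induction huv with
    | rel u v h =>
      obtain ⟨y, j, p, c, hR, rfl, rfl⟩ := h
      refine ⟨gam j, ?_⟩
      rw [← hΦ j]
      show (gam j • y, (c, 0)) = (φ j * (φ 0)⁻¹) (φ 0 (y, (p, 0)))
      rw [Equiv.Perm.mul_apply, hinv]
      show _ = (gam j • y, σ y j (p, 0))
      rw [hσ y j p c hR]
    | refl u => exact ⟨1, by simp⟩
    | symm u v _ ih =>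
      obtain ⟨w, hw⟩ := ih
      exact ⟨w⁻¹, by rw [hw, ← Equiv.Perm.mul_apply, ← map_mul]; simp⟩
    | trans u v t _ _ ih₁ ih₂ =>
      obtain ⟨w₁, hw₁⟩ := ih₁
      obtain ⟨w₂, hw₂⟩ := ih₂
      exact ⟨w₂ * w₁, by rw [hw₂, hw₁, map_mul, Equiv.Perm.mul_apply]⟩
  obtain ⟨w, hw⟩ := hstep _ _ h
  have hw' : ((x, (c', 0)) : X × (W × ℕ)) = Φ w (x, (c, 0)) := hw
  have hx : w • x = x := by
    have := hcov w (x, (c, 0))
    rw [← hw'] at this
    exact this.symm
  have := hfree w x hx
  subst this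
  have h3 := congrArg (fun u : X × (W × ℕ) => u.2.1) hw'
  simpa using h3.symm

theorem folded {X : Type*} [MulAction F2 X] (hfree : ∀ (g : F2) (x : X), g • x = x → g = 1)
    {Ke Kp : Type} (T : TG X Ke Kp) (re : X → Ie Ke → Ie Ke → Prop) (rp : X → Ip Kp → Ip Kp → Prop)
    (hre : ∀ x, Equivalence (re x)) (hrp : ∀ y, Equivalence (rp y))
    (hcle : ∀ x a a' j q q', (gam j)⁻¹ • x ∈ T.ed j q a → (gam j)⁻¹ • x ∈ T.ed j q' a' →
      rp ((gam j)⁻¹ • x) q q' → re x a a')
    (hclp : ∀ y q q' j a a', y ∈ T.ed j q a → y ∈ T.ed j q' a' →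
      re (gam j • y) a a' → rp y q q')
    (x : X) (a a' : Ie Ke)
    (hconn : Relation.EqvGen T.Adj (Sum.inl (x, a)) (Sum.inl (x, a'))) : re x a a' := by
  classical
  let W : Type := Set (Ie Ke) ⊕ Set (Ip Kp)
  let ke : X → Ie Ke → W := fun x a => Sum.inl {b | re x a b}
  let kp : X → Ip Kp → W := fun y q => Sum.inr {r | rp y q r}
  have hke : ∀ x a a', ke x a = ke x a' → re x a a' := by
    intro x a a' h
    have h' : {b | re x a b} = {b | re x a' b} := Sum.inl_injective h
    have : a' ∈ {b | re x a b} := by rw [h']; exact (hre x).refl a'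
    exact this
  have hke' : ∀ x a a', re x a a' → ke x a = ke x a' := by
    intro x a a' h
    have : {b | re x a b} = {b | re x a' b} := by
      ext b
      exact ⟨fun hb => (hre x).trans ((hre x).symm h) hb, fun hb => (hre x).trans h hb⟩
    show Sum.inl _ = Sum.inl _
    rw [this]
  have hkp : ∀ x a a', kp x a = kp x a' → rp x a a' := by
    intro x a a' h
    have h' : {b | rp x a b} = {b | rp x a' b} := Sum.inr_injective h
    have : a' ∈ {b | rp x a b} := by rw [h']; exact (hrp x).refl a'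
    exact this
  have hkp' : ∀ x a a', rp x a a' → kp x a = kp x a' := by
    intro x a a' h
    have : {b | rp x a b} = {b | rp x a' b} := by
      ext b
      exact ⟨fun hb => (hrp x).trans ((hrp x).symm h) hb, fun hb => (hrp x).trans h hb⟩
    show Sum.inr _ = Sum.inr _
    rw [this]
  let R : X → Fin 3 → W → W → Prop := fun y j P A =>
    ∃ q a, y ∈ T.ed j q a ∧ P = kp y q ∧ A = ke (gam j • y) a
  refine hke x a a' (forest_merge_nat hfree R ?_ ?_ (x := x) ?_)
  · rintro y j P A A' ⟨q, a, h, rfl, rfl⟩ ⟨q', a', h', hq, rfl⟩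
    refine hke' _ _ _ (hcle (gam j • y) a a' j q q' ?_ ?_ ?_)
    · rwa [inv_smul_smul]
    · rwa [inv_smul_smul]
    · rw [inv_smul_smul]; exact hkp _ _ _ hq
  · rintro y j P P' A ⟨q, a, h, rfl, rfl⟩ ⟨q', a', h', rfl, ha⟩
    exact hkp' _ _ _ (hclp y q q' j a a' h h' (hke _ _ _ ha))
  · have key : ∀ m n, Relation.EqvGen T.Adj m n →
      Relation.EqvGen (fun u v : (X × W) ⊕ (X × W) =>
        ∃ y j p c, R y j p c ∧ u = .inr (y, p) ∧ v = .inl (gam j • y, c))
        (Sum.map (fun u : X × Ie Ke => (u.1, ke u.1 u.2)) (fun u : X × Ip Kp => (u.1, kp u.1 u.2)) m)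
        (Sum.map (fun u : X × Ie Ke => (u.1, ke u.1 u.2)) (fun u : X × Ip Kp => (u.1, kp u.1 u.2)) n) := by
      intro m n hmn
      induction hmn with
      | rel m n h =>
        obtain ⟨j, y, q, a, h, rfl, rfl⟩ := h
        exact Relation.EqvGen.rel _ _ ⟨y, j, kp y q, ke (gam j • y) a, ⟨q, a, h, rfl, rfl⟩, rfl, rfl⟩
      | refl m => exact Relation.EqvGen.refl _
      | symm m n _ ih => exact Relation.EqvGen.symm _ _ ih
      | trans m n k _ _ ih₁ ih₂ => exact Relation.EqvGen.trans _ _ _ ih₁ ih₂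
    exact key _ _ hconn

end Crest.Agent.R191
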