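import Mathlib

/-!
# The group of row 191

`Γ = B *_E C` with `B = FreeGroup (Fin 2)` (`a = of 0`, `b = of 1`), `E = ⟨a b, b a⁻¹ b⟩`, and
`C = E × ⟨z⟩`.
-/

set_option autoImplicit false

namespace Crest.Agent.R191

open Monoid

/-! ### Abstract amalgams -/

section Amalgam

variable {Γ : Type*} [Group Γ]

/-- A list of letters, alternately in `B \ C` and `C \ B`. -/
def AltList (B C : Subgroup Γ) (l : List Γ) : Prop :=
  (∀ x ∈ l, (x ∈ B ∧ x ∉ C) ∨ (x ∈ C ∧ x ∉ B)) ∧
  l.IsChain (fun x y => (x ∈ B ∧ y ∈ C) ∨ (x ∈ C ∧ y ∈ B))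

/-- `Γ` behaves like the amalgam of `B` and `C` over `B ⊓ C`: nonempty alternating words are not
in `B ⊓ C`. -/
def IsAmalgam (B C : Subgroup Γ) : Prop :=
  ∀ l : List Γ, AltList B C l → l ≠ [] → ¬ (l.prod ∈ B ∧ l.prod ∈ C)

theorem AltList.symm {B C : Subgroup Γ} {l : List Γ} (h : AltList B C l) : AltList C B l :=
  ⟨fun x hx => (h.1 x hx).symm, h.2.imp fun _ _ h => h.symm⟩

theorem IsAmalgam.symm {B C : Subgroup Γ} (h : IsAmalgam B C) : IsAmalgam C B :=
  fun l hl hne hp => h l hl.symm hne hp.symm

/-- An alternating word of length at least two is not in `B`. -/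
theorem IsAmalgam.prod_notMem {B C : Subgroup Γ} (h : IsAmalgam B C) {l : List Γ}
    (hl : AltList B C l) (hlen : 2 ≤ l.length) : l.prod ∉ B := by
  intro hp
  rcases List.eq_nil_or_concat' l with rfl | ⟨l', x, rfl⟩
  · simp at hlen
  have hl'ne : l' ≠ [] := by
    rintro rfl
    simp at hlen
  have hl' : AltList B C l' :=
    ⟨fun y hy => hl.1 y (by simp [hy]), (List.isChain_append.mp hl.2).1⟩
  have hx := hl.1 x (by simp)
  have hprod : (l' ++ [x]).prod = l'.prod * x := by simp
  rw [hprod] at hp
  rcases hx with ⟨hxB, hxC⟩ | ⟨hxC, hxB⟩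
  · -- last letter in `B`
    set β := l'.prod * x with hβ
    by_cases hc : x * β⁻¹ ∈ C
    · have h1 : l'.prod = (x * β⁻¹)⁻¹ := by rw [hβ]; group
      refine h l' hl' hl'ne ⟨?_, ?_⟩
      · rw [h1]
        exact B.inv_mem (B.mul_mem hxB (B.inv_mem hp))
      · rw [h1]
        exact C.inv_mem hc
    · refine h (l' ++ [x * β⁻¹]) ⟨?_, ?_⟩ (by simp) ?_
      · intro y hy
        rw [List.mem_append, List.mem_singleton] at hy
        rcases hy with hy | rfl
        · exact hl'.1 y hy
        · exact Or.inl ⟨B.mul_mem hxB (B.inv_mem hp), hc⟩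
      · rw [List.isChain_append]
        refine ⟨hl'.2, by simp, ?_⟩
        intro y hy z hz
        have hz' : z = x * β⁻¹ := by simpa using hz.symm
        subst hz'
        have h3 := (List.isChain_append.mp hl.2).2.2 y hy x (by simp)
        rcases h3 with ⟨_, h4⟩ | ⟨h4, _⟩
        · exact absurd h4 hxC
        · exact Or.inr ⟨h4, B.mul_mem hxB (B.inv_mem hp)⟩
      · have : (l' ++ [x * β⁻¹]).prod = 1 := by
          rw [List.prod_append, List.prod_singleton, ← mul_assoc, ← hβ, mul_inv_cancel]
        rw [this]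
        exact ⟨B.one_mem, C.one_mem⟩
  · -- last letter in `C`
    set β := l'.prod * x with hβ
    by_cases hc : β ∈ C
    · exact h _ hl (by simp) ⟨by rw [hprod]; exact hp, by rw [hprod]; exact hc⟩
    · refine h ((l' ++ [x]) ++ [β⁻¹]) ⟨?_, ?_⟩ (by simp) ?_
      · intro y hy
        rw [List.mem_append, List.mem_singleton] at hy
        rcases hy with hy | rfl
        · exact hl.1 y hy
        · exact Or.inl ⟨B.inv_mem hp, fun h => hc (by simpa using C.inv_mem h)⟩
      · rw [List.isChain_append]
        refine ⟨hl.2, by simp, ?_⟩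
        intro y hy z hz
        have hz' : z = β⁻¹ := by simpa using hz.symm
        have hy' : y = x := by simpa using hy.symm
        subst hz' hy'
        exact Or.inr ⟨hxC, B.inv_mem hp⟩
      · have : ((l' ++ [x]) ++ [β⁻¹]).prod = 1 := by
          rw [List.prod_append, hprod, List.prod_singleton, mul_inv_cancel]
        rw [this]
        exact ⟨B.one_mem, C.one_mem⟩

/-- Amalgams and products with a group `H`. -/
theorem IsAmalgam.prod_top {B C : Subgroup Γ} (h : IsAmalgam B C) (H : Type*) [Group H] :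
    IsAmalgam (B.prod (⊤ : Subgroup H)) (C.prod (⊤ : Subgroup H)) := by
  intro l hl hne hp
  refine h (l.map Prod.fst) ⟨?_, ?_⟩ (by simpa using hne) ?_
  · intro x hx
    rw [List.mem_map] at hx
    obtain ⟨y, hy, rfl⟩ := hx
    simpa [Subgroup.mem_prod] using hl.1 y hy
  · rw [List.isChain_map]
    exact hl.2.imp fun x y h => by simpa [Subgroup.mem_prod] using h
  · have : (l.map Prod.fst).prod = l.prod.1 := by
      have := (map_list_prod (MonoidHom.fst Γ H) l).symm
      simpa using this
    rw [this]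
    simpa [Subgroup.mem_prod] using hp

end Amalgam

/-! ### The concrete group -/

/-- `B`, the free group on two generators. -/
abbrev BGrp : Type := FreeGroup (Fin 2)

/-- The subgroup `E = ⟨a b, b a⁻¹ b⟩` of `B`. -/
def ESub : Subgroup BGrp :=
  Subgroup.closure {FreeGroup.of 0 * FreeGroup.of 1,
    FreeGroup.of 1 * (FreeGroup.of 0)⁻¹ * FreeGroup.of 1}

/-- `C = E × ℤ`. -/
abbrev CGrp : Type := ESub × Multiplicative ℤ

/-- The two factors. -/
abbrev Fam : Bool → Type
  | true => BGrp
  | false => CGrp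

instance famGroup : ∀ i, Group (Fam i)
  | true => inferInstanceAs (Group BGrp)
  | false => inferInstanceAs (Group CGrp)

/-- The inclusions of `E` in the two factors. -/
def phi : ∀ i, ESub →* Fam i
  | true => ESub.subtype
  | false => MonoidHom.inl ESub (Multiplicative ℤ)

theorem phi_injective : ∀ i, Function.Injective (phi i)
  | true => ESub.subtype_injective
  | false => fun _ _ h => congrArg Prod.fst h

/-- The group `Γ = B *_E (E × ℤ)`. -/
def Gam : Type := PushoutI phi

instance : Group Gam := inferInstanceAs (Group (PushoutI phi))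

/-- The inclusion of `B`. -/
def iB : BGrp →* Gam := PushoutI.of (φ := phi) true

/-- The inclusion of `C`. -/
def iC : CGrp →* Gam := PushoutI.of (φ := phi) false

theorem iB_injective : Function.Injective iB := PushoutI.of_injective phi_injective true

theorem iC_injective : Function.Injective iC := PushoutI.of_injective phi_injective false

theorem iB_coe (e : ESub) : iB (e : BGrp) = iC (e, 1) :=
  (PushoutI.of_apply_eq_base phi true e).trans (PushoutI.of_apply_eq_base phi false e).symm

/-- `B` as a subgroup of `Γ`. -/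
def Bs : Subgroup Gam := iB.range

/-- `C` as a subgroup of `Γ`. -/
def Cs : Subgroup Gam := iC.range

/-- `E` as a subgroup of `Γ`. -/
def Es : Subgroup Gam := ESub.map iB

theorem base_range : (PushoutI.base phi).range = Es := by
  ext x
  simp only [MonoidHom.mem_range, Es]
  constructor
  · rintro ⟨e, rfl⟩
    exact ⟨e, e.2, PushoutI.of_apply_eq_base phi true e⟩
  · rintro ⟨e, he, rfl⟩
    exact ⟨⟨e, he⟩, (PushoutI.of_apply_eq_base phi true ⟨e, he⟩).symm⟩

theorem Bs_inf_Cs : Bs ⊓ Cs = Es := by
  rw [← base_range]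
  exact PushoutI.inf_of_range_eq_base_range phi_injective (i := true) (j := false) (by decide)

theorem mem_Es_iff {x : Gam} : x ∈ Es ↔ x ∈ Bs ∧ x ∈ Cs := by
  rw [← Bs_inf_Cs, Subgroup.mem_inf]

open Classical in
/-- A choice of letter representing an element of `Bs ∪ Cs`. -/
noncomputable def letter (x : Gam) : Sigma Fam :=
  if h : x ∈ Bs then ⟨true, h.choose⟩ else
    if h : x ∈ Cs then ⟨false, h.choose⟩ else ⟨true, 1⟩

theorem letter_of_mem_Bs {x : Gam} (h : x ∈ Bs) :
    (letter x).1 = true ∧ PushoutI.of (φ := phi) (letter x).1 (letter x).2 = x := by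
  rw [letter, dif_pos h]
  exact ⟨rfl, h.choose_spec⟩

theorem letter_of_mem_Cs {x : Gam} (h : x ∈ Cs) (h' : x ∉ Bs) :
    (letter x).1 = false ∧ PushoutI.of (φ := phi) (letter x).1 (letter x).2 = x := by
  rw [letter, dif_neg h', dif_pos h]
  exact ⟨rfl, h.choose_spec⟩

theorem isAmalgam_Gam : IsAmalgam Bs Cs := by
  classical
  intro l hl hne hp
  have hlet : ∀ x ∈ l, PushoutI.of (φ := phi) (letter x).1 (letter x).2 = x := by
    intro x hx
    rcases hl.1 x hx with h | h
    · exact (letter_of_mem_Bs h.1).2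
    · exact (letter_of_mem_Cs h.1 h.2).2
  have hred : ∀ x ∈ l, (letter x).2 ∉ (phi (letter x).1).range := by
    rintro x hx ⟨e, he⟩
    have h1 := hlet x hx
    rw [← he, PushoutI.of_apply_eq_base] at h1
    have h2 : x ∈ Es := by
      rw [← base_range]
      exact ⟨e, h1⟩
    rw [mem_Es_iff] at h2
    rcases hl.1 x hx with h | h
    · exact h.2 h2.2
    · exact h.2 h2.1
  have hne1 : ∀ x ∈ l, (letter x).2 ≠ 1 := fun x hx h =>
    hred x hx (h ▸ one_mem _)
  let w : CoprodI.Word Fam :=
    { toList := l.map letter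
      ne_one := by
        intro y hy
        rw [List.mem_map] at hy
        obtain ⟨x, hx, rfl⟩ := hy
        exact hne1 x hx
      chain_ne := by
        rw [List.isChain_map]
        have h2 := hl.2
        have h1 := hl.1
        clear hp hlet hred hne1 hne hl
        induction l with
        | nil => exact List.isChain_nil
        | cons x l ih =>
          rw [List.isChain_cons] at h2 ⊢
          refine ⟨?_, ih h2.2 fun y hy => h1 y (List.mem_cons_of_mem _ hy)⟩
          intro y hy
          have hyl : y ∈ l := List.mem_of_mem_head? hy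
          have hxy := h2.1 y hy
          have hx := h1 x List.mem_cons_self
          have hy' := h1 y (List.mem_cons_of_mem _ hyl)
          rcases hx with hx | hx <;> rcases hy' with hy' | hy'
          · exact absurd hxy (by
              rintro (⟨_, h⟩ | ⟨h, _⟩)
              · exact hy'.2 h
              · exact hx.2 h)
          · rw [(letter_of_mem_Bs hx.1).1, (letter_of_mem_Cs hy'.1 hy'.2).1]
            decide
          · rw [(letter_of_mem_Bs hy'.1).1, (letter_of_mem_Cs hx.1 hx.2).1]
            decide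
          · exact absurd hxy (by
              rintro (⟨h, _⟩ | ⟨_, h⟩)
              · exact hx.2 h
              · exact hy'.2 h) }
  have hw : PushoutI.Reduced phi w := by
    intro y hy
    have hy' : y ∈ l.map letter := hy
    rw [List.mem_map] at hy'
    obtain ⟨x, hx, rfl⟩ := hy'
    exact hred x hx
  have hprod : PushoutI.ofCoprodI (φ := phi) w.prod = l.prod := by
    rw [CoprodI.Word.prod, map_list_prod, List.map_map]
    change (List.map _ (l.map letter)).prod = _
    rw [List.map_map]
    congr 1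
    conv_rhs => rw [← List.map_id l]
    refine List.map_congr_left fun x hx => ?_
    simp only [Function.comp_apply, PushoutI.ofCoprodI_of, id]
    exact hlet x hx
  have := hw.eq_empty_of_mem_range phi_injective (by
    rw [hprod, base_range]
    exact mem_Es_iff.mpr hp)
  have h3 : l.map letter = [] := congrArg CoprodI.Word.toList this
  exact hne (List.map_eq_nil_iff.mp h3)

/-! ### Generators and homomorphisms -/

/-- The generator `a = s₁`. -/
def ga : Gam := iB (FreeGroup.of 0)

/-- The generator `b`. -/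
def gb : Gam := iB (FreeGroup.of 1)

/-- The central element `z` of `C`. -/
def gz : Gam := iC (1, Multiplicative.ofAdd 1)

theorem ga_mem : ga ∈ Bs := ⟨_, rfl⟩

theorem gb_mem : gb ∈ Bs := ⟨_, rfl⟩

theorem gz_mem : gz ∈ Cs := ⟨_, rfl⟩

theorem Bs_eq : Bs = Subgroup.closure {ga, gb} := by
  have h : (⊤ : Subgroup BGrp) = Subgroup.closure {FreeGroup.of 0, FreeGroup.of 1} := by
    rw [← FreeGroup.closure_range_of]
    congr 1
    ext x
    simp only [Set.mem_range, Set.mem_insert_iff, Set.mem_singleton_iff]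
    constructor
    · rintro ⟨i, rfl⟩
      fin_cases i <;> simp
    · rintro (rfl | rfl)
      exacts [⟨0, rfl⟩, ⟨1, rfl⟩]
  rw [Bs, MonoidHom.range_eq_map, h, MonoidHom.map_closure, Set.image_pair]
  rfl

theorem Es_eq : Es = Subgroup.closure {ga * gb, gb * ga⁻¹ * gb} := by
  rw [Es, ESub, MonoidHom.map_closure, Set.image_pair]
  simp only [map_mul, map_inv]
  rfl

theorem Es_le_Bs : Es ≤ Bs := by rw [← Bs_inf_Cs]; exact inf_le_left

theorem Es_le_Cs : Es ≤ Cs := by rw [← Bs_inf_Cs]; exact inf_le_right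

theorem iC_eq (e : ESub) (n : Multiplicative ℤ) : iC (e, n) = iB e * gz ^ (n.toAdd) := by
  rw [iB_coe, gz, ← map_zpow, ← map_mul]
  congr 1
  rw [Prod.mk.injEq]
  refine ⟨?_, ?_⟩
  · simp
  · rw [Prod.snd_mul, Prod.pow_snd, one_mul]
    simp [← ofAdd_zsmul]

theorem gz_comm {x : Gam} (hx : x ∈ Cs) : gz * x = x * gz := by
  obtain ⟨⟨e, n⟩, rfl⟩ := hx
  rw [gz, ← map_mul, ← map_mul]
  congr 1
  rw [Prod.mk_mul_mk, Prod.mk_mul_mk, one_mul, mul_one, mul_comm]

theorem gz_zpow_mem_Bs {n : ℤ} (h : gz ^ n ∈ Bs) : n = 0 := by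
  have h1 : gz ^ n ∈ Es := mem_Es_iff.mpr ⟨h, Cs.zpow_mem gz_mem n⟩
  obtain ⟨e, he, h2⟩ := h1
  have h3 := iB_coe ⟨e, he⟩
  change iB e = _ at h3
  rw [h2, gz, ← map_zpow] at h3
  have h4 := iC_injective h3
  have h5 := congrArg Prod.snd h4
  rw [Prod.pow_snd] at h5
  have h6 : (Multiplicative.ofAdd (1 : ℤ)) ^ n = 1 := h5
  rw [← ofAdd_zsmul, ofAdd_eq_one] at h6
  simpa using h6

theorem gz_zpow_injective : Function.Injective (fun n : ℤ => gz ^ n) := by
  intro m n h
  have h' : gz ^ m = gz ^ n := h
  have : gz ^ (m - n) ∈ Bs := by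
    rw [zpow_sub, h', mul_inv_cancel]
    exact Bs.one_mem
  have := gz_zpow_mem_Bs this
  omega

theorem Cs_eq : Cs = Es ⊔ Subgroup.zpowers gz := by
  apply le_antisymm
  · rintro _ ⟨⟨e, n⟩, rfl⟩
    rw [iC_eq]
    exact Subgroup.mul_mem_sup ⟨e, e.2, rfl⟩ (Subgroup.zpow_mem_zpowers _ _)
  · exact sup_le Es_le_Cs (by
      rw [Subgroup.zpowers_le]
      exact gz_mem)

theorem Bs_sup_Cs : Bs ⊔ Cs = ⊤ := by
  rw [eq_top_iff]
  intro x _
  induction x using PushoutI.induction_on with
  | of i g =>
    cases i with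
    | true => exact (le_sup_left : Bs ≤ Bs ⊔ Cs) ⟨g, rfl⟩
    | false => exact (le_sup_right : Cs ≤ Bs ⊔ Cs) ⟨g, rfl⟩
  | base h =>
    refine (le_sup_left : Bs ≤ Bs ⊔ Cs) ⟨h, ?_⟩
    exact PushoutI.of_apply_eq_base phi true h
  | mul x y hx hy => exact Subgroup.mul_mem _ (hx trivial) (hy trivial)

theorem closure_eq_top : Subgroup.closure {ga, gb, gz} = (⊤ : Subgroup Gam) := by
  rw [eq_top_iff, ← Bs_sup_Cs, Cs_eq]
  have h1 : Bs ≤ Subgroup.closure {ga, gb, gz} := by
    rw [Bs_eq]
    refine Subgroup.closure_mono ?_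
    rintro x (rfl | rfl) <;> simp
  refine sup_le h1 (sup_le (Es_le_Bs.trans h1) ?_)
  rw [Subgroup.zpowers_le]
  exact Subgroup.subset_closure (by simp)

instance Gam_fg : Group.FG Gam := by
  rw [Group.fg_iff]
  exact ⟨{ga, gb, gz}, closure_eq_top, by simp⟩

instance BGrp_countable : Countable BGrp := by
  unfold BGrp FreeGroup
  infer_instance

instance CGrp_countable : Countable CGrp := by
  have : Countable (Multiplicative ℤ) := inferInstanceAs (Countable ℤ)
  infer_instance

instance Gam_countable : Countable Gam := by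
  have : Countable (FreeGroup (Fin 3)) := by
    unfold FreeGroup
    infer_instance
  let f : FreeGroup (Fin 3) →* Gam := FreeGroup.lift ![ga, gb, gz]
  have hf : Function.Surjective f := by
    rw [← MonoidHom.range_eq_top, FreeGroup.range_lift_eq_closure, ← closure_eq_top]
    congr 1
    ext x
    simp only [Set.mem_range, Set.mem_insert_iff, Set.mem_singleton_iff]
    constructor
    · rintro ⟨i, rfl⟩
      fin_cases i <;> simp
    · rintro (rfl | rfl | rfl)
      exacts [⟨0, rfl⟩, ⟨1, rfl⟩, ⟨2, rfl⟩]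
  exact hf.countable

instance Gam_infinite : Infinite Gam := Infinite.of_injective _ gz_zpow_injective

/-- `B = ⟨E, a⟩`. -/
theorem Bs_le_closure : Bs ≤ Es ⊔ Subgroup.zpowers ga := by
  have h1 : ga ∈ Es ⊔ Subgroup.zpowers ga :=
    (le_sup_right : _ ≤ Es ⊔ Subgroup.zpowers ga) (Subgroup.mem_zpowers ga)
  have h2 : ga * gb ∈ Es ⊔ Subgroup.zpowers ga := by
    refine (le_sup_left : Es ≤ _) ?_
    rw [Es_eq]
    exact Subgroup.subset_closure (by simp)
  rw [Bs_eq, Subgroup.closure_le]
  rintro x (rfl | rfl)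
  · exact h1
  · have := Subgroup.mul_mem _ (Subgroup.inv_mem _ h1) h2
    simpa using this

/-- The level homomorphism on `B`: `a ↦ 1`, `b ↦ 2`. -/
def levelB (M : ℕ) : BGrp →* Multiplicative (ZMod M) :=
  FreeGroup.lift ![Multiplicative.ofAdd 1, Multiplicative.ofAdd 2]

/-- The level homomorphism on the factors. -/
def levelFam (M : ℕ) (k : ZMod M) : ∀ i, Fam i →* Multiplicative (ZMod M)
  | true => levelB M
  | false => (((levelB M).comp ESub.subtype).comp (MonoidHom.fst _ _)) *
          ((zpowersHom _ (Multiplicative.ofAdd k)).comp (MonoidHom.snd ESub (Multiplicative ℤ)))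

theorem levelFam_comp (M : ℕ) (k : ZMod M) (i : Bool) :
    (levelFam M k i).comp (phi i) = (levelB M).comp ESub.subtype := by
  cases i with
  | true => rfl
  | false =>
    ext e
    simp [phi, levelFam]

/-- The level homomorphism: `a ↦ 1`, `b ↦ 2`, `z ↦ k`. -/
def level (M : ℕ) (k : ZMod M) : Gam →* Multiplicative (ZMod M) :=
  PushoutI.lift (levelFam M k) ((levelB M).comp ESub.subtype) (levelFam_comp M k)

theorem level_iB (M : ℕ) (k : ZMod M) (x : BGrp) : level M k (iB x) = levelB M x :=
  PushoutI.lift_of (φ := phi) (levelFam M k) ((levelB M).comp ESub.subtype) (levelFam_comp M k)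
    (i := true) x

theorem level_iC (M : ℕ) (k : ZMod M) (x : CGrp) : level M k (iC x) = levelFam M k false x :=
  PushoutI.lift_of (φ := phi) (levelFam M k) ((levelB M).comp ESub.subtype) (levelFam_comp M k)
    (i := false) x

theorem level_ga (M : ℕ) (k : ZMod M) : level M k ga = Multiplicative.ofAdd 1 := by
  rw [ga, level_iB]
  simp [levelB]

theorem level_gb (M : ℕ) (k : ZMod M) : level M k gb = Multiplicative.ofAdd 2 := by
  rw [gb, level_iB]
  simp [levelB]

theorem level_gz (M : ℕ) (k : ZMod M) : level M k gz = Multiplicative.ofAdd k := by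
  rw [gz, level_iC]
  simp [levelFam]

/-! ### `B` acts freely on the nonempty finite subsets of `Γ` -/

/-- A nontrivial element of infinite order does not fix a nonempty finite subset of a group. -/
theorem finset_smul_ne {Γ : Type*} [Group Γ] [DecidableEq Γ] {g : Γ} (hg : ∀ n : ℕ, 0 < n → g ^ n ≠ 1)
    {F : Finset Γ} (hF : F.Nonempty) : F.image (fun x => g * x) ≠ F := by
  intro h
  obtain ⟨x, hx⟩ := hF
  have h1 : ∀ n : ℕ, g ^ n * x ∈ F := by
    intro n
    induction n with
    | zero => simpa using hx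
    | succ n ih =>
      rw [← h, Finset.mem_image]
      exact ⟨_, ih, by rw [pow_succ', mul_assoc]⟩
  have h2 : ¬ Function.Injective (fun n : ℕ => (⟨g ^ n * x, h1 n⟩ : F)) := by
    intro hinj
    exact not_injective_infinite_finite _ hinj
  apply h2
  intro m n hmn
  have h3 : g ^ m * x = g ^ n * x := congrArg Subtype.val hmn
  have h4 : g ^ m = g ^ n := mul_right_cancel h3
  rcases lt_trichotomy m n with hlt | heq | hlt
  · exfalso
    refine hg (n - m) (by omega) ?_
    have : g ^ m * g ^ (n - m) = g ^ m * 1 := by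
      rw [← pow_add, mul_one, h4]
      congr 1
      omega
    exact mul_left_cancel this
  · exact heq
  · exfalso
    refine hg (m - n) (by omega) ?_
    have : g ^ n * g ^ (m - n) = g ^ n * 1 := by
      rw [← pow_add, mul_one, ← h4]
      congr 1
      omega
    exact mul_left_cancel this

theorem iB_pow_ne_one {x : BGrp} (hx : x ≠ 1) (n : ℕ) (hn : 0 < n) : (iB x) ^ n ≠ 1 := by
  intro h
  rw [← map_pow] at h
  have h1 : x ^ n = 1 := iB_injective (by rw [h, map_one])
  have h2 : x ^ n = 1 ^ n := by rw [h1, one_pow]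
  exact hx (pow_left_injective hn.ne' h2)

theorem iB_finset_smul_ne [DecidableEq Gam] {x : BGrp} (hx : x ≠ 1) {F : Finset Gam}
    (hF : F.Nonempty) : F.image (fun y => iB x * y) ≠ F :=
  finset_smul_ne (iB_pow_ne_one hx) hF

end Crest.Agent.R191
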