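import Crest.Agent.R191.Defs
import Crest.Agent.R191.IIDefs
import Crest.Agent.R191.Group

/-!
# Row 191, T16: the group
-/

set_option autoImplicit false

namespace Crest.Agent.R191

theorem altList_of_alt {G : Type*} [Group G] (B C : Subgroup G) :
    ∀ (l : List G) (s : Bool), Alt B C s l → AltList B C l ∧
      ∀ x ∈ l.head?, (if s then x ∈ B ∧ x ∉ C else x ∈ C ∧ x ∉ B) := by
  intro l
  induction l with
  | nil => intro s _; exact ⟨⟨by simp, by simp⟩, by simp⟩
  | cons g l ih =>
    intro s h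
    cases s with
    | true =>
      obtain ⟨h1, h2⟩ := h
      obtain ⟨h3, h4⟩ := ih false h2
      refine ⟨⟨?_, ?_⟩, ?_⟩
      · intro x hx
        rcases List.mem_cons.mp hx with rfl | hx
        · exact Or.inl h1
        · exact h3.1 x hx
      · rw [List.isChain_cons]
        refine ⟨fun y hy => Or.inl ⟨h1.1, ?_⟩, h3.2⟩
        simpa using (h4 y hy).1
      · simpa using h1
    | false =>
      obtain ⟨h1, h2⟩ := h
      obtain ⟨h3, h4⟩ := ih true h2
      refine ⟨⟨?_, ?_⟩, ?_⟩
      · intro x hx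
        rcases List.mem_cons.mp hx with rfl | hx
        · exact Or.inr h1
        · exact h3.1 x hx
      · rw [List.isChain_cons]
        refine ⟨fun y hy => Or.inr ⟨h1.1, ?_⟩, h3.2⟩
        simpa using (h4 y hy).1
      · simpa using h1

theorem IsAmalgam.amalgProp {G : Type*} [Group G] {B C : Subgroup G} (h : IsAmalgam B C) :
    AmalgProp B C :=
  fun s l hl hlen => h.prod_notMem (altList_of_alt B C l s hl).1 hlen

theorem EF_eq : EF = ESub := rfl

theorem Cs_eq_closure : Subgroup.closure (insert gz (iB '' EF)) = Cs := by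
  rw [Cs_eq, Set.insert_eq, Subgroup.closure_union, sup_comm]
  congr 1
  · rw [← MonoidHom.map_closure, Subgroup.closure_eq]
    rfl
  · rw [Subgroup.zpowers_eq_closure]

theorem exists_group : ∃ (Γ : Type) (_ : Group Γ) (ι : F2 →* Γ) (z : Γ),
    Function.Injective ι ∧ Function.Injective (fun n : ℤ => z ^ n) ∧
    (∀ e ∈ EF, z * ι e = ι e * z) ∧
    Subgroup.closure (insert z (Set.range ι)) = ⊤ ∧
    AmalgProp ι.range (Subgroup.closure (insert z (ι '' EF))) ∧
    (∀ g ∈ ι.range, g ∈ Subgroup.closure (insert z (ι '' EF)) → g ∈ EF.map ι) ∧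
    ∃ φ : Γ →* Multiplicative ℤ, φ (ι la) = Multiplicative.ofAdd 1 ∧
      φ (ι lb) = Multiplicative.ofAdd 2 ∧ φ z = Multiplicative.ofAdd 1 := by
  refine ⟨Gam, inferInstance, iB, gz, iB_injective, gz_zpow_injective, ?_, ?_, ?_, ?_, ?_⟩
  · intro e he
    exact gz_comm (Es_le_Cs ⟨e, he, rfl⟩)
  · rw [eq_top_iff, ← closure_eq_top]
    refine Subgroup.closure_mono ?_
    rintro x (rfl | rfl | rfl)
    · exact Or.inr ⟨_, rfl⟩
    · exact Or.inr ⟨_, rfl⟩
    · exact Or.inl rfl
  · rw [Cs_eq_closure]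
    exact isAmalgam_Gam.amalgProp
  · intro g hg hg'
    rw [Cs_eq_closure] at hg'
    exact mem_Es_iff.mpr ⟨hg, hg'⟩
  · exact ⟨level 0 1, level_ga 0 1, level_gb 0 1, level_gz 0 1⟩

end Crest.Agent.R191
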