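import Crest.Agent.R191.Defs
import Crest.Agent.R191.IIDefs
import Crest.Prelude.Def_Cost

/-!
# Row 191: FROZEN INTERFACE (statements with sorry; NEVER import this file in a proof)

Each task proves one statement, under the same name but without the `Iface` namespace, in its own module.
-/

set_option autoImplicit false

namespace Crest.Agent.R191.Iface

open MeasureTheory Crest.Dynamics

/-! ## T1 `Rel.lean` : measurability of generated relations -/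
section Rel
variable {G Z : Type*} [Group G] [Countable G] [MulAction G Z] [MeasurableSpace Z]
  {ν : Measure Z}

theorem MRel.or {r s : Z → Z → Prop} (hr : MRel G r) (hs : MRel G s) :
    MRel G (fun p q => r p q ∨ s p q) := sorry
theorem MRel.and {r s : Z → Z → Prop} (hr : MRel G r) (hs : MRel G s) :
    MRel G (fun p q => r p q ∧ s p q) := sorry
theorem MRel.eqvGen (hF : FreeAct G Z ν) {r : Z → Z → Prop} (hr : MRel G r) :
    MRel G (Relation.EqvGen r) := sorry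
theorem MRel.step (hF : FreeAct G Z ν) {Φ : Gr G Z} (hΦ : Φ.Meas) : MRel G Φ.Step := sorry
theorem MRel.gen (hF : FreeAct G Z ν) {S : Z → Z → Prop} (hS : MRel G S) {Φ : Gr G Z}
    (hΦ : Φ.Meas) : MRel G (Gen S Φ) := sorry
theorem MRel.OR (hF : FreeAct G Z ν) (H : Subgroup G) : MRel G (R191.OR (Z := Z) H) := sorry
theorem MRel.ORon (hF : FreeAct G Z ν) (H : Subgroup G) {A : Set Z} (hA : MeasurableSet A) :
    MRel G (R191.ORon H A) := sorry
theorem MRel.measurable_meets (hF : FreeAct G Z ν) {r : Z → Z → Prop} (hr : MRel G r)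
    {A : Set Z} (hA : MeasurableSet A) : MeasurableSet {p | ∃ q ∈ A, r p q} := sorry
theorem MRel.measurable_finite (hF : FreeAct G Z ν) {r : Z → Z → Prop} (hr : MRel G r) :
    MeasurableSet {p | {g : G | r p (g • p)}.Finite} := sorry

end Rel

/-! ## T2 `Marker.lean` -/
section Marker
variable {G Z : Type*} [Group G] [Countable G] [MulAction G Z] [MeasurableSpace Z]
  [StandardBorelSpace Z] {ν : Measure Z} [IsFiniteMeasure ν]

theorem marker (hF : FreeAct G Z ν) {ρ : Z → Z → Prop} (hρ : MRel G ρ) (he : Equivalence ρ)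
    {D : Set Z} (hD : MeasurableSet D) (hinv : ∀ p q, ρ p q → p ∈ D → q ∈ D)
    (hinf : ∀ p ∈ D, {g : G | ρ p (g • p)}.Infinite) {η : ENNReal} (hη : η ≠ 0) :
    ∃ B ⊆ D, MeasurableSet B ∧ ν B ≤ η ∧ ∀ p ∈ D, ∃ q ∈ B, ρ p q := sorry

end Marker

/-! ## T3 `CountLemma.lean`, T4 `Contract.lean` -/
section Count
variable {G Z : Type*} [Group G] [Countable G] [MulAction G Z] [MeasurableSpace Z]
  {ν : Measure Z} [IsFiniteMeasure ν]

theorem count_le (hF : FreeAct G Z ν) {S : Z → Z → Prop} (hS : MRel G S) (hSe : Equivalence S)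
    {J : Gr G Z} (hJ : J.Meas) {Rt T : Set Z} (hRt : MeasurableSet Rt) (hT : MeasurableSet T)
    (h1 : ∀ p ∈ T, ∀ q ∈ T, S p q → p = q) (h2 : ∀ p ∈ T, ∀ q ∈ Rt, ¬ S p q)
    (h3 : ∀ p ∈ T, ∃ q ∈ Rt, Gen S J p q) : ν T ≤ J.cost ν := sorry

theorem contract (hF : FreeAct G Z ν) {S : Z → Z → Prop} {A : Set Z} (hA : MeasurableSet A)
    (hS : ∀ p q, S p q → p ∈ A ∧ q ∈ A) {Φ : Gr G Z} (hΦ : Φ.Meas)
    (hconn : ∀ p, ∃ q ∈ A, Gen S Φ p q) :
    ∃ Ψ : Gr G Z, Ψ.Meas ∧ (∀ g, Ψ g ⊆ A) ∧ (∀ g, ∀ p ∈ Ψ g, g • p ∈ A) ∧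
      (∀ p q, Ψ.Step p q → Gen S Φ p q) ∧
      (∀ p ∈ A, ∀ q ∈ A, Gen S Φ p q → Gen S Ψ p q) ∧
      Ψ.cost ν + ν Aᶜ ≤ Φ.cost ν := sorry

end Count

/-! ## T5 `Round.lean` : one round of Theorem I -/
section Round
variable {G Z : Type*} [Group G] [Countable G] [MulAction G Z] [MeasurableSpace Z]
  [StandardBorelSpace Z] {ν : Measure Z} [IsFiniteMeasure ν]

theorem oneRound (hF : FreeAct G Z ν) (B C : Subgroup G) {A : Set Z} (hA : MeasurableSet A)
    {r : Z → G} (hr : ∀ g, MeasurableSet {p | r p = g}) (hrE : ∀ p, r p ∈ B ⊓ C)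
    (hrA : ∀ p, r p • p ∈ A)
    {b w : Z → Z → Prop} (hb : MRel G b) (hbe : Equivalence b) (hbB : ∀ p q, b p q → OR B p q)
    (hbA : ∀ p q, ORon (B ⊓ C) A p q → b p q)
    (hw : MRel G w) (hwe : Equivalence w) (hwC : ∀ p q, w p q → OR C p q)
    (hwA : ∀ p q, ORon C A p q → w p q)
    {J : Gr G Z} (hJ : J.Meas)
    (hJw : ∀ p q, w p q ↔ Gen (fun p q => ORon C A p q ∨ (b p q ∧ w p q)) J p q)
    {η : ENNReal} (hη : η ≠ 0) :
    ∃ (w' : Z → Z → Prop) (M J' : Gr G Z), MRel G w' ∧ Equivalence w' ∧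
      (∀ p q, w' p q → OR C p q) ∧ (∀ p q, w p q → w' p q) ∧
      (∀ p q, b p q → OR C p q → w' p q) ∧
      M.Meas ∧ M.SuppIn (B ⊓ C) ∧ J'.Meas ∧
      (∀ p q, OR B p q → w' p q → Gen b M p q) ∧
      (∀ p q, w' p q ↔ Gen (fun p q => ORon C A p q ∨ (Gen b M p q ∧ w' p q)) J' p q) ∧
      M.cost ν + J'.cost ν ≤ J.cost ν + η := sorry

end Round

/-! ## T6 `AmalgLemma.lean` : purely combinatorial -/
section Amalg
variable {G Z : Type*} [Group G] [MulAction G Z]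

theorem amalgam_closed (hfree : ∀ (g : G) (p : Z), g • p = p → g = 1) {B C : Subgroup G}
    (hAP : AmalgProp B C) {b w : Z → Z → Prop} (hbe : Equivalence b) (hwe : Equivalence w)
    (hbB : ∀ p q, b p q → OR B p q) (hwC : ∀ p q, w p q → OR C p q)
    (hbw : ∀ p q, b p q → OR C p q → w p q) (hwb : ∀ p q, w p q → OR B p q → b p q)
    (hgen : ∀ p q, (∃ g : G, q = g • p) → Relation.EqvGen (fun p q => b p q ∨ w p q) p q) :
    ∀ p q, OR B p q → b p q := sorry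

end Amalg

/-! ## T7 `PartI.lean` : iteration and limit of the rounds -/
section PartI
variable {G Z : Type*} [Group G] [Countable G] [MulAction G Z] [MeasurableSpace Z]
  [StandardBorelSpace Z] {ν : Measure Z} [IsFiniteMeasure ν]

theorem partI (hF : FreeAct G Z ν) {B C : Subgroup G} (hAP : AmalgProp B C)
    {A : Set Z} (hA : MeasurableSet A)
    {r : Z → G} (hr : ∀ g, MeasurableSet {p | r p = g}) (hrE : ∀ p, r p ∈ B ⊓ C)
    (hrA : ∀ p, r p • p ∈ A)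
    {ΦB ΦC : Gr G Z} (hB : ΦB.Meas) (hC : ΦC.Meas) (hBs : ΦB.SuppIn B) (hCs : ΦC.SuppIn C)
    (hgen : ∀ (p : Z) (g : G), Gen (ORon C A) (fun g => ΦB g ∪ ΦC g) p (g • p))
    {η : ENNReal} (hη : η ≠ 0) :
    ∃ Φ' : Gr G Z, Φ'.Meas ∧ Φ'.SuppIn B ∧ (∀ p q, OR B p q → Gen (ORon (B ⊓ C) A) Φ' p q) ∧
      Φ'.cost ν ≤ ΦB.cost ν + ΦC.cost ν + η := sorry

end PartI

/-! ## T8 `Sheets.lean` : Theorem I for chords -/
section Sheets
variable {G X : Type*} [Group G] [Countable G] [MulAction G X] [MeasurableSpace X]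
  [StandardBorelSpace X] {μ : Measure X} [IsFiniteMeasure μ]

theorem relcost_amalgam (hF : FreeAct G X μ) {B C : Subgroup G} (hAP : AmalgProp B C)
    (hBC : B ⊔ C = ⊤) {Ψ : Gr G X} (hΨ : Ψ.Meas) (hfin : Ψ.FinSupp)
    (hgen : ∀ (p : X) (g : G), Gen (OR C) Ψ p (g • p)) {η : ENNReal} (hη : η ≠ 0) :
    ∃ Ψ' : Gr G X, Ψ'.Meas ∧ Ψ'.SuppIn B ∧ (∀ p q, OR B p q → Gen (OR (B ⊓ C)) Ψ' p q) ∧
      Ψ'.cost μ ≤ Ψ.cost μ + η := sorry

end Sheets

/-! ## T9 `Truncate.lean` -/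
section Truncate
variable {G X : Type*} [Group G] [Countable G] [MulAction G X] [MeasurableSpace X]
  {μ : Measure X} [IsFiniteMeasure μ]

theorem truncate (hF : FreeAct G X μ) {S : X → X → Prop} (hS : MRel G S) (F : Finset G)
    {H : Subgroup G} (hFH : ∀ g ∈ F, g ∈ H)
    (hgenF : ∀ p q, OR H p q → Gen S (fun g => {_p : X | g ∈ F}) p q)
    {Ψ : Gr G X} (hΨ : Ψ.Meas) (hsupp : Ψ.SuppIn H)
    (hgen : ∀ p, ∀ g ∈ F, Gen S Ψ p (g • p)) {η : ENNReal} (hη : η ≠ 0) :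
    ∃ Ψ' : Gr G X, Ψ'.Meas ∧ Ψ'.FinSupp ∧ Ψ'.SuppIn H ∧ (∀ p q, OR H p q → Gen S Ψ' p q) ∧
      Ψ'.cost μ ≤ Ψ.cost μ + η := sorry

end Truncate

/-! ## Theorem II -/

/-- T10 `PathWord.lean` : every `b ≠ 1` is the end of a non-backtracking path in the forest. A list
`l = [(j₁, j₁'), (j₂, j₂'), …]` is read from the start: `b = … (gam j₂' * (gam j₂)⁻¹) * (gam j₁' * (gam j₁)⁻¹)`. -/
def pathProd : List (Fin 3 × Fin 3) → F2
  | [] => 1
  | jj :: l => pathProd l * (gam jj.2 * (gam jj.1)⁻¹)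

/-- non-backtracking -/
def NB (l : List (Fin 3 × Fin 3)) : Prop :=
  (∀ jj ∈ l, jj.1 ≠ jj.2) ∧ List.IsChain (fun u v : Fin 3 × Fin 3 => u.2 ≠ v.1) l

theorem exists_path (b : F2) : ∃ l : List (Fin 3 × Fin 3), NB l ∧ pathProd l = b := sorry
theorem path_ne_one (l : List (Fin 3 × Fin 3)) (h : NB l) (hl : l ≠ []) : pathProd l ≠ 1 := sorry

section II
variable {X : Type*} [MulAction F2 X] [MeasurableSpace X] {μ : Measure X} [IsProbabilityMeasure μ]
  {Ke Kp : Type} [Fintype Ke] [Fintype Kp] [DecidableEq Ke] [DecidableEq Kp]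

/-- T11 `KeyIneq.lean` : KEY inequality, for every labelling. -/
theorem key_ineq (hF : FreeAct F2 X μ) {T : TG X Ke Kp} (hT : T.Good) {L : Lab X Ke Kp}
    (hL : L.Good T) :
    1 + μ.real L.S - μ.real {y | y ∈ L.S ∧ la • y ∈ L.S ∧ lb • y ∈ L.S} ≤ Exc μ T L := sorry

/-- T12 `Process.lean` : the folding process. -/
theorem process (hF : FreeAct F2 X μ) {T : TG X Ke Kp} (hT : T.Good) {L₀ : Lab X Ke Kp}
    (hL₀ : L₀.Good T) {U : Fin 4 → Set X} (hU : ∀ i, MeasurableSet (U i))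
    (hUμ : ∀ i, μ (U i) ≤ 1 / 4) (hUc : ⋃ i, U i = Set.univ) :
    ∃ L : ℕ → Lab X Ke Kp, L 0 = L₀ ∧ (∀ n, (L n).Good T) ∧
      (∀ n, Exc μ T (L (n + 1)) ≤ Exc μ T (L n)) ∧
      (∀ n, μ ((L (n + 1)).S \ (L n).S) ≤ 1 / 4) ∧
      (∀ n x a a', (L n).ce x a = (L n).ce x a' → (L (n + 1)).ce x a = (L (n + 1)).ce x a') ∧
      (∀ n y q q', (L n).cp y q = (L n).cp y q' → (L (n + 1)).cp y q = (L (n + 1)).cp y q') ∧
      (∀ n x a a' j q q', (gam j)⁻¹ • x ∈ T.ed j q a → (gam j)⁻¹ • x ∈ T.ed j q' a' →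
        (L n).cp ((gam j)⁻¹ • x) q = (L n).cp ((gam j)⁻¹ • x) q' →
        ∃ m, (L m).ce x a = (L m).ce x a') ∧
      (∀ n y q q' j a a', y ∈ T.ed j q a → y ∈ T.ed j q' a' →
        (L n).ce (gam j • y) a = (L n).ce (gam j • y) a' →
        ∃ m, (L m).cp y q = (L m).cp y q') := sorry

end II

/-- T13 `Folded.lean` : a fold-closed quotient of a connected graph over the forest is injective
(purely combinatorial). -/
theorem folded {X : Type*} [MulAction F2 X] (hfree : ∀ (g : F2) (x : X), g • x = x → g = 1)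
    {Ke Kp : Type} (T : TG X Ke Kp) (re : X → Ie Ke → Ie Ke → Prop) (rp : X → Ip Kp → Ip Kp → Prop)
    (hre : ∀ x, Equivalence (re x)) (hrp : ∀ y, Equivalence (rp y))
    (hcle : ∀ x a a' j q q', (gam j)⁻¹ • x ∈ T.ed j q a → (gam j)⁻¹ • x ∈ T.ed j q' a' →
      rp ((gam j)⁻¹ • x) q q' → re x a a')
    (hclp : ∀ y q q' j a a', y ∈ T.ed j q a → y ∈ T.ed j q' a' →
      re (gam j • y) a a' → rp y q q')
    (x : X) (a a' : Ie Ke)
    (hconn : Relation.EqvGen T.Adj (Sum.inl (x, a)) (Sum.inl (x, a'))) : re x a a' := sorry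

/-- T14 `BuildTG.lean` : the typed graph of a finite family of chords. -/
theorem build {X : Type*} [MulAction F2 X] [MeasurableSpace X] {μ : Measure X}
    [IsProbabilityMeasure μ] (hF : FreeAct F2 X μ) {Ψ : Gr F2 X} (hΨ : Ψ.Meas)
    (hfin : Ψ.FinSupp) (hcost : Ψ.cost μ ≠ ⊤)
    (hgen : ∀ x : X, Gen (OR EF) Ψ x (la • x)) :
    ∃ (Ke Kp : Type) (_ : Fintype Ke) (_ : Fintype Kp) (_ : DecidableEq Ke) (_ : DecidableEq Kp)
      (T : TG X Ke Kp) (L : Lab X Ke Kp), T.Good ∧ L.Good T ∧ L.S = ∅ ∧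
      Exc μ T L ≤ 1 + (Ψ.cost μ).toReal ∧
      ∀ x : X, Relation.EqvGen T.Adj (Sum.inl (x, Sum.inl true)) (Sum.inl (x, Sum.inl false)) :=
  sorry

/-- T15 `PartII.lean` : assembly of Theorem II. -/
theorem partII {X : Type*} [MulAction F2 X] [MeasurableSpace X] {μ : Measure X}
    [IsProbabilityMeasure μ] (hF : FreeAct F2 X μ)
    (hgap : ∀ S : Set X, MeasurableSet S → 1 / 100 * (μ.real S * (1 - μ.real S)) ≤
      μ.real S - μ.real {y | y ∈ S ∧ la • y ∈ S ∧ lb • y ∈ S})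
    {U : Fin 4 → Set X} (hU : ∀ i, MeasurableSet (U i))
    (hUμ : ∀ i, μ (U i) ≤ 1 / 4) (hUc : ⋃ i, U i = Set.univ)
    {Ψ : Gr F2 X} (hΨ : Ψ.Meas) (hfin : Ψ.FinSupp)
    (hgen : ∀ x : X, Gen (OR EF) Ψ x (la • x)) :
    ENNReal.ofReal (1 / 1000) ≤ Ψ.cost μ := sorry

/-! ## T16 `GroupLemma.lean` : the group -/

theorem exists_group : ∃ (Γ : Type) (_ : Group Γ) (ι : F2 →* Γ) (z : Γ),
    Function.Injective ι ∧ Function.Injective (fun n : ℤ => z ^ n) ∧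
    (∀ e ∈ EF, z * ι e = ι e * z) ∧
    Subgroup.closure (insert z (Set.range ι)) = ⊤ ∧
    AmalgProp ι.range (Subgroup.closure (insert z (ι '' EF))) ∧
    (∀ g ∈ ι.range, g ∈ Subgroup.closure (insert z (ι '' EF)) → g ∈ EF.map ι) ∧
    ∃ φ : Γ →* Multiplicative ℤ, φ (ι la) = Multiplicative.ofAdd 1 ∧
      φ (ι lb) = Multiplicative.ofAdd 2 ∧ φ z = Multiplicative.ofAdd 1 := sorry

/-! ## T17 (`Walsh*.lean`, `Bernoulli.lean`) : the action -/

theorem exists_action (Γ : Type) [Group Γ] [Countable Γ] (ι : F2 →* Γ)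
    (hι : Function.Injective ι) :
    ∃ (X : Type) (_ : MeasurableSpace X) (_ : StandardBorelSpace X) (μ : Measure X)
      (_ : IsProbabilityMeasure μ) (_ : MulAction Γ X), FreeAct Γ X μ ∧
      (∀ S : Set X, MeasurableSet S → 1 / 100 * (μ.real S * (1 - μ.real S)) ≤
        μ.real S - μ.real {y | y ∈ S ∧ ι la • y ∈ S ∧ ι lb • y ∈ S}) ∧
      ∃ U : Fin 4 → Set X, (∀ i, MeasurableSet (U i)) ∧ (∀ i, μ (U i) ≤ 1 / 4) ∧
        ⋃ i, U i = Set.univ := sorry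

/-! ## T18 `Upper.lean` (uses `Cheap.lean` of helper348) -/

theorem upper {Γ X : Type} [Group Γ] [MulAction Γ X] [MeasurableSpace X] [StandardBorelSpace X]
    {μ : Measure X} [IsProbabilityMeasure μ] (hact : IsFreePMPAction Γ X μ)
    (ι : F2 →* Γ) (z : Γ) (hcomm : ∀ e ∈ EF, z * ι e = ι e * z)
    (htop : Subgroup.closure (insert z (Set.range ι)) = ⊤)
    (φ : Γ →* Multiplicative ℤ) (ha : φ (ι la) = Multiplicative.ofAdd 1)
    (hb : φ (ι lb) = Multiplicative.ofAdd 2) (hz : φ z = Multiplicative.ofAdd 1)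
    (M : ℕ) (hM : 100 < M) :
    ∃ (Y : Type) (_ : MeasurableSpace Y) (_ : StandardBorelSpace Y) (ν : Measure Y)
      (_ : IsProbabilityMeasure ν) (_ : MulAction Γ Y),
      IsFreePMPAction Γ Y ν ∧ actionCost Γ Y ν ≤ 1 + 99 / (M : ENNReal) := sorry

/-! ## T19 `Lower.lean` : assembly of the lower bound for graphings -/

theorem lower {Γ X : Type} [Group Γ] [Countable Γ] [MulAction Γ X] [MeasurableSpace X]
    [StandardBorelSpace X] {μ : Measure X} [IsProbabilityMeasure μ] (hF : FreeAct Γ X μ)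
    (ι : F2 →* Γ) (hι : Function.Injective ι) (z : Γ)
    (hz : Function.Injective (fun n : ℤ => z ^ n))
    (htop : Subgroup.closure (insert z (Set.range ι)) = ⊤)
    (hAP : AmalgProp ι.range (Subgroup.closure (insert z (ι '' EF))))
    (hint : ∀ g ∈ ι.range, g ∈ Subgroup.closure (insert z (ι '' EF)) → g ∈ EF.map ι)
    (hgap : ∀ S : Set X, MeasurableSet S → 1 / 100 * (μ.real S * (1 - μ.real S)) ≤
        μ.real S - μ.real {y | y ∈ S ∧ ι la • y ∈ S ∧ ι lb • y ∈ S})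
    {U : Fin 4 → Set X} (hU : ∀ i, MeasurableSet (U i))
    (hUμ : ∀ i, μ (U i) ≤ 1 / 4) (hUc : ⋃ i, U i = Set.univ)
    {Φ : Gr Γ X} (hΦ : Φ.Meas) (hgen : ∀ (p : X) (g : Γ), Gen (fun _ _ => False) Φ p (g • p)) :
    1 + ENNReal.ofReal (1 / 20000) ≤ Φ.cost μ := sorry

end Crest.Agent.R191.Iface
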