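import Mathlib

/-!
# Row 191 (S0291), Theorem II : folding of measured graphs over a forest (helper111)

Abstract part: a finite family of edge types over the bipartite forest with base nodes `(s, x)`
(`s : Bool`, `true` = P-side, `false` = e-side), neighbour of `(s,x)` in direction `j : Fin 3`.
-/

set_option autoImplicit false
set_option linter.unusedSectionVars false

open MeasureTheory Set
open scoped ENNReal

namespace Crest.Agent.R191.ThmII

section Prelim

variable {X : Type*} [MeasurableSpace X]

/-- measurability of a map to a discrete space -/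
def FM {α : Type*} (f : X → α) : Prop := ∀ s : Set α, MeasurableSet (f ⁻¹' s)

lemma FM.of_singleton {α : Type*} [Countable α] {f : X → α}
    (h : ∀ a, MeasurableSet {x | f x = a}) : FM f := by
  intro s
  have : f ⁻¹' s = ⋃ a ∈ s, {x | f x = a} := by ext x; simp
  rw [this]
  exact MeasurableSet.biUnion s.to_countable (fun a _ => h a)

lemma FM.comp {α β : Type*} {f : X → α} (h : FM f) (F : α → β) : FM (fun x => F (f x)) :=
  fun s => h (F ⁻¹' s)

lemma FM.const {α : Type*} (a : α) : FM (fun _ : X => a) := fun s => by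
  by_cases h : a ∈ s
  · have : (fun _ : X => a) ⁻¹' s = Set.univ := by ext; simp [h]
    rw [this]; exact MeasurableSet.univ
  · have : (fun _ : X => a) ⁻¹' s = ∅ := by ext; simp [h]
    rw [this]; exact MeasurableSet.empty

lemma FM.prop {p : X → Prop} (h : MeasurableSet {x | p x}) : FM p := by
  apply FM.of_singleton
  intro a
  by_cases ha : a
  · have : {x | p x = a} = {x | p x} := by ext x; simp [ha]
    rw [this]; exact h
  · have : {x | p x = a} = {x | p x}ᶜ := by ext x; simp [ha]
    rw [this]; exact h.compl

lemma FM.setOf {p : X → Prop} (h : FM p) : MeasurableSet {x | p x} := by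
  have := h {True}
  have h2 : p ⁻¹' {True} = {x | p x} := by ext x; simp
  rwa [h2] at this

lemma FM.prod {α β : Type*} [Countable α] [Countable β] {f : X → α} {g : X → β}
    (hf : FM f) (hg : FM g) : FM (fun x => (f x, g x)) := by
  apply FM.of_singleton
  rintro ⟨a, b⟩
  have : {x | (f x, g x) = (a, b)} = f ⁻¹' {a} ∩ g ⁻¹' {b} := by ext x; simp [Prod.ext_iff]
  rw [this]
  exact (hf _).inter (hg _)

lemma FM.pi {ι α : Type*} [Finite ι] [Finite α] {f : X → ι → α} (h : ∀ i, FM (fun x => f x i)) :
    FM f := by
  apply FM.of_singleton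
  intro a
  have : {x | f x = a} = ⋂ i, {x | f x i = a i} := by ext x; simp [funext_iff]
  rw [this]
  exact MeasurableSet.iInter (fun i => h i {a i})

lemma FM.comp_meas {α : Type*} {f : X → α} (hf : FM f) {m : X → X} (hm : Measurable m) :
    FM (fun x => f (m x)) := fun s => hm (hf s)

lemma FM.measurable {β : Type*} [MeasurableSpace β] {f : X → β} (hf : FM f) : Measurable f :=
  fun s _ => hf s

lemma FM.and {p q : X → Prop} (hp : FM p) (hq : FM q) : FM (fun x => p x ∧ q x) :=
  FM.prop (hp.setOf.inter hq.setOf)

lemma FM.not {p : X → Prop} (hp : FM p) : FM (fun x => ¬ p x) :=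
  FM.prop hp.setOf.compl

lemma FM.eq {α : Type*} [Countable α] {f g : X → α} (hf : FM f) (hg : FM g) :
    FM (fun x => f x = g x) := (hf.prod hg).comp (fun p => p.1 = p.2)

end Prelim

section Defs

variable {B X : Type*} [Group B] [MulAction B X]

/-- neighbour of the base node `(s,x)` in direction `j`; `s = true` : P-side. -/
def move (g : Fin 3 → B) (s : Bool) (j : Fin 3) (x : X) : X :=
  if s then g j • x else (g j)⁻¹ • x

lemma move_move (g : Fin 3 → B) (s : Bool) (j : Fin 3) (x : X) :
    move g (!s) j (move g s j x) = x := by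
  cases s <;> simp [move]

/-- the group element of a walk from side `s` with directions `l` -/
def elt (g : Fin 3 → B) : Bool → List (Fin 3) → B
  | _, [] => 1
  | s, j :: l => elt g (!s) l * (if s then g j else (g j)⁻¹)

/-- measured graph over the forest -/
structure Data (g : Fin 3 → B) (X : Type*) [MulAction B X] [MeasurableSpace X]
    (T Ed : Type) where
  /-- direction of an edge type -/
  dir : Ed → Fin 3
  /-- types of the two endpoints -/
  en : Ed → Bool → T
  /-- presence of an edge, seen from side `s` -/
  D : Ed → Bool → Set X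
  /-- presence of a node type on side `s` -/
  Dom : Bool → T → Set X
  D_meas : ∀ ε s, MeasurableSet (D ε s)
  Dom_meas : ∀ s t, MeasurableSet (Dom s t)
  D_move : ∀ ε s x, x ∈ D ε s → move g s (dir ε) x ∈ D ε (!s)
  D_Dom : ∀ ε s x, x ∈ D ε s → x ∈ Dom s (en ε s)

variable {g : Fin 3 → B} [MeasurableSpace X] {T Ed : Type}

lemma Data.D_iff (G : Data g X T Ed) (ε : Ed) (s : Bool) (x : X) :
    move g s (G.dir ε) x ∈ G.D ε (!s) ↔ x ∈ G.D ε s := by
  constructor
  · intro h
    have := G.D_move ε (!s) _ h
    rwa [move_move, Bool.not_not] at this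
  · exact G.D_move ε s x

/-- a labelling of the nodes -/
abbrev Lab (X : Type*) (T : Type) := Bool → X → T → T

open Classical in
/-- edges of direction `j` at `(s,x)`, for the edge types in `K` -/
noncomputable def Eset (G : Data g X T Ed) (K : Finset Ed) (lab : Lab X T) (s : Bool) (j : Fin 3)
    (x : X) : Finset (T × T) :=
  (K.filter (fun ε => G.dir ε = j ∧ x ∈ G.D ε s)).image
    (fun ε => (lab s x (G.en ε s), lab (!s) (move g s j x) (G.en ε (!s))))

open Classical in
/-- labels present at `(s,x)` of the node types in `K` -/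
noncomputable def Vset (G : Data g X T Ed) (K : Finset T) (lab : Lab X T) (s : Bool)
    (x : X) : Finset T :=
  (K.filter (fun t => x ∈ G.Dom s t)).image (lab s x)

/-- all edges at `(s,x)` -/
noncomputable def Ecard (G : Data g X T Ed) (K : Finset Ed) (lab : Lab X T) (s : Bool) (x : X) :
    ℕ := ∑ j, (Eset G K lab s j x).card

lemma Eset_swap (G : Data g X T Ed) (K : Finset Ed) (lab : Lab X T) (s : Bool) (j : Fin 3)
    (x : X) : (Eset G K lab (!s) j (move g s j x)).card = (Eset G K lab s j x).card := by
  classical
  have : Eset G K lab (!s) j (move g s j x) = (Eset G K lab s j x).image Prod.swap := by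
    unfold Eset
    rw [Finset.image_image]
    ext p
    simp only [Finset.mem_image, Finset.mem_filter, Bool.not_not, move_move, Function.comp,
      Prod.swap_prod_mk]
    constructor
    · rintro ⟨ε, ⟨hK, rfl, h⟩, rfl⟩
      exact ⟨ε, ⟨hK, rfl, (G.D_iff ε s x).1 h⟩, rfl⟩
    · rintro ⟨ε, ⟨hK, rfl, h⟩, rfl⟩
      exact ⟨ε, ⟨hK, rfl, (G.D_iff ε s x).2 h⟩, rfl⟩
  rw [this, Finset.card_image_of_injective _ Prod.swap_injective]

/-- measurable labelling -/
def MeasLab (lab : Lab X T) : Prop := ∀ s, FM (lab s)

variable [Finite T] [Finite Ed]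

lemma FM_pres (G : Data g X T Ed) (s : Bool) : FM (fun x (ε : Ed) => x ∈ G.D ε s) :=
  FM.pi (fun ε => FM.prop (G.D_meas ε s))

lemma FM_Dom (G : Data g X T Ed) (s : Bool) : FM (fun x (t : T) => x ∈ G.Dom s t) :=
  FM.pi (fun t => FM.prop (G.Dom_meas s t))

lemma measurable_move [MeasurableConstSMul B X] (s : Bool) (j : Fin 3) :
    Measurable (move g s j : X → X) := by
  cases s
  · exact measurable_const_smul _
  · exact measurable_const_smul _

lemma FM_Eset [MeasurableConstSMul B X] (G : Data g X T Ed) (K : Finset Ed) {lab : Lab X T}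
    (hlab : MeasLab lab) (s : Bool) (j : Fin 3) : FM (Eset G K lab s j) := by
  classical
  have h1 : FM (fun x => ((fun ε => x ∈ G.D ε s), lab s x, lab (!s) (move g s j x))) :=
    (FM_pres G s).prod ((hlab s).prod ((hlab (!s)).comp_meas (measurable_move s j)))
  exact h1.comp (fun p => (K.filter (fun ε => G.dir ε = j ∧ p.1 ε)).image
    (fun ε => (p.2.1 (G.en ε s), p.2.2 (G.en ε (!s)))))

lemma FM_Ecard [MeasurableConstSMul B X] (G : Data g X T Ed) (K : Finset Ed) {lab : Lab X T}
    (hlab : MeasLab lab) (s : Bool) : FM (Ecard G K lab s) := by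
  classical
  have h1 : FM (fun x => fun j => (Eset G K lab s j x)) :=
    FM.pi (fun j => FM_Eset G K hlab s j)
  exact h1.comp (fun p => ∑ j, (p j).card)

lemma FM_Vset (G : Data g X T Ed) (K : Finset T) {lab : Lab X T}
    (hlab : MeasLab lab) (s : Bool) : FM (Vset G K lab s) := by
  classical
  have h1 : FM (fun x => ((fun t => x ∈ G.Dom s t), lab s x)) :=
    (FM_Dom G s).prod (hlab s)
  exact h1.comp (fun p => (K.filter (fun t => p.1 t)).image p.2)

end Defs

end Crest.Agent.R191.ThmII
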