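import Crest.Agent.R191.Defs
import Crest.Agent.R191.IIDefs
import Crest.Agent.R191.ThmIIA

/-!
# Row 191 (S0291), T11 : the KEY inequality (helper111)
-/

set_option autoImplicit false
set_option linter.unusedSectionVars false

open MeasureTheory

namespace Crest.Agent.R191

open ThmII (FM)

namespace Key

section Meas

variable {X : Type*} [MeasurableSpace X] {μ : Measure X} [IsProbabilityMeasure μ]

lemma integrable_of_FM {α : Type*} [Finite α] {f : X → α} (hf : FM f) (F : α → ℝ) :
    Integrable (fun x => F (f x)) μ := by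
  have hfin : (Set.range F).Finite := Set.finite_range F
  obtain ⟨C, hC⟩ := hfin.isCompact.isBounded.exists_norm_le
  refine Integrable.of_bound ((hf.comp F).measurable).aestronglyMeasurable C
    (Filter.Eventually.of_forall (fun x => hC _ ⟨_, rfl⟩))

lemma integral_comp_mp {m : X → X} (hm : MeasurePreserving m μ μ) {α : Type*} [Finite α]
    {f : X → α} (hf : FM f) (F : α → ℝ) :
    ∫ x, F (f (m x)) ∂μ = ∫ x, F (f x) ∂μ := by
  have h := integral_map (μ := μ) (φ := m) hm.measurable.aemeasurable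
    (f := fun x => F (f x)) (by
      rw [hm.map_eq]; exact ((hf.comp F).measurable).aestronglyMeasurable)
  rw [hm.map_eq] at h
  exact h.symm

end Meas

section

variable {X : Type*} [MulAction F2 X] {Ke Kp : Type} [Fintype Ke] [Fintype Kp]
  [DecidableEq Ke] [DecidableEq Kp] (T : TG X Ke Kp) (L : Lab X Ke Kp)

/-- the two core edges over `(y,j)` -/
def coreE (j : Fin 3) (y : X) : Finset (Ip Kp × Ie Ke) :=
  {(L.cp y (Sum.inl j), L.ce (gam j • y) (Sum.inl false)),
    (L.cp y (Sum.inl (j - 1)), L.ce (gam j • y) (Sum.inl true))}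

/-- the other edges over `(y,j)` -/
noncomputable def extraE (j : Fin 3) (y : X) : Finset (Ip Kp × Ie Ke) :=
  edSet T L j y \ coreE L j y

/-- labels of core e-types -/
def coreVe (x : X) : Finset (Ie Ke) := {L.ce x (Sum.inl true), L.ce x (Sum.inl false)}
/-- labels of core P-types -/
def coreVp (y : X) : Finset (Ip Kp) := Finset.univ.image (fun j : Fin 3 => L.cp y (Sum.inl j))
/-- other labels -/
def extraVe (x : X) : Finset (Ie Ke) := Finset.univ.image (L.ce x) \ coreVe L x
/-- other labels -/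
def extraVp (y : X) : Finset (Ip Kp) := Finset.univ.image (L.cp y) \ coreVp L y

variable {T L}

lemma card_e (x : X) : nVe L x = (coreVe L x).card + (extraVe L x).card := by
  unfold nVe extraVe
  rw [Finset.card_sdiff_of_subset, Nat.add_sub_cancel']
  · refine Finset.card_le_card ?_
    intro l hl
    simp only [coreVe, Finset.mem_insert, Finset.mem_singleton] at hl
    rcases hl with rfl | rfl <;> exact Finset.mem_image_of_mem _ (Finset.mem_univ _)
  · intro l hl
    simp only [coreVe, Finset.mem_insert, Finset.mem_singleton] at hl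
    rcases hl with rfl | rfl <;> exact Finset.mem_image_of_mem _ (Finset.mem_univ _)

lemma card_p (y : X) : nVp L y = (coreVp L y).card + (extraVp L y).card := by
  have hsub : coreVp L y ⊆ Finset.univ.image (L.cp y) := by
    intro l hl
    simp only [coreVp, Finset.mem_image] at hl
    obtain ⟨j, -, rfl⟩ := hl
    exact Finset.mem_image_of_mem _ (Finset.mem_univ _)
  unfold nVp extraVp
  rw [Finset.card_sdiff_of_subset hsub, Nat.add_sub_cancel' (Finset.card_le_card hsub)]

/-- (b) -/
lemma coreVe_card (x : X) [Decidable (x ∈ L.S)] :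
    (coreVe L x).card + (if x ∈ L.S then 1 else 0) = 2 := by
  unfold coreVe
  by_cases h : x ∈ L.S
  · have h' : L.ce x (Sum.inl true) = L.ce x (Sum.inl false) := h
    simp [h, h']
  · have h' : ¬ L.ce x (Sum.inl true) = L.ce x (Sum.inl false) := h
    rw [Finset.card_pair h']
    simp [h]

lemma coreE_card (j : Fin 3) (y : X) [Decidable (gam j • y ∈ L.S)] :
    (coreE L j y).card + (if gam j • y ∈ L.S ∧ L.cp y (Sum.inl j) = L.cp y (Sum.inl (j - 1))
      then 1 else 0) = 2 := by
  unfold coreE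
  by_cases h : gam j • y ∈ L.S ∧ L.cp y (Sum.inl j) = L.cp y (Sum.inl (j - 1))
  · have h' : L.ce (gam j • y) (Sum.inl true) = L.ce (gam j • y) (Sum.inl false) := h.1
    simp [h, h']
  · rw [Finset.card_pair]
    · simp [h]
    · intro h2
      rw [Prod.ext_iff] at h2
      exact h ⟨h2.2.symm, h2.1⟩

/-- (a) -/
lemma core_p (y : X) [Decidable (∀ j, gam j • y ∈ L.S)] :
    3 + (coreVp L y).card ≤ ∑ j, (coreE L j y).card + (if ∀ j, gam j • y ∈ L.S then 1 else 0) := by
  classical
  have h0 := coreE_card (L := L) 0 y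
  have h1 := coreE_card (L := L) 1 y
  have h2 := coreE_card (L := L) 2 y
  have e0 : (0 - 1 : Fin 3) = 2 := rfl
  have e1 : (1 - 1 : Fin 3) = 0 := rfl
  have e2 : (2 - 1 : Fin 3) = 1 := rfl
  rw [e0] at h0
  rw [e1] at h1
  rw [e2] at h2
  have hall : (∀ j, gam j • y ∈ L.S) ↔ gam 0 • y ∈ L.S ∧ gam 1 • y ∈ L.S ∧ gam 2 • y ∈ L.S := by
    rw [Fin.forall_fin_succ, Fin.forall_fin_succ, Fin.forall_fin_succ]
    simp [Fin.succ]
  have hV : coreVp L y = {L.cp y (Sum.inl 0), L.cp y (Sum.inl 1), L.cp y (Sum.inl 2)} := by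
    unfold coreVp
    ext l
    simp only [Finset.mem_image, Finset.mem_univ, true_and, Finset.mem_insert,
      Finset.mem_singleton]
    constructor
    · rintro ⟨j, rfl⟩
      fin_cases j <;> simp
    · rintro (rfl | rfl | rfl)
      exacts [⟨0, rfl⟩, ⟨1, rfl⟩, ⟨2, rfl⟩]
  rw [Fin.sum_univ_three, hV]
  by_cases c01 : L.cp y (Sum.inl 0) = L.cp y (Sum.inl 1)
  · by_cases c12 : L.cp y (Sum.inl 1) = L.cp y (Sum.inl 2)
    · have c02 := c01.trans c12
      simp only [c02, c12, Finset.insert_eq_of_mem, Finset.mem_singleton, Finset.card_singleton,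
        and_true] at h0 h1 h2 ⊢
      simp only [hall]
      by_cases s0 : gam 0 • y ∈ L.S <;> by_cases s1 : gam 1 • y ∈ L.S <;>
        by_cases s2 : gam 2 • y ∈ L.S <;> simp [s0, s1, s2] at h0 h1 h2 ⊢ <;> omega
    · have hcard : ({L.cp y (Sum.inl 0), L.cp y (Sum.inl 1), L.cp y (Sum.inl 2)} :
          Finset (Ip Kp)).card ≤ 2 := by
        rw [c01]
        simp only [Finset.insert_eq_of_mem (Finset.mem_insert_self _ _)]
        exact Finset.card_le_two
      have c02 : ¬ L.cp y (Sum.inl 0) = L.cp y (Sum.inl 2) := by rw [c01]; exact c12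
      have c21 : ¬ L.cp y (Sum.inl 2) = L.cp y (Sum.inl 1) := fun h => c12 h.symm
      rw [if_neg (fun h => c02 h.2)] at h0
      rw [if_neg (fun h => c21 h.2)] at h2
      have h1' : 1 ≤ (coreE L 1 y).card := by
        split_ifs at h1 <;> omega
      omega
  · have c10 : ¬ L.cp y (Sum.inl 1) = L.cp y (Sum.inl 0) := fun h => c01 h.symm
    rw [if_neg (fun h => c10 h.2)] at h1
    by_cases c12 : L.cp y (Sum.inl 2) = L.cp y (Sum.inl 1)
    · have c02 : ¬ L.cp y (Sum.inl 0) = L.cp y (Sum.inl 2) := by rw [c12]; exact c01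
      rw [if_neg (fun h => c02 h.2)] at h0
      have hcard : ({L.cp y (Sum.inl 0), L.cp y (Sum.inl 1), L.cp y (Sum.inl 2)} :
          Finset (Ip Kp)).card ≤ 2 := by
        rw [c12]
        simp only [Finset.pair_eq_singleton]
        exact Finset.card_le_two
      have h2' : 1 ≤ (coreE L 2 y).card := by
        split_ifs at h2 <;> omega
      omega
    · rw [if_neg (fun h => c12 h.2)] at h2
      have hcard : ({L.cp y (Sum.inl 0), L.cp y (Sum.inl 1), L.cp y (Sum.inl 2)} :
          Finset (Ip Kp)).card ≤ 3 := Finset.card_le_three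
      by_cases c02 : L.cp y (Sum.inl 0) = L.cp y (Sum.inl 2)
      · have hcard : ({L.cp y (Sum.inl 0), L.cp y (Sum.inl 1), L.cp y (Sum.inl 2)} :
            Finset (Ip Kp)).card ≤ 2 := by
          rw [c02, Finset.insert_comm]
          simp only [Finset.pair_eq_singleton]
          exact Finset.card_le_two
        have h0' : 1 ≤ (coreE L 0 y).card := by
          split_ifs at h0 <;> omega
        omega
      · rw [if_neg (fun h => c02 h.2)] at h0
        omega

/-- double counting -/
lemma two_mul_card_le {α β : Type*} [DecidableEq α] (s : Finset α) (E : Fin 3 → Finset β)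
    (π : β → α)
    (h : ∀ l ∈ s, ∃ j j', j ≠ j' ∧ (∃ p ∈ E j, π p = l) ∧ (∃ p ∈ E j', π p = l)) :
    2 * s.card ≤ ∑ j, (E j).card := by
  classical
  have h1 : ∀ j, (s.filter (fun l => ∃ p ∈ E j, π p = l)).card ≤ (E j).card := by
    intro j
    refine le_trans (Finset.card_le_card ?_) (Finset.card_image_le (s := E j) (f := π))
    intro l hl
    obtain ⟨p, hp, rfl⟩ := (Finset.mem_filter.1 hl).2
    exact Finset.mem_image_of_mem _ hp
  refine le_trans ?_ (Finset.sum_le_sum (fun j _ => h1 j))
  have h2 : ∑ j : Fin 3, (s.filter (fun l => ∃ p ∈ E j, π p = l)).card =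
      ∑ l ∈ s, ((Finset.univ : Finset (Fin 3)).filter (fun j => ∃ p ∈ E j, π p = l)).card := by
    simp only [Finset.card_filter]
    rw [Finset.sum_comm]
  rw [h2, mul_comm, ← smul_eq_mul]
  refine Finset.card_nsmul_le_sum _ _ _ (fun l hl => ?_)
  obtain ⟨j, j', hne, hj, hj'⟩ := h l hl
  rw [← Finset.card_pair hne]
  refine Finset.card_le_card ?_
  intro i hi
  simp only [Finset.mem_insert, Finset.mem_singleton] at hi
  rcases hi with rfl | rfl
  · simpa using hj
  · simpa using hj'

/-- (cP) -/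
lemma extra_p [MeasurableSpace X] (hT : T.Good) (hL : L.Good T) (y : X) :
    2 * (extraVp L y).card ≤ ∑ j, (extraE T L j y).card := by
  classical
  refine two_mul_card_le _ _ Prod.fst (fun l hl => ?_)
  simp only [extraVp, Finset.mem_sdiff, Finset.mem_image, Finset.mem_univ, true_and] at hl
  obtain ⟨⟨q, rfl⟩, hq⟩ := hl
  have hcore : ∀ j : Fin 3, L.cp y (Sum.inl j) ∈ coreVp L y :=
    fun j => Finset.mem_image_of_mem _ (Finset.mem_univ _)
  have hE : ∀ j p, p ∈ coreE L j y → p.1 ∈ coreVp L y := by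
    intro j p hp
    simp only [coreE, Finset.mem_insert, Finset.mem_singleton] at hp
    rcases hp with rfl | rfl
    · exact hcore _
    · exact hcore _
  rcases q with j | k
  · exact absurd (hcore j) hq
  · have hk : y ∈ T.pp k := by
      by_contra hk
      rw [hL.abs_p k y hk] at hq
      exact hq (hcore 0)
    obtain ⟨j, j', a, a', hne, h1, h2⟩ := hT.deg_p k y hk
    refine ⟨j, j', hne, ⟨(L.cp y (Sum.inr k), L.ce (gam j • y) a), ?_, rfl⟩,
      ⟨(L.cp y (Sum.inr k), L.ce (gam j' • y) a'), ?_, rfl⟩⟩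
    · refine Finset.mem_sdiff.2 ⟨?_, fun h => hq (hE _ _ h)⟩
      exact Finset.mem_image.2 ⟨(Sum.inr k, a), by simpa using h1, rfl⟩
    · refine Finset.mem_sdiff.2 ⟨?_, fun h => hq (hE _ _ h)⟩
      exact Finset.mem_image.2 ⟨(Sum.inr k, a'), by simpa using h2, rfl⟩

/-- (ce) -/
lemma extra_e [MeasurableSpace X] (hT : T.Good) (hL : L.Good T) (x : X) :
    2 * (extraVe L x).card ≤ ∑ j, (extraE T L j ((gam j)⁻¹ • x)).card := by
  classical
  refine two_mul_card_le _ _ Prod.snd (fun l hl => ?_)
  simp only [extraVe, Finset.mem_sdiff, Finset.mem_image, Finset.mem_univ, true_and] at hl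
  obtain ⟨⟨a, rfl⟩, ha⟩ := hl
  have hcore : ∀ b : Bool, L.ce x (Sum.inl b) ∈ coreVe L x := by
    intro b
    cases b <;> simp [coreVe]
  have hE : ∀ j p, p ∈ coreE L j ((gam j)⁻¹ • x) → p.2 ∈ coreVe L x := by
    intro j p hp
    simp only [coreE, Finset.mem_insert, Finset.mem_singleton, smul_inv_smul] at hp
    rcases hp with rfl | rfl
    · exact hcore _
    · exact hcore _
  rcases a with b | k
  · exact absurd (hcore b) ha
  · have hk : x ∈ T.pe k := by
      by_contra hk
      rw [hL.abs_e k x hk] at ha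
      exact ha (hcore true)
    obtain ⟨j, j', q, q', hne, h1, h2⟩ := hT.deg_e k x hk
    refine ⟨j, j', hne, ⟨(L.cp ((gam j)⁻¹ • x) q, L.ce x (Sum.inr k)), ?_, rfl⟩,
      ⟨(L.cp ((gam j')⁻¹ • x) q', L.ce x (Sum.inr k)), ?_, rfl⟩⟩
    · refine Finset.mem_sdiff.2 ⟨?_, fun h => ha (hE _ _ h)⟩
      exact Finset.mem_image.2 ⟨(q, Sum.inr k), by simpa using h1, by simp⟩
    · refine Finset.mem_sdiff.2 ⟨?_, fun h => ha (hE _ _ h)⟩
      exact Finset.mem_image.2 ⟨(q', Sum.inr k), by simpa using h2, by simp⟩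

lemma coreE_subset [MeasurableSpace X] (hT : T.Good) (j : Fin 3) (y : X) :
    coreE L j y ⊆ edSet T L j y := by
  classical
  intro p hp
  simp only [coreE, Finset.mem_insert, Finset.mem_singleton] at hp
  rcases hp with rfl | rfl
  · exact Finset.mem_image.2 ⟨(Sum.inl j, Sum.inl false), by simpa using hT.core_in j y, rfl⟩
  · refine Finset.mem_image.2 ⟨(Sum.inl (j - 1), Sum.inl true), ?_, rfl⟩
    have := hT.core_out (j - 1) y
    rw [sub_add_cancel] at this
    simpa using this

lemma card_ed [MeasurableSpace X] (hT : T.Good) (j : Fin 3) (y : X) :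
    (edSet T L j y).card = (coreE L j y).card + (extraE T L j y).card := by
  unfold extraE
  rw [Finset.card_sdiff_of_subset (coreE_subset hT j y),
    Nat.add_sub_cancel' (Finset.card_le_card (coreE_subset hT j y))]

end

section Main

variable {X : Type*} [MulAction F2 X] [MeasurableSpace X] {μ : Measure X} [IsProbabilityMeasure μ]
  {Ke Kp : Type} [Fintype Ke] [Fintype Kp] [DecidableEq Ke] [DecidableEq Kp]
  {T : TG X Ke Kp} {L : Lab X Ke Kp}

lemma FM_ce (hL : L.Good T) : FM L.ce := by
  refine FM.pi (fun a => FM.of_singleton (fun l => hL.meas_e a l))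

lemma FM_cp (hL : L.Good T) : FM L.cp := by
  refine FM.pi (fun q => FM.of_singleton (fun l => hL.meas_p q l))

lemma FM_coreE (hF : FreeAct F2 X μ) (hL : L.Good T) (j : Fin 3) : FM (coreE L j) := by
  have h1 : FM (fun y => (L.cp y, L.ce (gam j • y))) :=
    (FM_cp hL).prod ((FM_ce hL).comp_meas (hF.mp (gam j)).measurable)
  exact h1.comp (fun p => ({(p.1 (Sum.inl j), p.2 (Sum.inl false)),
    (p.1 (Sum.inl (j - 1)), p.2 (Sum.inl true))} : Finset (Ip Kp × Ie Ke)))

lemma FM_edSet (hF : FreeAct F2 X μ) (hT : T.Good) (hL : L.Good T) (j : Fin 3) :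
    FM (edSet T L j) := by
  classical
  have h1 : FM (fun y => ((fun qa : Ip Kp × Ie Ke => y ∈ T.ed j qa.1 qa.2), L.cp y,
      L.ce (gam j • y))) :=
    (FM.pi (fun qa : Ip Kp × Ie Ke => FM.prop (hT.meas_ed j qa.1 qa.2))).prod
      ((FM_cp hL).prod ((FM_ce hL).comp_meas (hF.mp (gam j)).measurable))
  exact h1.comp (fun p => ((Finset.univ : Finset (Ip Kp × Ie Ke)).filter
    (fun qa => p.1 qa)).image (fun qa => (p.2.1 qa.1, p.2.2 qa.2)))

lemma FM_extraE (hF : FreeAct F2 X μ) (hT : T.Good) (hL : L.Good T) (j : Fin 3) :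
    FM (extraE T L j) :=
  ((FM_edSet hF hT hL j).prod (FM_coreE hF hL j)).comp (fun p => p.1 \ p.2)

lemma FM_coreVe (hL : L.Good T) : FM (coreVe L) :=
  (FM_ce hL).comp (fun f => ({f (Sum.inl true), f (Sum.inl false)} : Finset (Ie Ke)))

lemma FM_extraVe (hL : L.Good T) : FM (extraVe L) :=
  (FM_ce hL).comp (fun f => Finset.univ.image f \
    ({f (Sum.inl true), f (Sum.inl false)} : Finset (Ie Ke)))

lemma FM_coreVp (hL : L.Good T) : FM (coreVp L) :=
  (FM_cp hL).comp (fun f => Finset.univ.image (fun j : Fin 3 => f (Sum.inl j)))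

lemma FM_extraVp (hL : L.Good T) : FM (extraVp L) :=
  (FM_cp hL).comp (fun f => Finset.univ.image f \
    Finset.univ.image (fun j : Fin 3 => f (Sum.inl j)))

lemma measurableSet_S (hL : L.Good T) : MeasurableSet L.S :=
  FM.setOf (FM.eq ((FM_ce hL).comp (fun f => f (Sum.inl true)))
    ((FM_ce hL).comp (fun f => f (Sum.inl false))))

end Main

end Key

open Key in
/-- T11 `KeyIneq.lean` : KEY inequality, for every labelling. -/
theorem key_ineq {X : Type*} [MulAction F2 X] [MeasurableSpace X] {μ : Measure X}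
    [IsProbabilityMeasure μ] {Ke Kp : Type} [Fintype Ke] [Fintype Kp] [DecidableEq Ke]
    [DecidableEq Kp] (hF : FreeAct F2 X μ) {T : TG X Ke Kp} (hT : T.Good) {L : Lab X Ke Kp}
    (hL : L.Good T) :
    1 + μ.real L.S - μ.real {y | y ∈ L.S ∧ la • y ∈ L.S ∧ lb • y ∈ L.S} ≤ Exc μ T L := by
  classical
  set F : Set X := {y | ∀ j, gam j • y ∈ L.S} with hFdef
  have hFeq : {y | y ∈ L.S ∧ la • y ∈ L.S ∧ lb • y ∈ L.S} = F := by
    ext y
    simp only [hFdef, Set.mem_ofPred_eq]
    rw [Fin.forall_fin_succ, Fin.forall_fin_succ, Fin.forall_fin_succ]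
    simp [Fin.succ, gam]
  rw [hFeq]
  have hSm : MeasurableSet L.S := measurableSet_S hL
  have hFm : MeasurableSet F := by
    have : F = ⋂ j, (fun y => gam j • y) ⁻¹' L.S := by ext y; simp [hFdef]
    rw [this]
    exact MeasurableSet.iInter (fun j => (hF.mp (gam j)).measurable hSm)
  -- integrability
  have iE : ∀ j, Integrable (fun y => ((coreE L j y).card : ℝ)) μ :=
    fun j => integrable_of_FM (FM_coreE hF hL j) (fun s => (s.card : ℝ))
  have iX : ∀ j, Integrable (fun y => ((extraE T L j y).card : ℝ)) μ :=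
    fun j => integrable_of_FM (FM_extraE hF hT hL j) (fun s => (s.card : ℝ))
  have iX' : ∀ j, Integrable (fun x => ((extraE T L j ((gam j)⁻¹ • x)).card : ℝ)) μ :=
    fun j => integrable_of_FM ((FM_extraE hF hT hL j).comp_meas (hF.mp (gam j)⁻¹).measurable)
      (fun s => (s.card : ℝ))
  have iVe : Integrable (fun x => ((coreVe L x).card : ℝ)) μ :=
    integrable_of_FM (FM_coreVe hL) (fun s => (s.card : ℝ))
  have iVp : Integrable (fun x => ((coreVp L x).card : ℝ)) μ :=
    integrable_of_FM (FM_coreVp hL) (fun s => (s.card : ℝ))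
  have iWe : Integrable (fun x => ((extraVe L x).card : ℝ)) μ :=
    integrable_of_FM (FM_extraVe hL) (fun s => (s.card : ℝ))
  have iWp : Integrable (fun x => ((extraVp L x).card : ℝ)) μ :=
    integrable_of_FM (FM_extraVp hL) (fun s => (s.card : ℝ))
  have iS : Integrable (L.S.indicator (1 : X → ℝ)) μ :=
    (integrable_const (1 : ℝ)).indicator hSm
  have iF : Integrable (F.indicator (1 : X → ℝ)) μ :=
    (integrable_const (1 : ℝ)).indicator hFm
  -- decompositions
  have d1 : ∀ j, ∫ y, ((edSet T L j y).card : ℝ) ∂μ =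
      ∫ y, ((coreE L j y).card : ℝ) ∂μ + ∫ y, ((extraE T L j y).card : ℝ) ∂μ := by
    intro j
    rw [← integral_add (iE j) (iX j)]
    refine integral_congr_ae (Filter.Eventually.of_forall (fun y => ?_))
    simp only [card_ed hT]
    push_cast
    rfl
  have d2 : ∫ x, (nVe L x : ℝ) ∂μ =
      ∫ x, ((coreVe L x).card : ℝ) ∂μ + ∫ x, ((extraVe L x).card : ℝ) ∂μ := by
    rw [← integral_add iVe iWe]
    refine integral_congr_ae (Filter.Eventually.of_forall (fun y => ?_))
    simp only [card_e]
    push_cast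
    rfl
  have d3 : ∫ x, (nVp L x : ℝ) ∂μ =
      ∫ x, ((coreVp L x).card : ℝ) ∂μ + ∫ x, ((extraVp L x).card : ℝ) ∂μ := by
    rw [← integral_add iVp iWp]
    refine integral_congr_ae (Filter.Eventually.of_forall (fun y => ?_))
    simp only [card_p]
    push_cast
    rfl
  -- (a)
  have ha : 3 + ∫ x, ((coreVp L x).card : ℝ) ∂μ ≤
      ∑ j, ∫ y, ((coreE L j y).card : ℝ) ∂μ + μ.real F := by
    rw [← integral_indicator_one hFm, ← integral_finsetSum _ (fun j _ => iE j),
      ← integral_add (integrable_finsetSum _ (fun j _ => iE j)) iF]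
    have : (3 : ℝ) + ∫ x, ((coreVp L x).card : ℝ) ∂μ =
        ∫ x, (3 + ((coreVp L x).card : ℝ)) ∂μ := by
      rw [integral_add (integrable_const _) iVp]
      simp
    rw [this]
    refine integral_mono ((integrable_const _).add iVp)
      ((integrable_finsetSum _ (fun j _ => iE j)).add iF) (fun y => ?_)
    have h := core_p (L := L) y
    have h' : F.indicator (1 : X → ℝ) y =
        (((if ∀ j, gam j • y ∈ L.S then 1 else 0 : ℕ)) : ℝ) := by
      by_cases hy : ∀ j, gam j • y ∈ L.S
      · rw [Set.indicator_of_mem (show y ∈ F from hy)]; simp [hy]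
      · rw [Set.indicator_of_notMem (show y ∉ F from hy)]; simp [hy]
    dsimp only
    rw [h']
    exact_mod_cast h
  -- (b)
  have hb : ∫ x, ((coreVe L x).card : ℝ) ∂μ + μ.real L.S = 2 := by
    rw [← integral_indicator_one hSm, ← integral_add iVe iS]
    have : ∀ x, ((coreVe L x).card : ℝ) + L.S.indicator (1 : X → ℝ) x = 2 := by
      intro x
      have h := coreVe_card (L := L) x
      by_cases hx : x ∈ L.S
      · rw [Set.indicator_of_mem hx, Pi.one_apply]
        simp only [hx, if_true] at h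
        exact_mod_cast h
      · rw [Set.indicator_of_notMem hx]
        simp only [hx, if_false] at h
        exact_mod_cast h
    simp_rw [this]
    simp
  -- (cP)
  have hcP : 2 * ∫ x, ((extraVp L x).card : ℝ) ∂μ ≤ ∑ j, ∫ y, ((extraE T L j y).card : ℝ) ∂μ := by
    rw [← integral_const_mul, ← integral_finsetSum _ (fun j _ => iX j)]
    refine integral_mono (iWp.const_mul 2) (integrable_finsetSum _ (fun j _ => iX j))
      (fun y => ?_)
    have h := extra_p hT hL y
    dsimp only
    exact_mod_cast h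
  -- (ce)
  have hce : 2 * ∫ x, ((extraVe L x).card : ℝ) ∂μ ≤ ∑ j, ∫ y, ((extraE T L j y).card : ℝ) ∂μ := by
    have e1 : ∀ j, ∫ y, ((extraE T L j y).card : ℝ) ∂μ =
        ∫ x, ((extraE T L j ((gam j)⁻¹ • x)).card : ℝ) ∂μ := fun j =>
      (integral_comp_mp (hF.mp (gam j)⁻¹) (FM_extraE hF hT hL j) (fun s => (s.card : ℝ))).symm
    simp_rw [e1]
    rw [← integral_const_mul, ← integral_finsetSum _ (fun j _ => iX' j)]
    refine integral_mono (iWe.const_mul 2) (integrable_finsetSum _ (fun j _ => iX' j))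
      (fun y => ?_)
    have h := extra_e hT hL y
    dsimp only
    exact_mod_cast h
  unfold Exc
  simp_rw [d1]
  rw [d2, d3, Finset.sum_add_distrib]
  linarith

end Crest.Agent.R191
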