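import Crest.Agent.R191.Rel

/-!
# Row 191, T2: marker lemma
-/

set_option autoImplicit false

namespace Crest.Agent.R191

open MeasureTheory Filter

section Marker
variable {G Z : Type*} [Group G] [Countable G] [MulAction G Z] [MeasurableSpace Z]

/-- The nested marker sets. -/
def mkB (G : Type*) {Z : Type*} [Group G] [MulAction G Z] (ρ : Z → Z → Prop)
    (f : Z → ℕ → Bool) (D : Set Z) : ℕ → Set Z
  | 0 => D
  | n + 1 => {p | p ∈ mkB G ρ f D n ∧
      ((f p n = false ∧ {g : G | ρ p (g • p) ∧ g • p ∈ mkB G ρ f D n ∧ f (g • p) n = false}.Infinite)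
      ∨ (f p n = true ∧
        ¬ {g : G | ρ p (g • p) ∧ g • p ∈ mkB G ρ f D n ∧ f (g • p) n = false}.Infinite))}

theorem mkB_meas {ν : Measure Z} (hF : FreeAct G Z ν) {ρ : Z → Z → Prop} (hρ : MRel G ρ)
    {f : Z → ℕ → Bool} (hf : Measurable f) {D : Set Z} (hD : MeasurableSet D) (n : ℕ) :
    MeasurableSet (mkB G ρ f D n) := by
  induction n with
  | zero => exact hD
  | succ n ih =>
    have hfn : ∀ b : Bool, MeasurableSet {p | f p n = b} := fun b =>
      ((measurable_pi_apply n).comp hf) (measurableSet_singleton b)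
    have hA : MeasurableSet (mkB G ρ f D n ∩ {p | f p n = false}) := ih.inter (hfn false)
    have hr : MRel G (fun p q => ρ p q ∧ (q ∈ mkB G ρ f D n ∧ f q n = false)) := by
      refine ⟨fun p q h => hρ.orb p q h.1, fun g => ?_⟩
      exact (hρ.meas g).inter (hF.measurable_smul g hA)
    have hfin := hr.measurable_finite hF
    have hinf : MeasurableSet {p : Z | {g : G | ρ p (g • p) ∧ g • p ∈ mkB G ρ f D n ∧
        f (g • p) n = false}.Infinite} := hfin.compl
    exact ih.inter ((((hfn false).inter hinf)).union ((hfn true).inter hinf.compl))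

theorem mkB_sub {ρ : Z → Z → Prop} {f : Z → ℕ → Bool} {D : Set Z} (n : ℕ) :
    mkB G ρ f D (n + 1) ⊆ mkB G ρ f D n := fun _ h => h.1

theorem mkB_anti {ρ : Z → Z → Prop} {f : Z → ℕ → Bool} {D : Set Z} :
    Antitone (mkB G ρ f D) := antitone_nat_of_succ_le fun n => mkB_sub n

/-- the index set of points of the class in `A` -/
theorem inf_iff {ρ : Z → Z → Prop} (he : Equivalence ρ) (hor : ∀ p q, ρ p q → ∃ g : G, q = g • p)
    {P : Z → Prop} {p q : Z}
    (h : ρ p q) : {g : G | ρ p (g • p) ∧ P (g • p)}.Infinite →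
      {g : G | ρ q (g • q) ∧ P (g • q)}.Infinite := by
  intro hp
  obtain ⟨a, ha⟩ := hor _ _ h
  have hinj : Function.Injective (fun g : G => g * a⁻¹) := mul_left_injective _
  refine (hp.image hinj.injOn).mono ?_
  rintro _ ⟨g, ⟨h1, h2⟩, rfl⟩
  have e : (g * a⁻¹) • q = g • p := by rw [ha, mul_smul, inv_smul_smul]
  simp only [Set.mem_setOf_eq, e]
  exact ⟨he.trans (he.symm h) h1, h2⟩

theorem mkB_inf {ρ : Z → Z → Prop} (hor : ∀ p q, ρ p q → ∃ g : G, q = g • p)
    (he : Equivalence ρ) {f : Z → ℕ → Bool}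
    {D : Set Z} (hinv : ∀ p q, ρ p q → p ∈ D → q ∈ D)
    (hinf : ∀ p ∈ D, {g : G | ρ p (g • p)}.Infinite) (n : ℕ) {p : Z} (hp : p ∈ D) :
    {g : G | ρ p (g • p) ∧ g • p ∈ mkB G ρ f D n}.Infinite := by
  induction n with
  | zero =>
    refine (hinf p hp).mono fun g hg => ⟨hg, hinv _ _ hg hp⟩
  | succ n ih =>
    by_cases h : {g : G | ρ p (g • p) ∧ (g • p ∈ mkB G ρ f D n ∧ f (g • p) n = false)}.Infinite
    · refine h.mono ?_
      rintro g ⟨h1, h2, h3⟩
      refine ⟨h1, h2, Or.inl ⟨h3, ?_⟩⟩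
      exact inf_iff (P := fun x => x ∈ mkB G ρ f D n ∧ f x n = false) he hor h1 h
    · have h' : {g : G | ρ p (g • p) ∧ (g • p ∈ mkB G ρ f D n ∧ f (g • p) n = false)}.Finite :=
        Set.not_infinite.mp h
      refine (ih.diff h').mono ?_
      rintro g ⟨⟨h1, h2⟩, h3⟩
      have h4 : f (g • p) n = true := by
        by_contra h5
        exact h3 ⟨h1, h2, by simpa using h5⟩
      refine ⟨h1, h2, Or.inr ⟨h4, fun h6 => h ?_⟩⟩
      exact inf_iff (P := fun x => x ∈ mkB G ρ f D n ∧ f x n = false) he hor (he.symm h1) h6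

theorem mkB_eq {ρ : Z → Z → Prop} (hor : ∀ p q, ρ p q → ∃ g : G, q = g • p)
    (he : Equivalence ρ) {f : Z → ℕ → Bool} (hf : Function.Injective f)
    {D : Set Z} {p q : Z} (hp : ∀ n, p ∈ mkB G ρ f D n) (hq : ∀ n, q ∈ mkB G ρ f D n)
    (h : ρ p q) : p = q := by
  apply hf
  funext n
  have h1 := (hp (n + 1)).2
  have h2 := (hq (n + 1)).2
  have hiff1 := inf_iff (G := G) (P := fun x => x ∈ mkB G ρ f D n ∧ f x n = false) he hor h
  have hiff2 := inf_iff (G := G) (P := fun x => x ∈ mkB G ρ f D n ∧ f x n = false) he hor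
    (he.symm h)
  rcases h1 with ⟨a1, b1⟩ | ⟨a1, b1⟩ <;> rcases h2 with ⟨a2, b2⟩ | ⟨a2, b2⟩
  · rw [a1, a2]
  · exact absurd (hiff1 b1) b2
  · exact absurd (hiff2 b2) b1
  · rw [a1, a2]

theorem marker [StandardBorelSpace Z] {ν : Measure Z} [IsFiniteMeasure ν]
    (hF : FreeAct G Z ν) {ρ : Z → Z → Prop} (hρ : MRel G ρ) (he : Equivalence ρ)
    {D : Set Z} (hD : MeasurableSet D) (hinv : ∀ p q, ρ p q → p ∈ D → q ∈ D)
    (hinf : ∀ p ∈ D, {g : G | ρ p (g • p)}.Infinite) {η : ENNReal} (hη : η ≠ 0) :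
    ∃ B ⊆ D, MeasurableSet B ∧ ν B ≤ η ∧ ∀ p ∈ D, ∃ q ∈ B, ρ p q := by
  classical
  obtain ⟨f, fm, fi⟩ := MeasurableSpace.measurable_injection_nat_bool_of_countablySeparated Z
  have hm : ∀ n, MeasurableSet (mkB G ρ f D n) := mkB_meas hF hρ fm hD
  set T : Set Z := ⋂ n, mkB G ρ f D n with hT
  have hTm : MeasurableSet T := MeasurableSet.iInter hm
  have hTD : T ⊆ D := fun p hp => (Set.mem_iInter.mp hp 0 : p ∈ mkB G ρ f D 0)
  -- translates
  have hdisj : Pairwise (Function.onFun Disjoint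
      (fun g : G => (fun p : Z => g⁻¹ • p) ⁻¹' (T ∩ {p | ρ p (g • p)}))) := by
    intro g h hgh
    rw [Function.onFun, Set.disjoint_left]
    intro x hx1 hx2
    simp only [Set.mem_preimage, Set.mem_inter_iff, Set.mem_setOf_eq, smul_inv_smul] at hx1 hx2
    have hxy : ρ (g⁻¹ • x) (h⁻¹ • x) := he.trans hx1.2 (he.symm hx2.2)
    have hxe : g⁻¹ • x = h⁻¹ • x :=
      mkB_eq hρ.orb he fi (fun n => Set.mem_iInter.mp hx1.1 n)
        (fun n => Set.mem_iInter.mp hx2.1 n) hxy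
    exact hgh (inv_injective (hF.eq_of_smul_eq hxe))
  have hms : ∀ g : G, MeasurableSet ((fun p : Z => g⁻¹ • p) ⁻¹' (T ∩ {p | ρ p (g • p)})) :=
    fun g => hF.measurable_smul _ (hTm.inter (hρ.meas g))
  have hsum : ∑' g : G, ν (T ∩ {p | ρ p (g • p)}) ≠ ⊤ := by
    have h1 : ∀ g : G, ν (T ∩ {p | ρ p (g • p)}) =
        ν ((fun p : Z => g⁻¹ • p) ⁻¹' (T ∩ {p | ρ p (g • p)})) := fun g =>
      ((hF.mp g⁻¹).measure_preimage (hTm.inter (hρ.meas g)).nullMeasurableSet).symm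
    rw [tsum_congr h1, ← measure_iUnion hdisj hms]
    exact measure_ne_top _ _
  have hTz : ν T = 0 := by
    have := ae_finite_setOf_mem hsum
    rw [ae_iff] at this
    refine measure_mono_null ?_ this
    intro p hp
    simp only [Set.mem_setOf_eq]
    refine (hinf p (hTD hp)).mono ?_
    intro g hg
    exact ⟨hp, hg⟩
  have htend := tendsto_measure_iInter_atTop (μ := ν) (s := mkB G ρ f D)
    (fun n => (hm n).nullMeasurableSet) mkB_anti ⟨0, measure_ne_top _ _⟩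
  rw [← hT, hTz] at htend
  obtain ⟨n, hn⟩ := (htend.eventually (gt_mem_nhds (pos_iff_ne_zero.mpr hη))).exists
  refine ⟨mkB G ρ f D n, mkB_anti (Nat.zero_le n), hm n, hn.le, fun p hp => ?_⟩
  obtain ⟨g, hg1, hg2⟩ := (mkB_inf (f := f) hρ.orb he hinv hinf n hp).nonempty
  exact ⟨g • p, hg2, hg1⟩

end Marker

end Crest.Agent.R191
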