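import Crest.Agent.R191.IIDefs

/-!
# Row 191, T12: the folding process
-/

set_option autoImplicit false
set_option linter.unusedSectionVars false

namespace Crest.Agent.R191

open MeasureTheory

/-! ### Recolouring -/

/-- recolour `c'` to `c` -/
def rc {α : Type*} [DecidableEq α] (c c' z : α) : α := if z = c' then c else z

theorem rc_self {α : Type*} [DecidableEq α] (c z : α) : rc c c z = z := by
  unfold rc; split_ifs with h
  · exact h.symm
  · rfl

theorem rc_left {α : Type*} [DecidableEq α] (c c' : α) : rc c c' c = c := by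
  unfold rc; split_ifs <;> rfl

theorem rc_right {α : Type*} [DecidableEq α] (c c' : α) : rc c c' c' = c := by
  unfold rc; simp

theorem card_image_rc {α : Type*} [DecidableEq α] {c c' : α} (h : c ≠ c') (s : Finset α)
    (hc : c ∈ s) (hc' : c' ∈ s) : (s.image (rc c c')).card + 1 = s.card := by
  have h1 : s.image (rc c c') = s.erase c' := by
    ext z
    rw [Finset.mem_image, Finset.mem_erase]
    constructor
    · rintro ⟨w, hw, rfl⟩
      unfold rc
      split_ifs with hwc
      · exact ⟨h, hc⟩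
      · exact ⟨hwc, hw⟩
    · rintro ⟨hz, hzs⟩
      refine ⟨z, hzs, ?_⟩
      unfold rc
      rw [if_neg hz]
  rw [h1, Finset.card_erase_of_mem hc']
  have : 0 < s.card := Finset.card_pos.2 ⟨c, hc⟩
  omega

/-! ### Integrability of cardinalities -/

section CardInt

variable {X : Type*} [MeasurableSpace X] {μ : Measure X} [IsProbabilityMeasure μ]

theorem integrable_card {α : Type*} [Fintype α] [DecidableEq α] (f : X → Finset α)
    (hf : ∀ l, MeasurableSet {x | l ∈ f x}) : Integrable (fun x => ((f x).card : ℝ)) μ := by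
  classical
  have h1 : (fun x => ((f x).card : ℝ)) = fun x => ∑ l : α, Set.indicator {x | l ∈ f x} (fun _ => (1 : ℝ)) x := by
    funext x
    simp only [Set.indicator_apply, Set.mem_ofPred_eq]
    rw [Finset.sum_ite_mem, Finset.univ_inter]
    simp
  rw [h1]
  apply integrable_finsetSum
  intro l _
  exact (integrable_const (1 : ℝ)).indicator (hf l)

end CardInt

section Fib

variable {X : Type*} [MeasurableSpace X]

theorem meas_eq_of_fib {α : Type*} [Finite α] {f g : X → α} (hf : ∀ l, MeasurableSet {x | f x = l})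
    (hg : ∀ l, MeasurableSet {x | g x = l}) : MeasurableSet {x | f x = g x} := by
  have : {x | f x = g x} = ⋃ l, ({x | f x = l} ∩ {x | g x = l}) := by
    ext x
    simp only [Set.mem_ofPred_eq, Set.mem_iUnion, Set.mem_inter_iff]
    exact ⟨fun h => ⟨f x, rfl, h.symm⟩, fun ⟨l, h1, h2⟩ => h1.trans h2.symm⟩
  rw [this]
  exact MeasurableSet.iUnion fun l => (hf l).inter (hg l)

theorem meas_fib_rc {α : Type*} [Finite α] [DecidableEq α] {f g h : X → α}
    (hf : ∀ l, MeasurableSet {x | f x = l})
    (hg : ∀ l, MeasurableSet {x | g x = l}) (hh : ∀ l, MeasurableSet {x | h x = l}) (l : α) :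
    MeasurableSet {x | rc (f x) (g x) (h x) = l} := by
  have : {x | rc (f x) (g x) (h x) = l}
      = ({x | h x = g x} ∩ {x | f x = l}) ∪ ({x | h x = g x}ᶜ ∩ {x | h x = l}) := by
    ext x
    simp only [rc, Set.mem_ofPred_eq, Set.mem_union, Set.mem_inter_iff, Set.mem_compl_iff]
    split_ifs with h1
    · simp [h1]
    · simp [h1]
  rw [this]
  have h1 := meas_eq_of_fib hh hg
  exact (h1.inter (hf l)).union (h1.compl.inter (hh l))

end Fib

section Steps

variable {X : Type*} [MulAction F2 X] [MeasurableSpace X] {μ : Measure X} [IsProbabilityMeasure μ]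
  {Ke Kp : Type} [Fintype Ke] [Fintype Kp] [DecidableEq Ke] [DecidableEq Kp]

/-- `a`, `a'` over `x` have a common `P`-neighbour -/
def CommonE (T : TG X Ke Kp) (L : Lab X Ke Kp) (a a' : Ie Ke) (x : X) : Prop :=
  ∃ j q q', (gam j)⁻¹ • x ∈ T.ed j q a ∧ (gam j)⁻¹ • x ∈ T.ed j q' a' ∧
    L.cp ((gam j)⁻¹ • x) q = L.cp ((gam j)⁻¹ • x) q'

/-- `q`, `q'` over `y` have a common `e`-neighbour -/
def CommonP (T : TG X Ke Kp) (L : Lab X Ke Kp) (q q' : Ip Kp) (y : X) : Prop :=
  ∃ j a a', y ∈ T.ed j q a ∧ y ∈ T.ed j q' a' ∧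
    L.ce (gam j • y) a = L.ce (gam j • y) a'

omit [IsProbabilityMeasure μ] [Fintype Ke] in
theorem measurableSet_commonE (hF : FreeAct F2 X μ) {T : TG X Ke Kp} (hT : T.Good)
    {L : Lab X Ke Kp} (hL : L.Good T) (a a' : Ie Ke) :
    MeasurableSet {x | CommonE T L a a' x} := by
  have : {x | CommonE T L a a' x} = ⋃ j, ⋃ q, ⋃ q',
      (fun x : X => (gam j)⁻¹ • x) ⁻¹' (T.ed j q a ∩ T.ed j q' a' ∩ {y | L.cp y q = L.cp y q'}) := by
    ext x
    simp only [CommonE, Set.mem_iUnion, Set.mem_preimage, Set.mem_inter_iff, Set.mem_ofPred_eq,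
      and_assoc]
  rw [this]
  refine MeasurableSet.iUnion fun j => MeasurableSet.iUnion fun q => MeasurableSet.iUnion fun q' => ?_
  apply (hF.mp (gam j)⁻¹).measurable
  exact ((hT.meas_ed j q a).inter (hT.meas_ed j q' a')).inter
    (meas_eq_of_fib (fun l => hL.meas_p q l) (fun l => hL.meas_p q' l))

omit [IsProbabilityMeasure μ] [Fintype Kp] in
theorem measurableSet_commonP (hF : FreeAct F2 X μ) {T : TG X Ke Kp} (hT : T.Good)
    {L : Lab X Ke Kp} (hL : L.Good T) (q q' : Ip Kp) :
    MeasurableSet {y | CommonP T L q q' y} := by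
  have : {y | CommonP T L q q' y} = ⋃ j, ⋃ a, ⋃ a',
      (T.ed j q a ∩ T.ed j q' a' ∩ (fun y : X => gam j • y) ⁻¹' {x | L.ce x a = L.ce x a'}) := by
    ext x
    simp only [CommonP, Set.mem_iUnion, Set.mem_preimage, Set.mem_inter_iff, Set.mem_ofPred_eq,
      and_assoc]
  rw [this]
  refine MeasurableSet.iUnion fun j => MeasurableSet.iUnion fun a => MeasurableSet.iUnion fun a' => ?_
  exact ((hT.meas_ed j q a).inter (hT.meas_ed j q' a')).inter
    ((hF.mp (gam j)).measurable
      (meas_eq_of_fib (fun l => hL.meas_e a l) (fun l => hL.meas_e a' l)))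

open Classical in
/-- e-step: for `x ∈ W` merge the class of `a'` into the class of `a` -/
noncomputable def stepE (L : Lab X Ke Kp) (W : Set X) (a a' : Ie Ke) : Lab X Ke Kp where
  ce := fun x s => if x ∈ W then rc (L.ce x a) (L.ce x a') (L.ce x s) else L.ce x s
  cp := L.cp

open Classical in
/-- P-step: for `y ∈ W` merge the class of `q'` into the class of `q` -/
noncomputable def stepP (L : Lab X Ke Kp) (W : Set X) (q q' : Ip Kp) : Lab X Ke Kp where
  ce := L.ce
  cp := fun y s => if y ∈ W then rc (L.cp y q) (L.cp y q') (L.cp y s) else L.cp y s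

omit [MulAction F2 X] [Fintype Kp] in
theorem stepE_good {T : TG X Ke Kp} {L : Lab X Ke Kp} (hL : L.Good T) {W : Set X}
    (hW : MeasurableSet W) (a a' : Ie Ke) : (stepE L W a a').Good T where
  meas_e := by
    intro s l
    have : {x | (stepE L W a a').ce x s = l}
        = (W ∩ {x | rc (L.ce x a) (L.ce x a') (L.ce x s) = l}) ∪ (Wᶜ ∩ {x | L.ce x s = l}) := by
      ext x
      simp only [stepE, Set.mem_ofPred_eq, Set.mem_union, Set.mem_inter_iff, Set.mem_compl_iff]
      split_ifs with h <;> simp [h]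
    rw [this]
    exact (hW.inter (meas_fib_rc (fun l => hL.meas_e a l) (fun l => hL.meas_e a' l)
      (fun l => hL.meas_e s l) l)).union (hW.compl.inter (hL.meas_e s l))
  meas_p := hL.meas_p
  abs_e := by
    intro k x hx
    simp only [stepE, hL.abs_e k x hx]
  abs_p := hL.abs_p

omit [MulAction F2 X] [Fintype Ke] in
theorem stepP_good {T : TG X Ke Kp} {L : Lab X Ke Kp} (hL : L.Good T) {W : Set X}
    (hW : MeasurableSet W) (q q' : Ip Kp) : (stepP L W q q').Good T where
  meas_p := by
    intro s l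
    have : {x | (stepP L W q q').cp x s = l}
        = (W ∩ {x | rc (L.cp x q) (L.cp x q') (L.cp x s) = l}) ∪ (Wᶜ ∩ {x | L.cp x s = l}) := by
      ext x
      simp only [stepP, Set.mem_ofPred_eq, Set.mem_union, Set.mem_inter_iff, Set.mem_compl_iff]
      split_ifs with h <;> simp [h]
    rw [this]
    exact (hW.inter (meas_fib_rc (fun l => hL.meas_p q l) (fun l => hL.meas_p q' l)
      (fun l => hL.meas_p s l) l)).union (hW.compl.inter (hL.meas_p s l))
  meas_e := hL.meas_e
  abs_p := by
    intro k x hx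
    simp only [stepP, hL.abs_p k x hx]
  abs_e := hL.abs_e

/-! ### the excess does not increase -/

omit [IsProbabilityMeasure μ] in
theorem mem_edSet {T : TG X Ke Kp} {L : Lab X Ke Kp} {j : Fin 3} {y : X} {l : Ip Kp × Ie Ke} :
    l ∈ edSet T L j y ↔ ∃ q a, y ∈ T.ed j q a ∧ L.cp y q = l.1 ∧ L.ce (gam j • y) a = l.2 := by
  classical
  unfold edSet
  rw [Finset.mem_image]
  constructor
  · rintro ⟨⟨q, a⟩, h1, h2⟩
    rw [Finset.mem_filter] at h1
    exact ⟨q, a, h1.2, by rw [← h2], by rw [← h2]⟩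
  · rintro ⟨q, a, h1, h2, h3⟩
    refine ⟨(q, a), ?_, ?_⟩
    · rw [Finset.mem_filter]; exact ⟨Finset.mem_univ _, h1⟩
    · rw [h2, h3]

theorem integrable_edSet (hF : FreeAct F2 X μ) {T : TG X Ke Kp} (hT : T.Good)
    {L : Lab X Ke Kp} (hL : L.Good T) (j : Fin 3) :
    Integrable (fun y => ((edSet T L j y).card : ℝ)) μ := by
  apply integrable_card
  intro l
  have : {y | l ∈ edSet T L j y} = ⋃ q, ⋃ a, (T.ed j q a ∩ {y | L.cp y q = l.1}
      ∩ (fun y : X => gam j • y) ⁻¹' {x | L.ce x a = l.2}) := by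
    ext y
    simp only [Set.mem_ofPred_eq, mem_edSet, Set.mem_iUnion, Set.mem_preimage, Set.mem_inter_iff,
      and_assoc]
  rw [this]
  refine MeasurableSet.iUnion fun q => MeasurableSet.iUnion fun a => ?_
  exact ((hT.meas_ed j q a).inter (hL.meas_p q l.1)).inter
    ((hF.mp (gam j)).measurable (hL.meas_e a l.2))

omit [MulAction F2 X] in
theorem integrable_nVe {T : TG X Ke Kp}
    {L : Lab X Ke Kp} (hL : L.Good T) :
    Integrable (fun x => (nVe L x : ℝ)) μ := by
  unfold nVe
  apply integrable_card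
  intro l
  have : {x | l ∈ Finset.univ.image (L.ce x)} = ⋃ a, {x | L.ce x a = l} := by
    ext x
    simp
  rw [this]
  exact MeasurableSet.iUnion fun a => hL.meas_e a l

omit [MulAction F2 X] in
theorem integrable_nVp {T : TG X Ke Kp}
    {L : Lab X Ke Kp} (hL : L.Good T) :
    Integrable (fun x => (nVp L x : ℝ)) μ := by
  unfold nVp
  apply integrable_card
  intro l
  have : {x | l ∈ Finset.univ.image (L.cp x)} = ⋃ a, {x | L.cp x a = l} := by
    ext x
    simp
  rw [this]
  exact MeasurableSet.iUnion fun a => hL.meas_p a l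

omit [IsProbabilityMeasure μ] in
theorem edSet_stepE {T : TG X Ke Kp} {L : Lab X Ke Kp} (W : Set X) (a a' : Ie Ke) (j : Fin 3) (x : X)
    (hx : x ∈ W) :
    edSet T (stepE L W a a') j ((gam j)⁻¹ • x)
      = (edSet T L j ((gam j)⁻¹ • x)).image (fun l => (l.1, rc (L.ce x a) (L.ce x a') l.2)) := by
  ext l
  rw [mem_edSet, Finset.mem_image]
  constructor
  · rintro ⟨q, s, h1, h2, h3⟩
    refine ⟨(L.cp ((gam j)⁻¹ • x) q, L.ce x s), ?_, ?_⟩
    · rw [mem_edSet]
      exact ⟨q, s, h1, rfl, by rw [smul_inv_smul]⟩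
    · rw [smul_inv_smul] at h3
      simp only [stepE, hx, if_true] at h2 h3
      exact Prod.ext h2 h3
  · rintro ⟨m, hm, rfl⟩
    rw [mem_edSet] at hm
    obtain ⟨q, s, h1, h2, h3⟩ := hm
    rw [smul_inv_smul] at h3
    refine ⟨q, s, h1, h2, ?_⟩
    rw [smul_inv_smul]
    simp only [stepE, hx, if_true, h3]

omit [IsProbabilityMeasure μ] in
theorem edSet_stepE' {T : TG X Ke Kp} {L : Lab X Ke Kp} (W : Set X) (a a' : Ie Ke) (j : Fin 3) (x : X)
    (hx : x ∉ W) :
    edSet T (stepE L W a a') j ((gam j)⁻¹ • x) = edSet T L j ((gam j)⁻¹ • x) := by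
  ext l
  rw [mem_edSet, mem_edSet, smul_inv_smul]
  simp only [stepE, hx, if_false]

omit [IsProbabilityMeasure μ] in
theorem edSet_stepP {T : TG X Ke Kp} {L : Lab X Ke Kp} (W : Set X) (q q' : Ip Kp) (j : Fin 3) (y : X)
    (hy : y ∈ W) :
    edSet T (stepP L W q q') j y
      = (edSet T L j y).image (fun l => (rc (L.cp y q) (L.cp y q') l.1, l.2)) := by
  ext l
  rw [mem_edSet, Finset.mem_image]
  constructor
  · rintro ⟨r, s, h1, h2, h3⟩
    refine ⟨(L.cp y r, L.ce (gam j • y) s), ?_, ?_⟩
    · rw [mem_edSet]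
      exact ⟨r, s, h1, rfl, rfl⟩
    · simp only [stepP, hy, if_true] at h2 h3
      exact Prod.ext h2 h3
  · rintro ⟨m, hm, rfl⟩
    rw [mem_edSet] at hm
    obtain ⟨r, s, h1, h2, h3⟩ := hm
    refine ⟨r, s, h1, ?_, h3⟩
    simp only [stepP, hy, if_true, h2]

omit [IsProbabilityMeasure μ] in
theorem edSet_stepP' {T : TG X Ke Kp} {L : Lab X Ke Kp} (W : Set X) (q q' : Ip Kp) (j : Fin 3) (y : X)
    (hy : y ∉ W) :
    edSet T (stepP L W q q') j y = edSet T L j y := by
  ext l
  rw [mem_edSet, mem_edSet]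
  simp only [stepP, hy, if_false]

omit [IsProbabilityMeasure μ] in
/-- pointwise inequality for an e-step -/
theorem pointE (T : TG X Ke Kp) (L : Lab X Ke Kp) (W : Set X) (a a' : Ie Ke)
    (hW : ∀ x ∈ W, CommonE T L a a' x) (x : X) :
    (∑ j : Fin 3, (edSet T (stepE L W a a') j ((gam j)⁻¹ • x)).card) + nVe L x
      ≤ (∑ j : Fin 3, (edSet T L j ((gam j)⁻¹ • x)).card) + nVe (stepE L W a a') x := by
  by_cases hx : x ∈ W
  · have himg : (Finset.univ.image ((stepE L W a a').ce x))
        = (Finset.univ.image (L.ce x)).image (rc (L.ce x a) (L.ce x a')) := by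
      rw [Finset.image_image]
      apply Finset.image_congr
      intro s _
      simp only [stepE, hx, if_true, Function.comp]
    have hle : ∀ j : Fin 3, (edSet T (stepE L W a a') j ((gam j)⁻¹ • x)).card
        ≤ (edSet T L j ((gam j)⁻¹ • x)).card := by
      intro j
      rw [edSet_stepE W a a' j x hx]
      exact Finset.card_image_le
    by_cases hc : L.ce x a = L.ce x a'
    · have hn : nVe (stepE L W a a') x = nVe L x := by
        unfold nVe
        rw [himg, hc]
        have : (rc (L.ce x a') (L.ce x a') : Ie Ke → Ie Ke) = id := by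
          funext z; exact rc_self _ z
        rw [this, Finset.image_id]
      rw [hn]
      have := Finset.sum_le_sum (fun j (_ : j ∈ (Finset.univ : Finset (Fin 3))) => hle j)
      omega
    · have hn : nVe (stepE L W a a') x + 1 = nVe L x := by
        unfold nVe
        rw [himg]
        apply card_image_rc hc
        · exact Finset.mem_image_of_mem _ (Finset.mem_univ _)
        · exact Finset.mem_image_of_mem _ (Finset.mem_univ _)
      obtain ⟨j, q, q', h1, h2, h3⟩ := hW x hx
      have hlt : (edSet T (stepE L W a a') j ((gam j)⁻¹ • x)).card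
          < (edSet T L j ((gam j)⁻¹ • x)).card := by
        rw [edSet_stepE W a a' j x hx]
        apply lt_of_le_of_ne Finset.card_image_le
        intro heq
        rw [Finset.card_image_iff] at heq
        have hm1 : (L.cp ((gam j)⁻¹ • x) q, L.ce x a) ∈ edSet T L j ((gam j)⁻¹ • x) := by
          rw [mem_edSet]; exact ⟨q, a, h1, rfl, by rw [smul_inv_smul]⟩
        have hm2 : (L.cp ((gam j)⁻¹ • x) q, L.ce x a') ∈ edSet T L j ((gam j)⁻¹ • x) := by
          rw [mem_edSet]; exact ⟨q', a', h2, h3.symm, by rw [smul_inv_smul]⟩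
        have := heq hm1 hm2 (by simp only [rc_left, rc_right])
        exact hc (congrArg Prod.snd this)
      have hslt := Finset.sum_lt_sum (fun j (_ : j ∈ (Finset.univ : Finset (Fin 3))) => hle j)
        ⟨j, Finset.mem_univ _, hlt⟩
      omega
  · have h1 : ∀ j : Fin 3, edSet T (stepE L W a a') j ((gam j)⁻¹ • x) = edSet T L j ((gam j)⁻¹ • x) :=
      fun j => edSet_stepE' W a a' j x hx
    have h2 : nVe (stepE L W a a') x = nVe L x := by
      unfold nVe
      simp only [stepE, hx, if_false]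
    simp only [h1, h2]
    exact le_rfl

omit [IsProbabilityMeasure μ] in
/-- pointwise inequality for a P-step -/
theorem pointP (T : TG X Ke Kp) (L : Lab X Ke Kp) (W : Set X) (q q' : Ip Kp)
    (hW : ∀ y ∈ W, CommonP T L q q' y) (y : X) :
    (∑ j : Fin 3, (edSet T (stepP L W q q') j y).card) + nVp L y
      ≤ (∑ j : Fin 3, (edSet T L j y).card) + nVp (stepP L W q q') y := by
  by_cases hy : y ∈ W
  · have himg : (Finset.univ.image ((stepP L W q q').cp y))
        = (Finset.univ.image (L.cp y)).image (rc (L.cp y q) (L.cp y q')) := by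
      rw [Finset.image_image]
      apply Finset.image_congr
      intro s _
      simp only [stepP, hy, if_true, Function.comp]
    have hle : ∀ j : Fin 3, (edSet T (stepP L W q q') j y).card
        ≤ (edSet T L j y).card := by
      intro j
      rw [edSet_stepP W q q' j y hy]
      exact Finset.card_image_le
    by_cases hc : L.cp y q = L.cp y q'
    · have hn : nVp (stepP L W q q') y = nVp L y := by
        unfold nVp
        rw [himg, hc]
        have : (rc (L.cp y q') (L.cp y q') : Ip Kp → Ip Kp) = id := by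
          funext z; exact rc_self _ z
        rw [this, Finset.image_id]
      rw [hn]
      have := Finset.sum_le_sum (fun j (_ : j ∈ (Finset.univ : Finset (Fin 3))) => hle j)
      omega
    · have hn : nVp (stepP L W q q') y + 1 = nVp L y := by
        unfold nVp
        rw [himg]
        apply card_image_rc hc
        · exact Finset.mem_image_of_mem _ (Finset.mem_univ _)
        · exact Finset.mem_image_of_mem _ (Finset.mem_univ _)
      obtain ⟨j, a, a', h1, h2, h3⟩ := hW y hy
      have hlt : (edSet T (stepP L W q q') j y).card < (edSet T L j y).card := by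
        rw [edSet_stepP W q q' j y hy]
        apply lt_of_le_of_ne Finset.card_image_le
        intro heq
        rw [Finset.card_image_iff] at heq
        have hm1 : (L.cp y q, L.ce (gam j • y) a) ∈ edSet T L j y := by
          rw [mem_edSet]; exact ⟨q, a, h1, rfl, rfl⟩
        have hm2 : (L.cp y q', L.ce (gam j • y) a) ∈ edSet T L j y := by
          rw [mem_edSet]; exact ⟨q', a', h2, rfl, h3.symm⟩
        have := heq hm1 hm2 (by simp only [rc_left, rc_right])
        exact hc (congrArg Prod.fst this)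
      have hslt := Finset.sum_lt_sum (fun j (_ : j ∈ (Finset.univ : Finset (Fin 3))) => hle j)
        ⟨j, Finset.mem_univ _, hlt⟩
      omega
  · have h1 : ∀ j : Fin 3, edSet T (stepP L W q q') j y = edSet T L j y :=
      fun j => edSet_stepP' W q q' j y hy
    have h2 : nVp (stepP L W q q') y = nVp L y := by
      unfold nVp
      simp only [stepP, hy, if_false]
    simp only [h1, h2]
    exact le_rfl

theorem integral_edSet_eq (hF : FreeAct F2 X μ) (T : TG X Ke Kp) (L : Lab X Ke Kp) (j : Fin 3) :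
    ∫ y, ((edSet T L j y).card : ℝ) ∂μ = ∫ x, ((edSet T L j ((gam j)⁻¹ • x)).card : ℝ) ∂μ := by
  have hmp := hF.mp (gam j)⁻¹
  let e : MeasurableEquiv X X :=
      { toFun := fun x => (gam j)⁻¹ • x
        invFun := fun x => gam j • x
        left_inv := fun x => smul_inv_smul _ _
        right_inv := fun x => inv_smul_smul _ _
        measurable_toFun := (hF.mp (gam j)⁻¹).measurable
        measurable_invFun := (hF.mp (gam j)).measurable }
  have hme : MeasurableEmbedding (fun x : X => (gam j)⁻¹ • x) := e.measurableEmbedding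
  rw [hmp.integral_comp hme (fun y => ((edSet T L j y).card : ℝ))]

theorem exc_stepE (hF : FreeAct F2 X μ) {T : TG X Ke Kp} (hT : T.Good) {L : Lab X Ke Kp}
    (hL : L.Good T) {W : Set X} (hWm : MeasurableSet W) (a a' : Ie Ke)
    (hW : ∀ x ∈ W, CommonE T L a a' x) : Exc μ T (stepE L W a a') ≤ Exc μ T L := by
  have hL' := stepE_good hL hWm a a'
  have hp : ∀ y, nVp (stepE L W a a') y = nVp L y := fun y => rfl
  unfold Exc
  simp only [hp]
  have hint : ∀ (L : Lab X Ke Kp), L.Good T → ∀ j, Integrable (fun x => ((edSet T L j ((gam j)⁻¹ • x)).card : ℝ)) μ := by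
    intro L hL j
    exact (hF.mp (gam j)⁻¹).integrable_comp_of_integrable (integrable_edSet hF hT hL j)
  have h1 : ∀ (L : Lab X Ke Kp), L.Good T → (∑ j : Fin 3, ∫ y, ((edSet T L j y).card : ℝ) ∂μ)
      = ∫ x, ∑ j : Fin 3, ((edSet T L j ((gam j)⁻¹ • x)).card : ℝ) ∂μ := by
    intro L hL
    rw [integral_finsetSum _ (fun j _ => hint L hL j)]
    exact Finset.sum_congr rfl fun j _ => integral_edSet_eq hF T L j
  rw [h1 _ hL', h1 _ hL]
  have h2 : (∫ x, ∑ j : Fin 3, ((edSet T (stepE L W a a') j ((gam j)⁻¹ • x)).card : ℝ) ∂μ)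
      + ∫ x, (nVe L x : ℝ) ∂μ
      ≤ (∫ x, ∑ j : Fin 3, ((edSet T L j ((gam j)⁻¹ • x)).card : ℝ) ∂μ)
      + ∫ x, (nVe (stepE L W a a') x : ℝ) ∂μ := by
    rw [← integral_add (integrable_finsetSum _ fun j _ => hint _ hL' j) (integrable_nVe hL),
      ← integral_add (integrable_finsetSum _ fun j _ => hint _ hL j) (integrable_nVe hL')]
    apply integral_mono
    · exact (integrable_finsetSum _ fun j _ => hint _ hL' j).add (integrable_nVe hL)
    · exact (integrable_finsetSum _ fun j _ => hint _ hL j).add (integrable_nVe hL')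
    · intro x
      have := pointE T L W a a' hW x
      simp only
      exact_mod_cast this
  linarith

theorem exc_stepP (hF : FreeAct F2 X μ) {T : TG X Ke Kp} (hT : T.Good) {L : Lab X Ke Kp}
    (hL : L.Good T) {W : Set X} (hWm : MeasurableSet W) (q q' : Ip Kp)
    (hW : ∀ y ∈ W, CommonP T L q q' y) : Exc μ T (stepP L W q q') ≤ Exc μ T L := by
  have hL' := stepP_good hL hWm q q'
  have hp : ∀ y, nVe (stepP L W q q') y = nVe L y := fun y => rfl
  unfold Exc
  simp only [hp]
  rw [← integral_finsetSum _ (fun j _ => integrable_edSet hF hT hL' j),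
    ← integral_finsetSum _ (fun j _ => integrable_edSet hF hT hL j)]
  have h2 : (∫ y, ∑ j : Fin 3, ((edSet T (stepP L W q q') j y).card : ℝ) ∂μ)
      + ∫ x, (nVp L x : ℝ) ∂μ
      ≤ (∫ y, ∑ j : Fin 3, ((edSet T L j y).card : ℝ) ∂μ)
      + ∫ x, (nVp (stepP L W q q') x : ℝ) ∂μ := by
    rw [← integral_add (integrable_finsetSum _ fun j _ => integrable_edSet hF hT hL' j) (integrable_nVp hL),
      ← integral_add (integrable_finsetSum _ fun j _ => integrable_edSet hF hT hL j) (integrable_nVp hL')]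
    apply integral_mono
    · exact (integrable_finsetSum _ fun j _ => integrable_edSet hF hT hL' j).add (integrable_nVp hL)
    · exact (integrable_finsetSum _ fun j _ => integrable_edSet hF hT hL j).add (integrable_nVp hL')
    · intro x
      have := pointP T L W q q' hW x
      simp only
      exact_mod_cast this
  linarith

/-! ### The sequence -/

/-- elementary steps -/
abbrev Step (Ke Kp : Type) := (Fin 4 × Ie Ke × Ie Ke) ⊕ (Fin 4 × Ip Kp × Ip Kp)

/-- apply an elementary step -/
noncomputable def applyStep (T : TG X Ke Kp) (U : Fin 4 → Set X) (L : Lab X Ke Kp) :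
    Step Ke Kp → Lab X Ke Kp
  | Sum.inl (i, a, a') => stepE L (U i ∩ {x | CommonE T L a a' x}) a a'
  | Sum.inr (i, q, q') => stepP L (U i ∩ {y | CommonP T L q q' y}) q q'

/-- the schedule -/
noncomputable def sched (Ke Kp : Type) [Fintype Ke] [Fintype Kp] (n : ℕ) : Step Ke Kp :=
  (Fintype.equivFin (Step Ke Kp)).symm ⟨n % Fintype.card (Step Ke Kp), Nat.mod_lt _ (Fintype.card_pos_iff.2
    ⟨Sum.inr (0, Sum.inl 0, Sum.inl 0)⟩)⟩

theorem sched_often (Ke Kp : Type) [Fintype Ke] [Fintype Kp] (s : Step Ke Kp) (n : ℕ) :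
    ∃ m, n ≤ m ∧ sched Ke Kp m = s := by
  set N := Fintype.card (Step Ke Kp) with hN
  have hNpos : 0 < N := Fintype.card_pos_iff.2 ⟨s⟩
  set i := Fintype.equivFin (Step Ke Kp) s with hi
  refine ⟨N * n + i, ?_, ?_⟩
  · have : n ≤ N * n := Nat.le_mul_of_pos_left n hNpos
    omega
  · unfold sched
    have h1 : (N * n + (i : ℕ)) % Fintype.card (Step Ke Kp) = i := by
      show (N * n + (i : ℕ)) % N = i
      rw [Nat.mul_add_mod, Nat.mod_eq_of_lt i.2]
    have h2 : (⟨(N * n + (i : ℕ)) % Fintype.card (Step Ke Kp), Nat.mod_lt _ (Fintype.card_pos_iff.2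
      ⟨Sum.inr (0, Sum.inl 0, Sum.inl 0)⟩)⟩ : Fin (Fintype.card (Step Ke Kp))) = i := Fin.ext h1
    rw [h2, hi, Equiv.symm_apply_apply]

/-- the process -/
noncomputable def proc (T : TG X Ke Kp) (U : Fin 4 → Set X) (L₀ : Lab X Ke Kp) : ℕ → Lab X Ke Kp
  | 0 => L₀
  | n + 1 => applyStep T U (proc T U L₀ n) (sched Ke Kp n)

theorem process (hF : FreeAct F2 X μ) {T : TG X Ke Kp} (hT : T.Good) {L₀ : Lab X Ke Kp}
    (hL₀ : L₀.Good T) {U : Fin 4 → Set X} (hU : ∀ i, MeasurableSet (U i))
    (hUμ : ∀ i, μ (U i) ≤ 1 / 4) (hUc : ⋃ i, U i = Set.univ) :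
    ∃ L : ℕ → Lab X Ke Kp, L 0 = L₀ ∧ (∀ n, (L n).Good T) ∧
      (∀ n, Exc μ T (L (n + 1)) ≤ Exc μ T (L n)) ∧
      (∀ n, μ ((L (n + 1)).S \ (L n).S) ≤ 1 / 4) ∧
      (∀ n x a a', (L n).ce x a = (L n).ce x a' → (L (n + 1)).ce x a = (L (n + 1)).ce x a') ∧
      (∀ n y q q', (L n).cp y q = (L n).cp y q' → (L (n + 1)).cp y q = (L (n + 1)).cp y q') ∧
      (∀ n x a a' j q q', (gam j)⁻¹ • x ∈ T.ed j q a → (gam j)⁻¹ • x ∈ T.ed j q' a' →
        (L n).cp ((gam j)⁻¹ • x) q = (L n).cp ((gam j)⁻¹ • x) q' →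
        ∃ m, (L m).ce x a = (L m).ce x a') ∧
      (∀ n y q q' j a a', y ∈ T.ed j q a → y ∈ T.ed j q' a' →
        (L n).ce (gam j • y) a = (L n).ce (gam j • y) a' →
        ∃ m, (L m).cp y q = (L m).cp y q') := by
  classical
  set L := proc T U L₀ with hLdef
  have hsucc : ∀ n, L (n + 1) = applyStep T U (L n) (sched Ke Kp n) := fun n => rfl
  have hgood : ∀ n, (L n).Good T := by
    intro n
    induction n with
    | zero => exact hL₀
    | succ n ih =>
      rw [hsucc]
      rcases sched Ke Kp n with ⟨i, a, a'⟩ | ⟨i, q, q'⟩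
      · exact stepE_good ih ((hU i).inter (measurableSet_commonE hF hT ih a a')) a a'
      · exact stepP_good ih ((hU i).inter (measurableSet_commonP hF hT ih q q')) q q'
  have hmonoE : ∀ n x a a', (L n).ce x a = (L n).ce x a' → (L (n + 1)).ce x a = (L (n + 1)).ce x a' := by
    intro n x a a' h
    rw [hsucc]
    rcases sched Ke Kp n with ⟨i, b, b'⟩ | ⟨i, q, q'⟩
    · simp only [applyStep, stepE]
      split_ifs
      · rw [h]
      · exact h
    · exact h
  have hmonoP : ∀ n y q q', (L n).cp y q = (L n).cp y q' → (L (n + 1)).cp y q = (L (n + 1)).cp y q' := by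
    intro n y q q' h
    rw [hsucc]
    rcases sched Ke Kp n with ⟨i, b, b'⟩ | ⟨i, r, r'⟩
    · exact h
    · simp only [applyStep, stepP]
      split_ifs
      · rw [h]
      · exact h
  have hmonoE' : ∀ n m x a a', n ≤ m → (L n).ce x a = (L n).ce x a' → (L m).ce x a = (L m).ce x a' := by
    intro n m x a a' hnm h
    induction m, hnm using Nat.le_induction with
    | base => exact h
    | succ m _ ih => exact hmonoE m x a a' ih
  have hmonoP' : ∀ n m y q q', n ≤ m → (L n).cp y q = (L n).cp y q' → (L m).cp y q = (L m).cp y q' := by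
    intro n m y q q' hnm h
    induction m, hnm using Nat.le_induction with
    | base => exact h
    | succ m _ ih => exact hmonoP m y q q' ih
  refine ⟨L, rfl, hgood, ?_, ?_, hmonoE, hmonoP, ?_, ?_⟩
  · intro n
    rw [hsucc]
    rcases sched Ke Kp n with ⟨i, a, a'⟩ | ⟨i, q, q'⟩
    · exact exc_stepE hF hT (hgood n) ((hU i).inter (measurableSet_commonE hF hT (hgood n) a a')) a a'
        (fun x hx => hx.2)
    · exact exc_stepP hF hT (hgood n) ((hU i).inter (measurableSet_commonP hF hT (hgood n) q q')) q q'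
        (fun x hx => hx.2)
  · intro n
    rw [hsucc]
    rcases sched Ke Kp n with ⟨i, a, a'⟩ | ⟨i, q, q'⟩
    · refine (measure_mono ?_).trans (hUμ i)
      rintro x ⟨hx1, hx2⟩
      by_contra hxU
      apply hx2
      simp only [Lab.S, Set.mem_ofPred_eq, applyStep, stepE] at hx1 ⊢
      have : x ∉ U i ∩ {x | CommonE T (L n) a a' x} := fun h => hxU h.1
      simpa only [this, if_false] using hx1
    · have : (applyStep T U (L n) (Sum.inr (i, q, q'))).S \ (L n).S = ∅ := by
        simp only [applyStep, stepP, Lab.S, Set.sdiff_self]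
      rw [this, measure_empty]
      exact zero_le
  · intro n x a a' j q q' h1 h2 h3
    obtain ⟨i, hi⟩ : ∃ i, x ∈ U i := by
      have : x ∈ ⋃ i, U i := by rw [hUc]; exact Set.mem_univ _
      exact Set.mem_iUnion.1 this
    obtain ⟨m, hnm, hm⟩ := sched_often Ke Kp (Sum.inl (i, a, a')) n
    refine ⟨m + 1, ?_⟩
    rw [hsucc, hm]
    have hW : x ∈ U i ∩ {x | CommonE T (L m) a a' x} :=
      ⟨hi, j, q, q', h1, h2, hmonoP' n m _ q q' hnm h3⟩
    simp only [applyStep, stepE, hW, if_true, rc_left, rc_right]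
  · intro n y q q' j a a' h1 h2 h3
    obtain ⟨i, hi⟩ : ∃ i, y ∈ U i := by
      have : y ∈ ⋃ i, U i := by rw [hUc]; exact Set.mem_univ _
      exact Set.mem_iUnion.1 this
    obtain ⟨m, hnm, hm⟩ := sched_often Ke Kp (Sum.inr (i, q, q')) n
    refine ⟨m + 1, ?_⟩
    rw [hsucc, hm]
    have hW : y ∈ U i ∩ {y | CommonP T (L m) q q' y} :=
      ⟨hi, j, a, a', h1, h2, hmonoE' n m _ a a' hnm h3⟩
    simp only [applyStep, stepP, hW, if_true, rc_left, rc_right]

end Steps

end Crest.Agent.R191
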