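import Crest.Agent.R191.Defs
import Crest.Agent.R191.IIDefs
import Crest.Agent.R191.KeyIneq
import Crest.Agent.R191.Process
import Crest.Agent.R191.Folded
import Crest.Agent.R191.BuildTG

/-!
# Row 191 (S0291), T15 : assembly of Theorem II (helper111)
-/

set_option autoImplicit false

open MeasureTheory

namespace Crest.Agent.R191

/-- a sequence starting at `0`, with jumps at most `1/4` and tending to `1`, visits `[1/4, 1/2]` -/
lemma exists_window {u : ℕ → ℝ} (h0 : u 0 = 0) (hjump : ∀ n, u (n + 1) ≤ u n + 1 / 4)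
    (hlim : ∃ n, 1 / 4 ≤ u n) : ∃ n, 1 / 4 ≤ u n ∧ u n ≤ 1 / 2 := by
  classical
  refine ⟨Nat.find hlim, Nat.find_spec hlim, ?_⟩
  obtain ⟨m, hm⟩ : ∃ m, Nat.find hlim = m + 1 := by
    refine Nat.exists_eq_succ_of_ne_zero (fun h => ?_)
    have := Nat.find_spec hlim
    rw [h, h0] at this
    norm_num at this
  have h1 : ¬ 1 / 4 ≤ u m := Nat.find_min hlim (by omega)
  have := hjump m
  rw [hm]
  linarith

/-- T15 `PartII.lean` : assembly of Theorem II. -/
theorem partII {X : Type*} [MulAction F2 X] [MeasurableSpace X] {μ : Measure X}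
    [IsProbabilityMeasure μ] (hF : FreeAct F2 X μ)
    (hgap : ∀ S : Set X, MeasurableSet S → 1 / 100 * (μ.real S * (1 - μ.real S)) ≤
      μ.real S - μ.real {y | y ∈ S ∧ la • y ∈ S ∧ lb • y ∈ S})
    {U : Fin 4 → Set X} (hU : ∀ i, MeasurableSet (U i))
    (hUμ : ∀ i, μ (U i) ≤ 1 / 4) (hUc : ⋃ i, U i = Set.univ)
    {Ψ : Gr F2 X} (hΨ : Ψ.Meas) (hfin : Ψ.FinSupp)
    (hgen : ∀ x : X, Gen (OR EF) Ψ x (la • x)) :
    ENNReal.ofReal (1 / 1000) ≤ Ψ.cost μ := by
  by_contra hcon
  rw [not_le] at hcon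
  have hcost : Ψ.cost μ ≠ ⊤ := ne_top_of_lt hcon
  have hκ : (Ψ.cost μ).toReal < 1 / 1000 := by
    have := (ENNReal.toReal_lt_toReal hcost ENNReal.ofReal_ne_top).2 hcon
    rwa [ENNReal.toReal_ofReal (by norm_num)] at this
  obtain ⟨Ke, Kp, iKe, iKp, dKe, dKp, T, L₀, hT, hL₀, hS0, hExc0, hconn⟩ :=
    build hF hΨ hfin hcost hgen
  obtain ⟨L, hL0, hLG, hdec, hjump, hmce, hmcp, hfe, hfp⟩ := process hF hT hL₀ hU hUμ hUc
  -- monotonicity
  have hce : ∀ n m, n ≤ m → ∀ x a a', (L n).ce x a = (L n).ce x a' →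
      (L m).ce x a = (L m).ce x a' := by
    intro n m hnm
    induction m, hnm using Nat.le_induction with
    | base => intro x a a' h; exact h
    | succ m _ ih => intro x a a' h; exact hmce m x a a' (ih x a a' h)
  have hcp : ∀ n m, n ≤ m → ∀ y q q', (L n).cp y q = (L n).cp y q' →
      (L m).cp y q = (L m).cp y q' := by
    intro n m hnm
    induction m, hnm using Nat.le_induction with
    | base => intro x a a' h; exact h
    | succ m _ ih => intro x a a' h; exact hmcp m x a a' (ih x a a' h)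
  -- the limit relations
  have hfold : ∀ x : X, ∃ n, (L n).ce x (Sum.inl true) = (L n).ce x (Sum.inl false) := by
    intro x
    refine folded (X := X) hF.free T (fun x a a' => ∃ n, (L n).ce x a = (L n).ce x a')
      (fun y q q' => ∃ n, (L n).cp y q = (L n).cp y q') ?_ ?_ ?_ ?_ x _ _ (hconn x)
    · intro x
      refine ⟨fun a => ⟨0, rfl⟩, fun ⟨n, h⟩ => ⟨n, h.symm⟩, ?_⟩
      rintro a b c ⟨n, h⟩ ⟨m, h'⟩
      exact ⟨max n m, (hce n _ (le_max_left _ _) x _ _ h).trans
        (hce m _ (le_max_right _ _) x _ _ h')⟩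
    · intro y
      refine ⟨fun a => ⟨0, rfl⟩, fun ⟨n, h⟩ => ⟨n, h.symm⟩, ?_⟩
      rintro a b c ⟨n, h⟩ ⟨m, h'⟩
      exact ⟨max n m, (hcp n _ (le_max_left _ _) y _ _ h).trans
        (hcp m _ (le_max_right _ _) y _ _ h')⟩
    · rintro x a a' j q q' h1 h2 ⟨n, h⟩
      exact hfe n x a a' j q q' h1 h2 h
    · rintro y q q' j a a' h1 h2 ⟨n, h⟩
      exact hfp n y q q' j a a' h1 h2 h
  have hSmono : Monotone (fun n => (L n).S) :=
    monotone_nat_of_le_succ (fun n x hx => hmce n x _ _ hx)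
  have hSmeas : ∀ n, MeasurableSet (L n).S := fun n => Key.measurableSet_S (hLG n)
  have hSunion : ⋃ n, (L n).S = Set.univ := by
    rw [Set.eq_univ_iff_forall]
    intro x
    obtain ⟨n, hn⟩ := hfold x
    exact Set.mem_iUnion.2 ⟨n, hn⟩
  have hlim : Filter.Tendsto (fun n => μ (L n).S) Filter.atTop (nhds 1) := by
    have := tendsto_measure_iUnion_atTop (μ := μ) hSmono
    rwa [hSunion, measure_univ] at this
  have hlim' : ∃ n, 1 / 4 ≤ μ.real (L n).S := by
    obtain ⟨n, hn⟩ := (hlim.eventually (lt_mem_nhds (show (1 / 4 : ENNReal) < 1 by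
      rw [one_div]; exact ENNReal.inv_lt_one.2 (by norm_num)))).exists
    refine ⟨n, ?_⟩
    have h := ENNReal.toReal_mono (measure_ne_top μ _) hn.le
    have h4 : (1 / 4 : ENNReal).toReal = 1 / 4 := by simp
    rw [h4] at h
    exact h
  obtain ⟨n, hn1, hn2⟩ := exists_window (u := fun n => μ.real (L n).S)
    (by simp [hL0, hS0]) (by
      intro n
      have h1 : (L (n + 1)).S = (L n).S ∪ ((L (n + 1)).S \ (L n).S) :=
        (Set.union_sdiff_cancel (hSmono (Nat.le_succ n))).symm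
      have h2 : μ.real ((L (n + 1)).S \ (L n).S) ≤ 1 / 4 := by
        have h := ENNReal.toReal_mono (by simp) (hjump n)
        have h4 : (1 / 4 : ENNReal).toReal = 1 / 4 := by simp
        rw [h4] at h
        exact h
      calc μ.real (L (n + 1)).S ≤ μ.real (L n).S + μ.real ((L (n + 1)).S \ (L n).S) := by
            conv_lhs => rw [h1]
            exact measureReal_union_le _ _
        _ ≤ _ := by linarith) hlim'
  have hExc : ∀ n, Exc μ T (L n) ≤ 1 + (Ψ.cost μ).toReal := by
    intro n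
    induction n with
    | zero => rw [hL0]; exact hExc0
    | succ n ih => exact (hdec n).trans ih
  have hkey := key_ineq hF hT (hLG n)
  have hg := hgap _ (hSmeas n)
  have hE := hExc n

  nlinarith [mul_nonneg (sub_nonneg.2 hn1) (sub_nonneg.2 hn2)]

end Crest.Agent.R191
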