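import Crest.Agent.R191.Defs

/-!
# Row 191, task T7 (core): iteration and limit of the rounds of Theorem I

The inputs (measurability of generated relations, one round, the amalgam lemma) are hypotheses
here; `PartI.lean` plugs in the proved statements.
-/

set_option autoImplicit false

namespace Crest.Agent.R191

open MeasureTheory

namespace PartI

section Basic

variable {G Z : Type*} [Group G] [MulAction G Z]

theorem gen_equiv (S : Z → Z → Prop) (Φ : Gr G Z) : Equivalence (Gen S Φ) :=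
  Relation.EqvGen.is_equivalence _

theorem gen_of_rel {S : Z → Z → Prop} {Φ : Gr G Z} {p q : Z} (h : S p q) : Gen S Φ p q :=
  Relation.EqvGen.rel _ _ (Or.inl h)

theorem gen_of_step {S : Z → Z → Prop} {Φ : Gr G Z} {p q : Z} (h : Φ.Step p q) :
    Gen S Φ p q :=
  Relation.EqvGen.rel _ _ (Or.inr h)

/-- A generated relation is contained in any equivalence relation containing the generators. -/
theorem gen_le {S : Z → Z → Prop} {Φ : Gr G Z} {T : Z → Z → Prop} (hT : Equivalence T)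
    (h1 : ∀ p q, S p q → T p q) (h2 : ∀ p q, Φ.Step p q → T p q) {p q : Z}
    (h : Gen S Φ p q) : T p q := by
  induction h with
  | rel x y hxy => exact hxy.elim (h1 _ _) (h2 _ _)
  | refl x => exact hT.refl x
  | symm x y _ ih => exact hT.symm ih
  | trans x y z _ _ ih1 ih2 => exact hT.trans ih1 ih2

theorem or_equiv (H : Subgroup G) : Equivalence (OR (Z := Z) H) where
  refl p := ⟨1, H.one_mem, (one_smul G p).symm⟩
  symm := by
    rintro p q ⟨h, hh, rfl⟩
    exact ⟨h⁻¹, H.inv_mem hh, (inv_smul_smul h p).symm⟩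
  trans := by
    rintro p q s ⟨h, hh, rfl⟩ ⟨k, hk, rfl⟩
    exact ⟨k * h, H.mul_mem hk hh, (mul_smul k h p).symm⟩

theorem or_mono {H K : Subgroup G} (hHK : H ≤ K) {p q : Z} (h : OR H p q) : OR K p q := by
  obtain ⟨g, hg, rfl⟩ := h
  exact ⟨g, hHK hg, rfl⟩

theorem step_or {Φ : Gr G Z} {H : Subgroup G} (hΦ : Φ.SuppIn H) {p q : Z}
    (h : Φ.Step p q) : OR H p q := by
  obtain ⟨g, hg, rfl⟩ := h
  refine ⟨g, ?_, rfl⟩
  by_contra hgH
  have := hΦ g hgH
  rw [this] at hg
  exact hg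

theorem step_mono {Φ Φ' : Gr G Z} (hΦ : ∀ g, Φ g ⊆ Φ' g) {p q : Z}
    (h : Φ.Step p q) : Φ'.Step p q := by
  obtain ⟨g, hg, rfl⟩ := h
  exact ⟨g, hΦ g hg, rfl⟩

theorem gen_mono {S S' : Z → Z → Prop} {Φ Φ' : Gr G Z}
    (h1 : ∀ p q, S p q → Gen S' Φ' p q) (h2 : ∀ p q, Φ.Step p q → Gen S' Φ' p q) {p q : Z}
    (h : Gen S Φ p q) : Gen S' Φ' p q :=
  gen_le (gen_equiv _ _) h1 h2 h

end Basic

section Main

variable {G Z : Type*} [Group G] [MulAction G Z] [MeasurableSpace Z]

/-- State of the iteration. -/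
structure St (B C : Subgroup G) (A : Set Z) where
  b : Z → Z → Prop
  w : Z → Z → Prop
  J : Gr G Z
  hb : MRel G b
  hbe : Equivalence b
  hbB : ∀ p q, b p q → OR B p q
  hbA : ∀ p q, ORon (B ⊓ C) A p q → b p q
  hw : MRel G w
  hwe : Equivalence w
  hwC : ∀ p q, w p q → OR C p q
  hwA : ∀ p q, ORon C A p q → w p q
  hJ : J.Meas
  hJw : ∀ p q, w p q ↔ Gen (fun p q => ORon C A p q ∨ (b p q ∧ w p q)) J p q

/-- `s'` is obtained from `s` by one round with error `η`, with added graphing `M`. -/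
structure Rd (ν : Measure Z) {B C : Subgroup G} {A : Set Z} (η : ENNReal)
    (s s' : St B C A) (M : Gr G Z) : Prop where
  hMm : M.Meas
  hMs : M.SuppIn (B ⊓ C)
  hww : ∀ p q, s.w p q → s'.w p q
  hbw : ∀ p q, s.b p q → OR C p q → s'.w p q
  hwb : ∀ p q, OR B p q → s'.w p q → s'.b p q
  hbb : ∀ p q, s'.b p q ↔ Gen s.b M p q
  hcost : M.cost ν + s'.J.cost ν ≤ s.J.cost ν + η

/-- Core of Theorem I, with the inputs as hypotheses. -/
theorem core {ν : Measure Z} {B C : Subgroup G} {A : Set Z}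
    (hMgen : ∀ {S : Z → Z → Prop} (_ : MRel G S) {Φ : Gr G Z} (_ : Φ.Meas), MRel G (Gen S Φ))
    (hMORon : ∀ H : Subgroup G, MRel G (R191.ORon (Z := Z) H A))
    (hround : ∀ {b w : Z → Z → Prop} (_ : MRel G b) (_ : Equivalence b)
      (_ : ∀ p q, b p q → OR B p q) (_ : ∀ p q, ORon (B ⊓ C) A p q → b p q)
      (_ : MRel G w) (_ : Equivalence w) (_ : ∀ p q, w p q → OR C p q)
      (_ : ∀ p q, ORon C A p q → w p q) {J : Gr G Z} (_ : J.Meas)
      (_ : ∀ p q, w p q ↔ Gen (fun p q => ORon C A p q ∨ (b p q ∧ w p q)) J p q)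
      {η : ENNReal} (_ : η ≠ 0),
      ∃ (w' : Z → Z → Prop) (M J' : Gr G Z), MRel G w' ∧ Equivalence w' ∧
        (∀ p q, w' p q → OR C p q) ∧ (∀ p q, w p q → w' p q) ∧
        (∀ p q, b p q → OR C p q → w' p q) ∧
        M.Meas ∧ M.SuppIn (B ⊓ C) ∧ J'.Meas ∧
        (∀ p q, OR B p q → w' p q → Gen b M p q) ∧
        (∀ p q, w' p q ↔ Gen (fun p q => ORon C A p q ∨ (Gen b M p q ∧ w' p q)) J' p q) ∧
        M.cost ν + J'.cost ν ≤ J.cost ν + η)
    (hamalg : ∀ {b w : Z → Z → Prop} (_ : Equivalence b) (_ : Equivalence w)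
      (_ : ∀ p q, b p q → OR B p q) (_ : ∀ p q, w p q → OR C p q)
      (_ : ∀ p q, b p q → OR C p q → w p q) (_ : ∀ p q, w p q → OR B p q → b p q)
      (_ : ∀ p q, (∃ g : G, q = g • p) → Relation.EqvGen (fun p q => b p q ∨ w p q) p q),
      ∀ p q, OR B p q → b p q)
    {ΦB ΦC : Gr G Z} (hB : ΦB.Meas) (hC : ΦC.Meas) (hBs : ΦB.SuppIn B) (hCs : ΦC.SuppIn C)
    (hgen : ∀ (p : Z) (g : G), Gen (ORon C A) (fun g => ΦB g ∪ ΦC g) p (g • p))
    {η : ENNReal} (hη : η ≠ 0) :
    ∃ Φ' : Gr G Z, Φ'.Meas ∧ Φ'.SuppIn B ∧ (∀ p q, OR B p q → Gen (ORon (B ⊓ C) A) Φ' p q) ∧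
      Φ'.cost ν ≤ ΦB.cost ν + ΦC.cost ν + η := by
  classical
  -- errors
  obtain ⟨ε, hε0, hεsum⟩ : ∃ ε : ℕ → ENNReal, (∀ n, ε n ≠ 0) ∧ ∑' n, ε n ≤ η := by
    obtain ⟨ε', hε', hs⟩ := ENNReal.exists_pos_sum_of_countable' hη ℕ
    exact ⟨ε', fun n => (hε' n).ne', hs.le⟩
  -- ORon inside OR
  have hORon : ∀ (H : Subgroup G) (p q : Z), ORon H A p q → OR H p q := fun H p q h => h.2.2
  -- initial state
  let s0 : St B C A :=
    { b := Gen (ORon (B ⊓ C) A) ΦB
      w := Gen (ORon C A) ΦC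
      J := ΦC
      hb := hMgen (hMORon _) hB
      hbe := gen_equiv _ _
      hbB := fun p q h => gen_le (or_equiv B)
        (fun p q h => or_mono inf_le_left (hORon _ p q h)) (fun p q h => step_or hBs h) h
      hbA := fun p q h => gen_of_rel h
      hw := hMgen (hMORon _) hC
      hwe := gen_equiv _ _
      hwC := fun p q h => gen_le (or_equiv C)
        (fun p q h => hORon _ p q h) (fun p q h => step_or hCs h) h
      hwA := fun p q h => gen_of_rel h
      hJ := hC
      hJw := fun p q => ⟨fun h => gen_mono (fun p q h => gen_of_rel (Or.inl h))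
          (fun p q h => gen_of_step h) h,
        fun h => gen_le (gen_equiv _ _)
          (fun p q h => h.elim gen_of_rel (fun h => h.2)) (fun p q h => gen_of_step h) h⟩ }
  -- one round
  have hstep : ∀ (n : ℕ) (s : St B C A), ∃ (t : St B C A × Gr G Z), Rd ν (ε n) s t.1 t.2 := by
    intro n s
    obtain ⟨w', M, J', h1, h2, h3, h4, h5, h6, h7, h8, h9, h10, h11⟩ :=
      hround s.hb s.hbe s.hbB s.hbA s.hw s.hwe s.hwC s.hwA s.hJ s.hJw (hε0 n)
    refine ⟨⟨{ b := Gen s.b M, w := w', J := J', hb := hMgen s.hb h6, hbe := gen_equiv _ _,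
               hbB := fun p q h => gen_le (or_equiv B) s.hbB
                 (fun p q h => or_mono inf_le_left (step_or h7 h)) h,
               hbA := fun p q h => gen_of_rel (s.hbA p q h),
               hw := h1, hwe := h2, hwC := h3, hwA := fun p q h => h4 p q (s.hwA p q h),
               hJ := h8, hJw := h10 }, M⟩, ?_⟩
    exact ⟨h6, h7, h4, h5, h9, fun p q => Iff.rfl, h11⟩
  choose! F hF using hstep
  let s : ℕ → St B C A := fun n => Nat.rec s0 (fun n t => (F n t).1) n
  let M : ℕ → Gr G Z := fun n => (F n (s n)).2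
  have hR : ∀ n, Rd ν (ε n) (s n) (s (n + 1)) (M n) := fun n => hF n (s n)
  -- monotonicity
  have hbmono1 : ∀ n p q, (s n).b p q → (s (n + 1)).b p q := fun n p q h =>
    ((hR n).hbb p q).2 (gen_of_rel h)
  have hbmono : ∀ {m n : ℕ}, m ≤ n → ∀ p q, (s m).b p q → (s n).b p q := by
    intro m n hmn
    induction hmn with
    | refl => exact fun p q h => h
    | step _ ih => exact fun p q h => hbmono1 _ p q (ih p q h)
  have hwmono : ∀ {m n : ℕ}, m ≤ n → ∀ p q, (s m).w p q → (s n).w p q := by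
    intro m n hmn
    induction hmn with
    | refl => exact fun p q h => h
    | step _ ih => exact fun p q h => (hR _).hww p q (ih p q h)
  -- limits
  let b : Z → Z → Prop := fun p q => ∃ n, (s n).b p q
  let w : Z → Z → Prop := fun p q => ∃ n, (s n).w p q
  have hbe : Equivalence b :=
    { refl := fun p => ⟨0, (s 0).hbe.refl p⟩
      symm := fun ⟨n, h⟩ => ⟨n, (s n).hbe.symm h⟩
      trans := fun ⟨n, h⟩ ⟨m, h'⟩ => ⟨max n m, (s _).hbe.trans
        (hbmono (le_max_left n m) _ _ h) (hbmono (le_max_right n m) _ _ h')⟩ }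
  have hwe : Equivalence w :=
    { refl := fun p => ⟨0, (s 0).hwe.refl p⟩
      symm := fun ⟨n, h⟩ => ⟨n, (s n).hwe.symm h⟩
      trans := fun ⟨n, h⟩ ⟨m, h'⟩ => ⟨max n m, (s _).hwe.trans
        (hwmono (le_max_left n m) _ _ h) (hwmono (le_max_right n m) _ _ h')⟩ }
  have hbfin : ∀ p q, OR B p q → b p q := by
    refine hamalg (w := w) hbe hwe (fun p q ⟨n, h⟩ => (s n).hbB p q h)
      (fun p q ⟨n, h⟩ => (s n).hwC p q h)
      (fun p q ⟨n, h⟩ hc => ⟨n + 1, (hR n).hbw p q h hc⟩)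
      (fun p q ⟨n, h⟩ hc => ⟨n + 1, (hR n).hwb p q hc ((hR n).hww p q h)⟩) ?_
    rintro p q ⟨g, rfl⟩
    refine gen_le (Relation.EqvGen.is_equivalence _) ?_ ?_ (hgen p g)
    · intro p q h
      exact Relation.EqvGen.rel _ _ (Or.inr ⟨0, (s 0).hwA p q h⟩)
    · rintro p q ⟨g, hg, rfl⟩
      rcases hg with hg | hg
      · exact Relation.EqvGen.rel _ _ (Or.inl ⟨0, gen_of_step ⟨g, hg, rfl⟩⟩)
      · exact Relation.EqvGen.rel _ _ (Or.inr ⟨0, gen_of_step ⟨g, hg, rfl⟩⟩)
  -- the graphing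
  refine ⟨fun g => ΦB g ∪ ⋃ n, M n g, ?_, ?_, ?_, ?_⟩
  · intro g
    exact (hB g).union (MeasurableSet.iUnion fun n => (hR n).hMm g)
  · intro g hg
    have h1 := hBs g hg
    have h2 : ∀ n, M n g = ∅ := fun n => (hR n).hMs g (fun h => hg h.1)
    simp [h1, h2]
  · intro p q hpq
    obtain ⟨n, hn⟩ := hbfin p q hpq
    have key : ∀ n p q, (s n).b p q →
        Gen (ORon (B ⊓ C) A) (fun g => ΦB g ∪ ⋃ n, M n g) p q := by
      intro n
      induction n with
      | zero =>
        intro p q h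
        exact gen_mono (fun p q h => gen_of_rel h)
          (fun p q h => gen_of_step (step_mono (fun g => Set.subset_union_left) h)) h
      | succ n ih =>
        intro p q h
        refine gen_le (gen_equiv _ _) ih ?_ (((hR n).hbb p q).1 h)
        intro p q h
        exact gen_of_step (step_mono
          (fun g => (Set.subset_iUnion (fun n => M n g) n).trans Set.subset_union_right) h)
    exact key n p q hn
  · -- cost
    have htel : ∀ N, ∑ n ∈ Finset.range N, (M n).cost ν + (s N).J.cost ν ≤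
        ΦC.cost ν + ∑ n ∈ Finset.range N, ε n := by
      intro N
      induction N with
      | zero => simp; exact le_rfl
      | succ N ih =>
        rw [Finset.sum_range_succ, Finset.sum_range_succ]
        calc ∑ n ∈ Finset.range N, (M n).cost ν + (M N).cost ν + (s (N + 1)).J.cost ν
            = ∑ n ∈ Finset.range N, (M n).cost ν
              + ((M N).cost ν + (s (N + 1)).J.cost ν) := by rw [add_assoc]
          _ ≤ ∑ n ∈ Finset.range N, (M n).cost ν + ((s N).J.cost ν + ε N) := by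
              exact add_le_add le_rfl (hR N).hcost
          _ = (∑ n ∈ Finset.range N, (M n).cost ν + (s N).J.cost ν) + ε N := by
              rw [add_assoc]
          _ ≤ (ΦC.cost ν + ∑ n ∈ Finset.range N, ε n) + ε N := by gcongr
          _ = _ := by rw [add_assoc]
    have hsum : ∑' n, (M n).cost ν ≤ ΦC.cost ν + η := by
      refine ENNReal.tsum_le_of_sum_range_le ?_
      intro N
      calc ∑ n ∈ Finset.range N, (M n).cost ν
          ≤ ∑ n ∈ Finset.range N, (M n).cost ν + (s N).J.cost ν := le_self_add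
        _ ≤ ΦC.cost ν + ∑ n ∈ Finset.range N, ε n := htel N
        _ ≤ ΦC.cost ν + η := by
            gcongr
            exact (ENNReal.sum_le_tsum _).trans hεsum
    calc Gr.cost ν (fun g => ΦB g ∪ ⋃ n, M n g)
        = ∑' g, ν (ΦB g ∪ ⋃ n, M n g) := rfl
      _ ≤ ∑' g, (ν (ΦB g) + ∑' n, ν (M n g)) := by
          refine ENNReal.tsum_le_tsum fun g => ?_
          exact (measure_union_le _ _).trans (add_le_add le_rfl (measure_iUnion_le _))
      _ = ∑' g, ν (ΦB g) + ∑' g, ∑' n, ν (M n g) := ENNReal.tsum_add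
      _ = ΦB.cost ν + ∑' n, (M n).cost ν := by
          rw [ENNReal.tsum_comm]; rfl
      _ ≤ ΦB.cost ν + (ΦC.cost ν + η) := by gcongr
      _ = ΦB.cost ν + ΦC.cost ν + η := by rw [add_assoc]

end Main

end PartI

end Crest.Agent.R191
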