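import Crest.Agent.R191.Defs
import Crest.Agent.R191.Rel
import Crest.Agent.R191.Marker
import Crest.Agent.R191.CountLemma

/-!
# Row 191, T5: one round of the relation exchange (Theorem I)
-/

set_option autoImplicit false
set_option linter.unusedSectionVars false
set_option linter.deprecated false

namespace Crest.Agent.R191.Rd

open MeasureTheory Set
open scoped ENNReal

section basic
variable {G Z : Type*} [Group G] [MulAction G Z]

theorem gen_equivalence (S : Z → Z → Prop) (Φ : Gr G Z) : Equivalence (Gen S Φ) :=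
  Relation.EqvGen.is_equivalence _

theorem gen_le {S R : Z → Z → Prop} {Φ : Gr G Z} (hR : Equivalence R)
    (h1 : ∀ p q, S p q → R p q) (h2 : ∀ p q, Φ.Step p q → R p q) {p q : Z}
    (h : Gen S Φ p q) : R p q := by
  induction h with
  | rel x y h => exact h.elim (h1 x y) (h2 x y)
  | refl x => exact hR.refl x
  | symm x y _ ih => exact hR.symm ih
  | trans x y z _ _ ih1 ih2 => exact hR.trans ih1 ih2

theorem gen_of_rel {S : Z → Z → Prop} {Φ : Gr G Z} {p q : Z} (h : S p q) : Gen S Φ p q :=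
  Relation.EqvGen.rel _ _ (Or.inl h)

theorem gen_of_step {S : Z → Z → Prop} {Φ : Gr G Z} {p q : Z} (h : Φ.Step p q) :
    Gen S Φ p q :=
  Relation.EqvGen.rel _ _ (Or.inr h)

/-- The empty graphing. -/
def eG (G Z : Type*) : Gr G Z := fun _ => ∅

/-- The union of two graphings. -/
def un {G Z : Type*} (Φ Ψ : Gr G Z) : Gr G Z := fun g => Φ g ∪ Ψ g

theorem step_empty {p q : Z} (h : (eG G Z).Step p q) : False := by
  obtain ⟨g, hg, _⟩ := h
  exact hg

theorem step_un {Φ Ψ : Gr G Z} {p q : Z} :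
    (un Φ Ψ).Step p q ↔ Φ.Step p q ∨ Ψ.Step p q := by
  constructor
  · rintro ⟨g, hg | hg, rfl⟩
    · exact Or.inl ⟨g, hg, rfl⟩
    · exact Or.inr ⟨g, hg, rfl⟩
  · rintro (⟨g, hg, rfl⟩ | ⟨g, hg, rfl⟩)
    · exact ⟨g, Or.inl hg, rfl⟩
    · exact ⟨g, Or.inr hg, rfl⟩

theorem or_equivalence (H : Subgroup G) : Equivalence (OR H : Z → Z → Prop) where
  refl p := ⟨1, H.one_mem, (one_smul _ _).symm⟩
  symm := by
    rintro p q ⟨h, hh, rfl⟩
    exact ⟨h⁻¹, H.inv_mem hh, by rw [inv_smul_smul]⟩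
  trans := by
    rintro p q s ⟨h, hh, rfl⟩ ⟨k, hk, rfl⟩
    exact ⟨k * h, H.mul_mem hk hh, by rw [mul_smul]⟩

theorem or_mono {H K : Subgroup G} (h : H ≤ K) {p q : Z} (hp : OR H p q) : OR K p q := by
  obtain ⟨g, hg, rfl⟩ := hp
  exact ⟨g, h hg, rfl⟩

theorem eq_of_smul (hfree : ∀ (g : G) (p : Z), g • p = p → g = 1) {g h : G} {p : Z}
    (hgh : g • p = h • p) : g = h := by
  have : (h⁻¹ * g) • p = p := by rw [mul_smul, hgh, inv_smul_smul]
  have := hfree _ _ this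
  rw [inv_mul_eq_one] at this
  exact this.symm

theorem or_inf (hfree : ∀ (g : G) (p : Z), g • p = p → g = 1) {B C : Subgroup G} {p q : Z}
    (h1 : OR B p q) (h2 : OR C p q) : OR (B ⊓ C) p q := by
  obtain ⟨b, hb, rfl⟩ := h1
  obtain ⟨c, hc, hbc⟩ := h2
  have : b = c := eq_of_smul hfree hbc
  exact ⟨b, ⟨hb, this ▸ hc⟩, rfl⟩

/-- mins of classes -/
def Mins (ρ : Z → Z → Prop) (f : Z → ℝ) : Set Z := {p | ∀ q, ρ p q → f p ≤ f q}

/-- edges from points of `K` along `r` -/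
def retr (r : Z → G) (K : Set Z) : Gr G Z := fun g => {p | p ∈ K ∧ r p = g}

/-- edges from points of `K` to the minimum of the class -/
def toMin (G : Type*) {Z : Type*} [Group G] [MulAction G Z] (ρ : Z → Z → Prop) (f : Z → ℝ)
    (K : Set Z) : Gr G Z :=
  fun g => {p | p ∈ K ∧ ρ p (g • p) ∧ (g • p) ∈ Mins ρ f}

theorem step_retr {r : Z → G} {K : Set Z} {p q : Z} :
    (retr r K).Step p q ↔ p ∈ K ∧ q = r p • p := by
  constructor
  · rintro ⟨g, ⟨hp, rfl⟩, rfl⟩
    exact ⟨hp, rfl⟩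
  · rintro ⟨hp, rfl⟩
    exact ⟨r p, ⟨hp, rfl⟩, rfl⟩

theorem mins_unique {ρ : Z → Z → Prop} (hρ : Equivalence ρ) {f : Z → ℝ}
    (hf : Function.Injective f) {p q : Z} (hp : p ∈ Mins ρ f) (hq : q ∈ Mins ρ f) (h : ρ p q) :
    p = q :=
  hf (le_antisymm (hp q h) (hq p (hρ.symm h)))

theorem exists_min {ρ : Z → Z → Prop} (hρ : Equivalence ρ)
    (hρo : ∀ p q, ρ p q → ∃ g : G, q = g • p) (f : Z → ℝ) {p : Z}
    (hfin : {g : G | ρ p (g • p)}.Finite) : ∃ q, ρ p q ∧ q ∈ Mins ρ f := by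
  obtain ⟨g, hg, hmin⟩ := hfin.exists_minimalFor (fun g => f (g • p)) _
    ⟨1, by rw [mem_ofPred_eq, one_smul]; exact hρ.refl p⟩
  refine ⟨g • p, hg, fun s hs => ?_⟩
  have hps : ρ p s := hρ.trans hg hs
  obtain ⟨h, rfl⟩ := hρo p s hps
  by_contra hlt
  rw [not_le] at hlt
  exact absurd (hmin hps hlt.le) (not_le.mpr hlt)

theorem step_toMin {ρ : Z → Z → Prop} {f : Z → ℝ} {K : Set Z}
    (hρo : ∀ p q, ρ p q → ∃ g : G, q = g • p) {p q : Z} :
    (toMin G ρ f K).Step p q ↔ p ∈ K ∧ ρ p q ∧ q ∈ Mins ρ f := by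
  constructor
  · rintro ⟨g, ⟨hp, h1, h2⟩, rfl⟩
    exact ⟨hp, h1, h2⟩
  · rintro ⟨hp, h1, h2⟩
    obtain ⟨g, rfl⟩ := hρo p q h1
    exact ⟨g, ⟨hp, h1, h2⟩, rfl⟩

theorem and_equivalence {ρ σ : Z → Z → Prop} (h1 : Equivalence ρ) (h2 : Equivalence σ) :
    Equivalence (fun p q => ρ p q ∧ σ p q) where
  refl p := ⟨h1.refl p, h2.refl p⟩
  symm h := ⟨h1.symm h.1, h2.symm h.2⟩
  trans h h' := ⟨h1.trans h.1 h'.1, h2.trans h.2 h'.2⟩

/-- The relation `(p ∈ N ↔ q ∈ N) ∧ (p ∈ N → ρ p q)` is an equivalence relation. -/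
theorem split_equivalence {ρ : Z → Z → Prop} (h : Equivalence ρ) (N : Set Z) :
    Equivalence (fun p q => (p ∈ N ↔ q ∈ N) ∧ (p ∈ N → ρ p q)) where
  refl p := ⟨Iff.rfl, fun _ => h.refl p⟩
  symm h1 := ⟨h1.1.symm, fun hq => h.symm (h1.2 (h1.1.mpr hq))⟩
  trans h1 h2 := ⟨h1.1.trans h2.1, fun hp => h.trans (h1.2 hp) (h2.2 (h1.1.mp hp))⟩

/-- If `p` is not joined to `A` by `ρ`, then its class under the relation generated by `ρ` and
pairs inside `A` is its `ρ`-class. -/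
theorem gen_restr {ρ τ : Z → Z → Prop} (hρ : Equivalence ρ) {A : Set Z}
    {p q : Z} (hp : ∀ a ∈ A, ¬ ρ p a) (hτ : ∀ p q, τ p q → p ∈ A ∧ q ∈ A)
    (h : Relation.EqvGen (fun p q => τ p q ∨ ρ p q) p q) : ρ p q := by
  have key : (fun p q => (p ∈ {p | ∀ a ∈ A, ¬ ρ p a} ↔ q ∈ {p | ∀ a ∈ A, ¬ ρ p a}) ∧
      (p ∈ {p | ∀ a ∈ A, ¬ ρ p a} → ρ p q)) p q := by
    refine (split_equivalence hρ {p | ∀ a ∈ A, ¬ ρ p a}).eqvGen_iff.mp (h.mono ?_)
    rintro x y (hxy | hxy)
    · obtain ⟨hx, hy⟩ := hτ x y hxy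
      refine ⟨⟨fun h => absurd (hρ.refl x) (h x hx), fun h => absurd (hρ.refl y) (h y hy)⟩,
        fun h => absurd (hρ.refl x) (h x hx)⟩
    · exact ⟨⟨fun h a ha hya => h a ha (hρ.trans hxy hya),
        fun h a ha hya => h a ha (hρ.trans (hρ.symm hxy) hya)⟩, fun _ => hxy⟩
  exact key.2 hp

end basic

section measurable
variable {G Z : Type*} [Group G] [MulAction G Z] [Countable G] [MeasurableSpace Z] {ν : Measure Z}

theorem cost_un_le (Φ Ψ : Gr G Z) : (un Φ Ψ).cost ν ≤ Φ.cost ν + Ψ.cost ν := by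
  unfold Gr.cost
  rw [← ENNReal.tsum_add]
  exact ENNReal.tsum_le_tsum fun g => measure_union_le _ _

theorem cost_le_of_disjoint {Φ : Gr G Z} (hΦ : Φ.Meas)
    (hd : ∀ p g h, p ∈ Φ g → p ∈ Φ h → g = h) {K : Set Z} (hK : ∀ g, Φ g ⊆ K) :
    Φ.cost ν ≤ ν K := by
  unfold Gr.cost
  rw [← measure_iUnion _ hΦ]
  · exact measure_mono (iUnion_subset hK)
  · intro g h hgh
    rw [Function.onFun, Set.disjoint_left]
    intro p hp hp'
    exact hgh (hd p g h hp hp')

theorem cost_retr_le {r : Z → G} (hr : ∀ g, MeasurableSet {p | r p = g}) {K : Set Z}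
    (hK : MeasurableSet K) : (retr r K).cost ν ≤ ν K := by
  apply cost_le_of_disjoint
  · intro g
    exact hK.inter (hr g)
  · rintro p g h ⟨_, h1⟩ ⟨_, h2⟩
    rw [← h1, h2]
  · rintro g p ⟨hp, _⟩
    exact hp

theorem mins_meas {ρ : Z → Z → Prop} (hF : FreeAct G Z ν) (hρ : MRel G ρ) {f : Z → ℝ}
    (hf : Measurable f) : MeasurableSet (Mins ρ f) := by
  have : Mins ρ f = ⋂ g : G, ({p | ρ p (g • p)}ᶜ ∪ {p | f p ≤ f (g • p)}) := by
    ext p
    simp only [Mins, mem_ofPred_eq, mem_iInter, mem_union, mem_compl_iff]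
    constructor
    · intro h g
      by_cases hg : ρ p (g • p)
      · exact Or.inr (h _ hg)
      · exact Or.inl hg
    · intro h q hq
      obtain ⟨g, rfl⟩ := hρ.orb p q hq
      exact (h g).resolve_left (fun h => h hq)
  rw [this]
  refine MeasurableSet.iInter fun g => ?_
  exact (hρ.meas g).compl.union (measurableSet_le hf (hf.comp (hF.mp g).measurable))

theorem toMin_meas {ρ : Z → Z → Prop} (hF : FreeAct G Z ν) (hρ : MRel G ρ) {f : Z → ℝ}
    (hf : Measurable f) {K : Set Z} (hK : MeasurableSet K) : (toMin G ρ f K).Meas := fun g =>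
  hK.inter ((hρ.meas g).inter ((hF.mp g).measurable (mins_meas hF hρ hf)))

theorem cost_toMin_le {ρ : Z → Z → Prop} (hF : FreeAct G Z ν) (hρe : Equivalence ρ)
    (hρ : MRel G ρ) {f : Z → ℝ}
    (hf : Measurable f) (hfinj : Function.Injective f) {K : Set Z} (hK : MeasurableSet K) :
    (toMin G ρ f K).cost ν ≤ ν K := by
  apply cost_le_of_disjoint (toMin_meas hF hρ hf hK)
  · rintro p g h ⟨_, h1, h2⟩ ⟨_, h3, h4⟩
    have := mins_unique hρe hfinj h2 h4 (hρe.trans (hρe.symm h1) h3)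
    exact eq_of_smul hF.free this
  · rintro g p ⟨hp, _⟩
    exact hp

end measurable

end Crest.Agent.R191.Rd

namespace Crest.Agent.R191

open MeasureTheory Set Rd
open scoped ENNReal

section Round
variable {G Z : Type*} [Group G] [Countable G] [MulAction G Z] [MeasurableSpace Z]
  [StandardBorelSpace Z] {ν : Measure Z} [IsFiniteMeasure ν]

/-- **T5**: one round of the relation exchange. -/
theorem oneRound (hF : FreeAct G Z ν) (B C : Subgroup G) {A : Set Z} (hA : MeasurableSet A)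
    {r : Z → G} (hr : ∀ g, MeasurableSet {p | r p = g}) (hrE : ∀ p, r p ∈ B ⊓ C)
    (hrA : ∀ p, r p • p ∈ A)
    {b w : Z → Z → Prop} (hb : MRel G b) (hbe : Equivalence b) (hbB : ∀ p q, b p q → OR B p q)
    (hbA : ∀ p q, ORon (B ⊓ C) A p q → b p q)
    (hw : MRel G w) (_hwe : Equivalence w) (hwC : ∀ p q, w p q → OR C p q)
    (hwA : ∀ p q, ORon C A p q → w p q)
    {J : Gr G Z} (hJ : J.Meas)
    (hJw : ∀ p q, w p q ↔ Gen (fun p q => ORon C A p q ∨ (b p q ∧ w p q)) J p q)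
    {η : ENNReal} (hη : η ≠ 0) :
    ∃ (w' : Z → Z → Prop) (M J' : Gr G Z), MRel G w' ∧ Equivalence w' ∧
      (∀ p q, w' p q → OR C p q) ∧ (∀ p q, w p q → w' p q) ∧
      (∀ p q, b p q → OR C p q → w' p q) ∧
      M.Meas ∧ M.SuppIn (B ⊓ C) ∧ J'.Meas ∧
      (∀ p q, OR B p q → w' p q → Gen b M p q) ∧
      (∀ p q, w' p q ↔ Gen (fun p q => ORon C A p q ∨ (Gen b M p q ∧ w' p q)) J' p q) ∧
      M.cost ν + J'.cost ν ≤ J.cost ν + η := by
  classical
  obtain ⟨f, hfe⟩ := exists_measurableEmbedding_real Z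
  have hf : Measurable f := hfe.measurable
  have hfinj : Function.Injective f := hfe.injective
  have hEC : B ⊓ C ≤ C := inf_le_right
  have hη2 : η / 2 ≠ 0 := by
    simp [ENNReal.div_eq_zero_iff, hη]
  have hempty : (eG G Z).Meas := fun _ => MeasurableSet.empty
  -- the relation w ∨ (b ∩ R_C)
  set S1 : Z → Z → Prop := fun p q => w p q ∨ (b p q ∧ OR C p q) with hS1
  have hS1m : MRel G S1 := hw.or (hb.and (MRel.OR hF C))
  have hS1o : ∀ p q, S1 p q → OR C p q := by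
    rintro p q (h | h)
    · exact hwC p q h
    · exact h.2
  set W1 : Z → Z → Prop := Gen S1 (eG G Z) with hW1
  have hW1e : Equivalence W1 := gen_equivalence _ _
  have hW1m : MRel G W1 := MRel.gen hF hS1m hempty
  have hW1o : ∀ p q, W1 p q → OR C p q := fun p q h =>
    gen_le (or_equivalence C) hS1o (fun _ _ h => (step_empty h).elim) h
  have hWW1 : ∀ p q, w p q → W1 p q := fun p q h => gen_of_rel (Or.inl h)
  have hBW1 : ∀ p q, b p q → OR C p q → W1 p q := fun p q h h' => gen_of_rel (Or.inr ⟨h, h'⟩)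
  -- infinite classes not meeting A
  set D : Set Z := {p | ∃ q ∈ A, W1 p q}ᶜ ∩ {p | {g : G | W1 p (g • p)}.Finite}ᶜ with hD
  have hDm : MeasurableSet D :=
    (MRel.measurable_meets hF hW1m hA).compl.inter (MRel.measurable_finite hF hW1m).compl
  -- finiteness is invariant
  have hfininv : ∀ {ρ : Z → Z → Prop}, Equivalence ρ → (∀ p q, ρ p q → ∃ g : G, q = g • p) →
      ∀ {p q : Z}, ρ p q → {g : G | ρ p (g • p)}.Finite → {g : G | ρ q (g • q)}.Finite := by
    intro ρ hρ hρo p q h hfin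
    obtain ⟨k, rfl⟩ := hρo p q h
    refine (hfin.preimage (f := fun g => g * k) (mul_left_injective k).injOn).subset ?_
    intro g hg
    rw [mem_preimage, mem_ofPred_eq, mul_smul]
    exact hρ.trans h hg
  have hDinv : ∀ p q, W1 p q → p ∈ D → q ∈ D := by
    rintro p q h ⟨h1, h2⟩
    refine ⟨?_, ?_⟩
    · rintro ⟨a, ha, hqa⟩
      exact h1 ⟨a, ha, hW1e.trans h hqa⟩
    · intro hq
      exact h2 (hfininv hW1e hW1m.orb (hW1e.symm h) hq)
  obtain ⟨K, hKD, hKm, hKν, hKs⟩ := marker hF hW1m hW1e hDm hDinv (fun p hp => hp.2) hη2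
  -- W2
  set W2 : Z → Z → Prop := Gen W1 (retr r K) with hW2
  have hretrm : (retr r K).Meas := fun g => hKm.inter (hr g)
  have hW2e : Equivalence W2 := gen_equivalence _ _
  have hW2m : MRel G W2 := MRel.gen hF hW1m hretrm
  have hrC : ∀ p : Z, OR C p (r p • p) := fun p => ⟨r p, hEC (hrE p), rfl⟩
  have hrEo : ∀ p : Z, OR (B ⊓ C) p (r p • p) := fun p => ⟨r p, hrE p, rfl⟩
  have hW2o : ∀ p q, W2 p q → OR C p q := fun p q h =>
    gen_le (or_equivalence C) hW1o (fun x y h => by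
      rw [step_retr] at h
      rw [h.2]; exact hrC x) h
  have hW1W2 : ∀ p q, W1 p q → W2 p q := fun p q h => gen_of_rel h
  have hWW2 : ∀ p q, w p q → W2 p q := fun p q h => hW1W2 p q (hWW1 p q h)
  have hRCW2 : ∀ p q, p ∈ A → q ∈ A → OR C p q → W2 p q := fun p q hp hq h =>
    hWW2 p q (hwA p q ⟨hp, hq, h⟩)
  have hKA : ∀ p ∈ K, W2 p (r p • p) := fun p hp => gen_of_step (step_retr.mpr ⟨hp, rfl⟩)
  -- nonactual W2-classes are finite
  have hfinN : ∀ p, (∀ a ∈ A, ¬ W2 p a) → {g : G | W2 p (g • p)}.Finite := by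
    intro p hp
    have hcl : ∀ q, W2 p q → W1 p q := by
      intro q hq
      have key := gen_le (split_equivalence hW1e {p | ∀ a ∈ A, ¬ W2 p a}) ?_ ?_ hq
      · exact key.2 hp
      · intro x y hxy
        have hxy2 := hW1W2 x y hxy
        exact ⟨⟨fun h a ha hya => h a ha (hW2e.trans hxy2 hya),
          fun h a ha hxa => h a ha (hW2e.trans (hW2e.symm hxy2) hxa)⟩, fun _ => hxy⟩
      · intro x y hxy
        rw [step_retr] at hxy
        obtain ⟨hxK, rfl⟩ := hxy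
        have h1 : ¬ ∀ a ∈ A, ¬ W2 x a := fun h => h _ (hrA x) (hKA x hxK)
        have h2 : ¬ ∀ a ∈ A, ¬ W2 (r x • x) a := fun h => h _ (hrA x) (hW2e.refl _)
        exact ⟨⟨fun h => absurd h h1, fun h => absurd h h2⟩, fun h => absurd h h1⟩
    by_contra hinf
    have hinf1 : ¬ {g : G | W1 p (g • p)}.Finite := by
      intro hfin
      exact hinf (hfin.subset fun g hg => hcl _ hg)
    have hpD : p ∈ D := by
      refine ⟨?_, hinf1⟩
      rintro ⟨a, ha, hpa⟩
      exact hp a ha (hW1W2 _ _ hpa)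
    obtain ⟨k, hkK, hpk⟩ := hKs p hpD
    exact hp _ (hrA k) (hW2e.trans (hW1W2 _ _ hpk) (hKA k hkK))
  -- the new graphing J1 generates W2
  set J1 : Gr G Z := un J (retr r K) with hJ1
  have hJ1m : J1.Meas := fun g => (hJ g).union (hretrm g)
  have hJ1c : J1.cost ν ≤ J.cost ν + η / 2 :=
    (cost_un_le _ _).trans (add_le_add le_rfl ((cost_retr_le hr hKm).trans hKν))
  set ε : Z → Z → Prop := fun p q => b p q ∧ W2 p q with hε
  set σ : Z → Z → Prop := fun p q => W2 p q ∧ OR (B ⊓ C) p q with hσ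
  have hεe : Equivalence ε := and_equivalence hbe hW2e
  have hσe : Equivalence σ := and_equivalence hW2e (or_equivalence _)
  have hεm : MRel G ε := hb.and hW2m
  have hσm : MRel G σ := hW2m.and (MRel.OR hF _)
  have hεσ : ∀ p q, ε p q → σ p q := fun p q h =>
    ⟨h.2, or_inf hF.free (hbB p q h.1) (hW2o p q h.2)⟩
  have hgenJ1 : ∀ p q, W2 p q →
      Gen (fun p q => ORon C A p q ∨ ε p q) J1 p q := by
    intro p q h
    refine gen_le (gen_equivalence _ _) ?_ ?_ h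
    · intro x y hxy
      refine gen_le (gen_equivalence _ _) ?_ (fun _ _ h => (step_empty h).elim) hxy
      rintro x y (hxy | hxy)
      · refine gen_le (gen_equivalence _ _) ?_ ?_ ((hJw x y).mp hxy)
        · rintro x y (h | h)
          · exact gen_of_rel (Or.inl h)
          · exact gen_of_rel (Or.inr ⟨h.1, hWW2 _ _ h.2⟩)
        · intro x y h
          exact gen_of_step (step_un.mpr (Or.inl h))
      · exact gen_of_rel (Or.inr ⟨hxy.1, hW1W2 _ _ (hBW1 _ _ hxy.1 hxy.2)⟩)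
    · intro x y h
      exact gen_of_step (step_un.mpr (Or.inr h))
  -- the actual part
  set Act : Set Z := {p | ∃ q ∈ A, W2 p q} with hAct
  have hActm : MeasurableSet Act := MRel.measurable_meets hF hW2m hA
  have hActinv : ∀ {p q}, W2 p q → p ∈ Act → q ∈ Act := by
    rintro p q h ⟨a, ha, hpa⟩
    exact ⟨a, ha, hW2e.trans (hW2e.symm h) hpa⟩
  have hactr : ∀ p ∈ Act, W2 p (r p • p) := by
    rintro p ⟨a, ha, hpa⟩
    refine hW2e.trans hpa (hRCW2 _ _ ha (hrA p) ?_)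
    exact (or_equivalence C).trans ((or_equivalence C).symm (hW2o _ _ hpa)) (hrC p)
  have hσr : ∀ p ∈ Act, σ p (r p • p) := fun p hp => ⟨hactr p hp, hrEo p⟩
  set N : Set Z := {p | ∃ q ∈ A, ε p q}ᶜ with hN
  have hNm : MeasurableSet N := (MRel.measurable_meets hF hεm hA).compl
  have hNinv : ∀ {p q}, ε p q → p ∈ N → q ∈ N := by
    rintro p q h hp ⟨a, ha, hqa⟩
    exact hp ⟨a, ha, hεe.trans h hqa⟩
  set Fi : Set Z := {p | {g : G | ε p (g • p)}.Finite} with hFi
  have hFim : MeasurableSet Fi := MRel.measurable_finite hF hεm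
  set D2 : Set Z := (Act ∩ N) ∩ Fiᶜ with hD2
  have hD2m : MeasurableSet D2 := (hActm.inter hNm).inter hFim.compl
  have hD2inv : ∀ p q, ε p q → p ∈ D2 → q ∈ D2 := by
    rintro p q h ⟨⟨h1, h2⟩, h3⟩
    exact ⟨⟨hActinv h.2 h1, hNinv h h2⟩, fun hq => h3 (hfininv hεe hεm.orb (hεe.symm h) hq)⟩
  obtain ⟨K2, hK2D, hK2m, hK2ν, hK2s⟩ := marker hF hεm hεe hD2m hD2inv (fun p hp => hp.2) hη2
  set Tε : Set Z := Mins ε f with hTε
  set Tσ : Set Z := Mins σ f with hTσ
  set TW : Set Z := Mins W2 f with hTW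
  have hTεm : MeasurableSet Tε := mins_meas hF hεm hf
  have hTσm : MeasurableSet Tσ := mins_meas hF hσm hf
  have hTWm : MeasurableSet TW := mins_meas hF hW2m hf
  have hTσε : Tσ ⊆ Tε := fun p hp q hq => hp q (hεσ p q hq)
  have hTWσ : TW ⊆ Tσ := fun p hp q hq => hp q hq.1
  set N1 : Set Z := ((Act ∩ N) ∩ Fi) ∩ Tε with hN1
  have hN1m : MeasurableSet N1 := ((hActm.inter hNm).inter hFim).inter hTεm
  set P1 : Set Z := Actᶜ ∩ (Tε \ Tσ) with hP1
  set P2 : Set Z := Actᶜ ∩ (Tσ \ TW) with hP2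
  have hP1m : MeasurableSet P1 := hActm.compl.inter (hTεm.diff hTσm)
  have hP2m : MeasurableSet P2 := hActm.compl.inter (hTσm.diff hTWm)
  have hNK : MeasurableSet (N1 ∪ K2) := hN1m.union hK2m
  set M : Gr G Z := un (retr r (N1 ∪ K2)) (toMin G σ f P1) with hM
  set J' : Gr G Z := toMin G W2 f P2 with hJ'
  have hMm : M.Meas := fun g =>
    (hNK.inter (hr g)).union (toMin_meas hF hσm hf hP1m g)
  have hJ'm : J'.Meas := toMin_meas hF hW2m hf hP2m
  have hNKAct : N1 ∪ K2 ⊆ Act := by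
    rintro p (hp | hp)
    · exact hp.1.1.1
    · exact (hK2D hp).1.1
  have hMσ : ∀ p q, M.Step p q → σ p q := by
    intro p q h
    rw [hM, step_un] at h
    rcases h with h | h
    · rw [step_retr] at h
      obtain ⟨hp, rfl⟩ := h
      exact hσr p (hNKAct hp)
    · rw [step_toMin hσm.orb] at h
      exact h.2.1
  have hBGen : ∀ p q, b p q → Gen b M p q := fun p q h => gen_of_rel h
  have hGe : Equivalence (Gen b M) := gen_equivalence _ _
  -- σ is contained in Gen b M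
  have hkeyAct : ∀ p ∈ Act, ∃ a ∈ A, Gen b M p a ∧ σ p a := by
    intro p hp
    by_cases hpN : ∃ a ∈ A, ε p a
    · obtain ⟨a, ha, hpa⟩ := hpN
      exact ⟨a, ha, hBGen _ _ hpa.1, hεσ _ _ hpa⟩
    · have hpN' : p ∈ N := hpN
      by_cases hfin : p ∈ Fi
      · obtain ⟨k, hpk, hk⟩ := exists_min hεe hεm.orb f hfin
        have hkN1 : k ∈ N1 :=
          ⟨⟨⟨hActinv hpk.2 hp, hNinv hpk hpN'⟩, hfininv hεe hεm.orb hpk hfin⟩, hk⟩
        refine ⟨r k • k, hrA k, hGe.trans (hBGen _ _ hpk.1) (gen_of_step ?_), ?_⟩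
        · exact step_un.mpr (Or.inl (step_retr.mpr ⟨Or.inl hkN1, rfl⟩))
        · exact hσe.trans (hεσ _ _ hpk) (hσr k (hActinv hpk.2 hp))
      · obtain ⟨k, hk, hpk⟩ := hK2s p ⟨⟨hp, hpN'⟩, hfin⟩
        refine ⟨r k • k, hrA k, hGe.trans (hBGen _ _ hpk.1) (gen_of_step ?_), ?_⟩
        · exact step_un.mpr (Or.inl (step_retr.mpr ⟨Or.inr hk, rfl⟩))
        · exact hσe.trans (hεσ _ _ hpk) (hσr k (hActinv hpk.2 hp))
  have hfinsub : ∀ {ρ : Z → Z → Prop}, (∀ p q, ρ p q → W2 p q) → ∀ p, p ∉ Act →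
      {g : G | ρ p (g • p)}.Finite := by
    intro ρ hρ p hp
    refine (hfinN p (fun a ha hpa => hp ⟨a, ha, hpa⟩)).subset ?_
    intro q hq
    exact hρ _ _ hq
  have hkeyN : ∀ p, p ∉ Act → ∃ m, σ p m ∧ m ∈ Tσ ∧ Gen b M p m := by
    intro p hp
    obtain ⟨t, hpt, ht⟩ := exists_min hεe hεm.orb f (hfinsub (fun _ _ h => h.2) p hp)
    obtain ⟨m, hpm, hm⟩ := exists_min hσe hσm.orb f (hfinsub (ρ := σ) (fun _ _ h => h.1) p hp)
    refine ⟨m, hpm, hm, ?_⟩
    have htm : σ t m := hσe.trans (hσe.symm (hεσ _ _ hpt)) hpm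
    by_cases htσ : t ∈ Tσ
    · have := mins_unique hσe hfinj htσ hm htm
      rw [← this]; exact hBGen _ _ hpt.1
    · refine hGe.trans (hBGen _ _ hpt.1) (gen_of_step ?_)
      refine step_un.mpr (Or.inr ((step_toMin hσm.orb).mpr ⟨⟨?_, ht, htσ⟩, htm, hm⟩))
      intro htA
      exact hp (hActinv (hW2e.symm hpt.2) htA)
  have hσG : ∀ p q, σ p q → Gen b M p q := by
    intro p q h
    by_cases hp : p ∈ Act
    · obtain ⟨a, ha, h1, h2⟩ := hkeyAct p hp
      obtain ⟨a', ha', h3, h4⟩ := hkeyAct q (hActinv h.1 hp)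
      have hab : b a a' := hbA a a' ⟨ha, ha',
        (hσe.trans (hσe.symm h2) (hσe.trans h h4)).2⟩
      exact hGe.trans h1 (hGe.trans (hBGen _ _ hab) (hGe.symm h3))
    · have hq : q ∉ Act := fun hq => hp (hActinv (hW2e.symm h.1) hq)
      obtain ⟨m, h1, h2, h3⟩ := hkeyN p hp
      obtain ⟨m', h1', h2', h3'⟩ := hkeyN q hq
      have := mins_unique hσe hfinj h2 h2' (hσe.trans (hσe.symm h1) (hσe.trans h h1'))
      subst this
      exact hGe.trans h3 (hGe.symm h3')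
  -- the new generation property
  have hgen' : ∀ p q, W2 p q →
      Gen (fun p q => ORon C A p q ∨ (Gen b M p q ∧ W2 p q)) J' p q := by
    intro p q h
    have hGe' := gen_equivalence
      (fun p q => ORon C A p q ∨ (Gen b M p q ∧ W2 p q)) J'
    by_cases hp : p ∈ Act
    · have hq : q ∈ Act := hActinv h hp
      refine hGe'.trans (gen_of_rel (Or.inr ⟨hσG _ _ (hσr p hp), hactr p hp⟩))
        (hGe'.trans (gen_of_rel (Or.inl ⟨hrA p, hrA q, ?_⟩))
          (hGe'.symm (gen_of_rel (Or.inr ⟨hσG _ _ (hσr q hq), hactr q hq⟩))))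
      have hC := or_equivalence (Z := Z) C
      exact hC.trans (hC.symm (hrC p)) (hC.trans (hW2o _ _ h) (hrC q))
    · have hq : q ∉ Act := fun hq => hp (hActinv (hW2e.symm h) hq)
      have key : ∀ x, x ∉ Act → ∃ m, W2 x m ∧ m ∈ TW ∧
          Gen (fun p q => ORon C A p q ∨ (Gen b M p q ∧ W2 p q)) J' x m := by
        intro x hx
        obtain ⟨t, hxt, ht, hxt'⟩ := hkeyN x hx
        obtain ⟨m, hxm, hm⟩ := exists_min hW2e hW2m.orb f
          (hfinsub (ρ := W2) (fun _ _ h => h) x hx)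
        refine ⟨m, hxm, hm, ?_⟩
        have htm : W2 t m := hW2e.trans (hW2e.symm hxt.1) hxm
        refine hGe'.trans (gen_of_rel (Or.inr ⟨hxt', hxt.1⟩)) ?_
        by_cases htW : t ∈ TW
        · have := mins_unique hW2e hfinj htW hm htm
          rw [this]; exact hGe'.refl _
        · refine gen_of_step ((step_toMin hW2m.orb).mpr ⟨⟨?_, ht, htW⟩, htm, hm⟩)
          intro htA
          exact hx (hActinv (hW2e.symm hxt.1) htA)
      obtain ⟨m, h1, h2, h3⟩ := key p hp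
      obtain ⟨m', h1', h2', h3'⟩ := key q hq
      have := mins_unique hW2e hfinj h2 h2' (hW2e.trans (hW2e.symm h1) (hW2e.trans h h1'))
      subst this
      exact hGe'.trans h3 (hGe'.symm h3')
  -- the cost estimate
  set T' : Set Z := N1 ∪ (P1 ∪ P2) with hT'
  have hT'm : MeasurableSet T' := hN1m.union (hP1m.union hP2m)
  set Rt : Set Z := A ∪ (Actᶜ ∩ TW) with hRt
  have hRtm : MeasurableSet Rt := hA.union (hActm.compl.inter hTWm)
  set S2 : Z → Z → Prop := Relation.EqvGen (fun p q => ORon C A p q ∨ ε p q) with hS2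
  have hS2m : MRel G S2 := MRel.eqvGen hF ((MRel.ORon hF C hA).or hεm)
  have hS2e : Equivalence S2 := Relation.EqvGen.is_equivalence _
  have hT'ε : T' ⊆ Tε := by
    rintro p (hp | hp | hp)
    · exact hp.2
    · exact hp.2.1
    · exact hTσε hp.2.1
  have hT'N : ∀ p ∈ T', ∀ a ∈ A, ¬ ε p a := by
    rintro p hp a ha hpa
    rcases hp with hp | hp | hp
    · exact hp.1.1.2 ⟨a, ha, hpa⟩
    · exact hp.1 ⟨a, ha, hpa.2⟩
    · exact hp.1 ⟨a, ha, hpa.2⟩
  have hS2ε : ∀ p ∈ T', ∀ q, S2 p q → ε p q := fun p hp q hq =>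
    gen_restr hεe (hT'N p hp) (fun x y h => ⟨h.1, h.2.1⟩) hq
  have hcount : ν T' ≤ J1.cost ν := by
    refine count_le hF hS2m hS2e hJ1m hRtm hT'm ?_ ?_ ?_
    · intro p hp q hq h
      exact mins_unique hεe hfinj (hT'ε hp) (hT'ε hq) (hS2ε p hp q h)
    · intro p hp q hq h
      have hpq := hS2ε p hp q h
      rcases hq with hq | hq
      · exact hT'N p hp q hq hpq
      · have hqε : q ∈ Tε := hTσε (hTWσ hq.2)
        have := mins_unique hεe hfinj (hT'ε hp) hqε hpq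
        subst this
        rcases hp with hp | hp | hp
        · exact hq.1 hp.1.1.1
        · exact hp.2.2 (hTWσ hq.2)
        · exact hp.2.2 hq.2
    · intro p hp
      have hG2 : ∀ x y, W2 x y → Gen S2 J1 x y := by
        intro x y hxy
        refine gen_le (gen_equivalence _ _) ?_ ?_ (hgenJ1 x y hxy)
        · intro x y h
          exact gen_of_rel (Relation.EqvGen.rel _ _ h)
        · intro x y h
          exact gen_of_step h
      by_cases hpA : p ∈ Act
      · obtain ⟨a, ha, hpa⟩ := hpA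
        exact ⟨a, Or.inl ha, hG2 _ _ hpa⟩
      · obtain ⟨m, hpm, hm⟩ := exists_min hW2e hW2m.orb f
          (hfinsub (ρ := W2) (fun _ _ h => h) p hpA)
        exact ⟨m, Or.inr ⟨fun h => hpA (hActinv (hW2e.symm hpm) h), hm⟩, hG2 _ _ hpm⟩
  have hcostM : M.cost ν + J'.cost ν ≤ J.cost ν + η := by
    have h1 : M.cost ν ≤ (ν N1 + ν K2) + ν P1 :=
      (cost_un_le _ _).trans (add_le_add ((cost_retr_le hr hNK).trans (measure_union_le _ _))
        (cost_toMin_le hF hσe hσm hf hfinj hP1m))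
    have h2 : J'.cost ν ≤ ν P2 := cost_toMin_le hF hW2e hW2m hf hfinj hP2m
    have hd12 : Disjoint P1 P2 := by
      rw [Set.disjoint_left]
      rintro p hp hp'
      exact hp.2.2 hp'.2.1
    have hd : Disjoint N1 (P1 ∪ P2) := by
      rw [Set.disjoint_left]
      rintro p hp (hp' | hp')
      · exact hp'.1 hp.1.1.1
      · exact hp'.1 hp.1.1.1
    have h3 : ν T' = ν N1 + (ν P1 + ν P2) := by
      rw [hT', measure_union hd (hP1m.union hP2m), measure_union hd12 hP2m]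
    calc M.cost ν + J'.cost ν ≤ ((ν N1 + ν K2) + ν P1) + ν P2 := add_le_add h1 h2
      _ = ν T' + ν K2 := by rw [h3]; ring
      _ ≤ (J.cost ν + η / 2) + η / 2 := add_le_add (hcount.trans hJ1c) hK2ν
      _ = J.cost ν + η := by rw [add_assoc, ENNReal.add_halves]
  refine ⟨W2, M, J', hW2m, hW2e, hW2o, hWW2, fun p q h h' => hW1W2 _ _ (hBW1 _ _ h h'),
    hMm, ?_, hJ'm, ?_, ?_, hcostM⟩
  · -- support of M
    intro g hg
    rw [Set.eq_empty_iff_forall_notMem]
    intro p hp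
    obtain ⟨k, hk, hkp⟩ := (hMσ p (g • p) ⟨g, hp, rfl⟩).2
    exact hg (eq_of_smul hF.free hkp ▸ hk)
  · intro p q h h'
    exact hσG p q ⟨h', or_inf hF.free h (hW2o _ _ h')⟩
  · intro p q
    refine ⟨hgen' p q, fun h => gen_le hW2e ?_ ?_ h⟩
    · rintro x y (h | h)
      · exact hRCW2 x y h.1 h.2.1 h.2.2
      · exact h.2
    · intro x y h
      exact ((step_toMin hW2m.orb).mp h).2.1

end Round

end Crest.Agent.R191
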