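import Crest.Agent.R191.Defs
import Crest.Agent.R191.Rel
import Crest.Agent.R191.AmalgLemma
import Crest.Agent.R191.Round
import Crest.Agent.R191.PartICore

/-!
# Row 191, task T7: Theorem I for graphings in `B ∪ C`
-/

set_option autoImplicit false

namespace Crest.Agent.R191

open MeasureTheory

section PartI
variable {G Z : Type*} [Group G] [Countable G] [MulAction G Z] [MeasurableSpace Z]
  [StandardBorelSpace Z] {ν : Measure Z} [IsFiniteMeasure ν]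

theorem partI (hF : FreeAct G Z ν) {B C : Subgroup G} (hAP : AmalgProp B C)
    {A : Set Z} (hA : MeasurableSet A)
    {r : Z → G} (hr : ∀ g, MeasurableSet {p | r p = g}) (hrE : ∀ p, r p ∈ B ⊓ C)
    (hrA : ∀ p, r p • p ∈ A)
    {ΦB ΦC : Gr G Z} (hB : ΦB.Meas) (hC : ΦC.Meas) (hBs : ΦB.SuppIn B) (hCs : ΦC.SuppIn C)
    (hgen : ∀ (p : Z) (g : G), Gen (ORon C A) (fun g => ΦB g ∪ ΦC g) p (g • p))
    {η : ENNReal} (hη : η ≠ 0) :
    ∃ Φ' : Gr G Z, Φ'.Meas ∧ Φ'.SuppIn B ∧ (∀ p q, OR B p q → Gen (ORon (B ⊓ C) A) Φ' p q) ∧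
      Φ'.cost ν ≤ ΦB.cost ν + ΦC.cost ν + η :=
  PartI.core (ν := ν) (fun hS _ hΦ => MRel.gen hF hS hΦ) (fun H => MRel.ORon hF H hA)
    (fun hb hbe hbB hbA hw hwe hwC hwA _ hJ hJw _ hη =>
      oneRound hF B C hA hr hrE hrA hb hbe hbB hbA hw hwe hwC hwA hJ hJw hη)
    (fun hbe hwe hbB hwC hbw hwb hg => amalgam_closed hF.free hAP hbe hwe hbB hwC hbw hwb hg)
    hB hC hBs hCs hgen hη

end PartI

end Crest.Agent.R191
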