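import Crest.Agent.R191.Defs
import Crest.Agent.R191.Rel
import Crest.Agent.R191.Contract
import Crest.Agent.R191.PartI

/-!
# Row 191, T8: Theorem I for general graphings (chords), via sheets

`Z = X × H` with `H` a finite group; the interior points of the chords live on the sheets.
-/

set_option autoImplicit false

namespace Crest.Agent.R191

open MeasureTheory Set

namespace Sheets

/-! ## words -/
section Words
variable {G : Type*} [Group G]

/-- `g` has a path of length `n` with steps in `B ∪ C`. -/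
theorem exists_path {B C : Subgroup G} (hBC : B ⊔ C = ⊤) (g : G) :
    ∃ (n : ℕ) (P : ℕ → G), P 0 = 1 ∧ (∀ k, n ≤ k → P k = g) ∧
      ∀ k, P (k + 1) * (P k)⁻¹ ∈ B ∨ P (k + 1) * (P k)⁻¹ ∈ C := by
  have hg : g ∈ Subgroup.closure ((B : Set G) ∪ C) := by
    rw [Subgroup.closure_union, Subgroup.closure_eq, Subgroup.closure_eq, hBC]
    exact Subgroup.mem_top g
  have key : ∀ l : List G, (∀ x ∈ l, x ∈ B ∨ x ∈ C) →
      ∃ (n : ℕ) (P : ℕ → G), P 0 = 1 ∧ (∀ k, n ≤ k → P k = l.prod) ∧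
      ∀ k, P (k + 1) * (P k)⁻¹ ∈ B ∨ P (k + 1) * (P k)⁻¹ ∈ C := by
    intro l
    induction l with
    | nil =>
      intro _
      exact ⟨0, fun _ => 1, rfl, fun _ _ => by simp, fun _ => Or.inl (by simp [B.one_mem])⟩
    | cons a l ih =>
      intro hl
      obtain ⟨n, P, h0, h1, h2⟩ := ih (fun x hx => hl x (List.mem_cons_of_mem _ hx))
      refine ⟨n + 1, fun k => if k ≤ n then P k else a * l.prod, ?_, ?_, ?_⟩
      · simp [h0]
      · intro k hk
        have : ¬ k ≤ n := by omega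
        simp [this]
      · intro k
        rcases lt_trichotomy k n with h | h | h
        · have h3 : k ≤ n := h.le
          have h4 : k + 1 ≤ n := h
          simp only [h3, h4, if_true]
          exact h2 k
        · subst h
          have h4 : ¬ k + 1 ≤ k := by omega
          simp only [le_refl, h4, if_true, if_false, h1 k le_rfl]
          rw [mul_assoc, mul_inv_cancel, mul_one]
          exact hl a (by simp)
        · have h3 : ¬ k ≤ n := by omega
          have h4 : ¬ k + 1 ≤ n := by omega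
          simp only [h3, h4, if_false, mul_inv_cancel]
          exact Or.inl B.one_mem
  rw [← Subgroup.mem_toSubmonoid, Subgroup.closure_toSubmonoid] at hg
  obtain ⟨l, hl, rfl⟩ := Submonoid.exists_list_of_mem_closure hg
  refine key l (fun x hx => ?_)
  rcases hl x hx with h | h
  · exact h
  · rw [Set.mem_inv] at h
    rcases h with h | h
    · exact Or.inl (by simpa using B.inv_mem h)
    · exact Or.inr (by simpa using C.inv_mem h)

end Words

/-- a finite group with enough sheets -/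
theorem exists_sheets {α : Type*} (F : Finset α) (L : ℕ) :
    ∃ (H : Type) (_ : Group H) (_ : Finite H) (sh : α → ℕ → H),
      (∀ g ∈ F, ∀ k, 1 ≤ k → k ≤ L → sh g k ≠ 1) ∧
      (∀ g ∈ F, ∀ k, 1 ≤ k → k ≤ L → ∀ g' ∈ F, ∀ k', 1 ≤ k' → k' ≤ L →
        sh g k = sh g' k' → g = g' ∧ k = k') ∧
      (∀ g, sh g 0 = 1) ∧ ∀ g, sh g (L + 1) = 1 := by
  classical
  -- index set
  let e : F × Fin L ≃ Fin (Fintype.card (F × Fin L)) := Fintype.equivFin _
  let n := Fintype.card (F × Fin L)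
  refine ⟨Equiv.Perm (Option (Fin n)), inferInstance, inferInstance,
    fun g k => if h : g ∈ F ∧ 1 ≤ k ∧ k ≤ L then
      Equiv.swap none (some (e (⟨g, h.1⟩, ⟨k - 1, by omega⟩))) else 1, ?_, ?_, ?_, ?_⟩
  · intro g hg k h1 h2 h
    simp only [dif_pos (show g ∈ F ∧ 1 ≤ k ∧ k ≤ L from ⟨hg, h1, h2⟩)] at h
    have := congrArg (fun σ : Equiv.Perm (Option (Fin n)) => σ none) h
    simp at this
  · intro g hg k h1 h2 g' hg' k' h1' h2' h
    simp only [dif_pos (show g ∈ F ∧ 1 ≤ k ∧ k ≤ L from ⟨hg, h1, h2⟩),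
      dif_pos (show g' ∈ F ∧ 1 ≤ k' ∧ k' ≤ L from ⟨hg', h1', h2'⟩)] at h
    have := congrArg (fun σ : Equiv.Perm (Option (Fin n)) => σ none) h
    simp only [Equiv.swap_apply_left, Option.some.injEq, EmbeddingLike.apply_eq_iff_eq,
      Prod.mk.injEq, Subtype.mk.injEq, Fin.mk.injEq] at this
    exact ⟨this.1, by omega⟩
  · intro g
    exact dif_neg (by omega)
  · intro g
    exact dif_neg (by omega)

section Main
variable {G X H : Type*} [Group G] [MulAction G X] [Group H]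

/-- the action of `G × H` on `X × H` -/
@[reducible] def act (G X H : Type*) [Group G] [MulAction G X] [Group H] :
    MulAction (G × H) (X × H) where
  smul γ p := (γ.1 • p.1, γ.2 * p.2)
  one_smul p := by
    show ((1 : G) • p.1, (1 : H) * p.2) = p
    rw [one_smul, one_mul]
  mul_smul γ δ p := by
    show ((γ.1 * δ.1) • p.1, (γ.2 * δ.2) * p.2) = (γ.1 • δ.1 • p.1, γ.2 * (δ.2 * p.2))
    rw [mul_smul, mul_assoc]

attribute [local instance] act

theorem smul_def (γ : G × H) (p : X × H) : γ • p = (γ.1 • p.1, γ.2 * p.2) := rfl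

theorem freeAct [MeasurableSpace X] [MeasurableSpace H] [DiscreteMeasurableSpace H]
    [Countable H] {μ : Measure X} [SFinite μ] (hF : FreeAct G X μ) :
    FreeAct (G × H) (X × H) (μ.prod (Measure.count : Measure H)) where
  free γ p h := by
    rw [smul_def, Prod.ext_iff] at h
    obtain ⟨h1, h2⟩ := h
    refine Prod.ext (hF.free _ _ h1) ?_
    exact mul_eq_right.mp h2
  mp γ := by
    have h1 := hF.mp γ.1
    have h2 : MeasurePreserving (fun h : H => γ.2 * h) (Measure.count : Measure H)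
        Measure.count := by
      refine ⟨measurable_of_countable _, ?_⟩
      ext s hs
      rw [Measure.map_apply (measurable_of_countable _) hs,
        Measure.count_apply (measurable_of_countable _ hs), Measure.count_apply hs]
      have e : (fun h : H => γ.2 * h) ⁻¹' s = (Equiv.mulLeft γ.2).symm '' s := by
        rw [Equiv.image_symm_eq_preimage]
        rfl
      rw [e, (Equiv.mulLeft γ.2).symm.injective.encard_image]
    exact h1.prod h2

theorem altMap {B C : Subgroup G} (s : Bool) (l : List (G × H))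
    (h : Alt (B.prod (⊤ : Subgroup H)) (C.prod (⊤ : Subgroup H)) s l) :
    Alt B C s (l.map Prod.fst) := by
  induction l generalizing s with
  | nil => cases s <;> trivial
  | cons a l ih =>
    cases s
    · obtain ⟨⟨h1, h2⟩, h3⟩ := h
      rw [Subgroup.mem_prod] at h1 h2
      exact ⟨⟨h1.1, fun h => h2 ⟨h, Subgroup.mem_top _⟩⟩, ih _ h3⟩
    · obtain ⟨⟨h1, h2⟩, h3⟩ := h
      rw [Subgroup.mem_prod] at h1 h2
      exact ⟨⟨h1.1, fun h => h2 ⟨h, Subgroup.mem_top _⟩⟩, ih _ h3⟩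

theorem amalgProp {B C : Subgroup G} (h : AmalgProp B C) :
    AmalgProp (B.prod (⊤ : Subgroup H)) (C.prod (⊤ : Subgroup H)) := by
  intro s l hl h2 h3
  refine h s (l.map Prod.fst) (altMap s l hl) (by simpa using h2) ?_
  have : (l.map Prod.fst).prod = (l.prod).1 := by
    exact (map_list_prod (MonoidHom.fst G H) l).symm
  rw [this]
  exact h3.1

/-- the group element of the `k`-th step of the chord `g` -/
def el (P : G → ℕ → G) (sh : G → ℕ → H) (g : G) (k : ℕ) : G × H :=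
  (P g (k + 1) * (P g k)⁻¹, sh g (k + 1) * (sh g k)⁻¹)

/-- the points where the `k`-th steps of the chords `g` start -/
def D (Ψ : Gr G X) (P : G → ℕ → G) (sh : G → ℕ → H) (g : G) (k : ℕ) : Set (X × H) :=
  {p | p.2 = sh g k ∧ (P g k)⁻¹ • p.1 ∈ Ψ g}

/-- the unused points of the sheets -/
def J (F : Finset G) (L : ℕ) (Ψ : Gr G X) (P : G → ℕ → G) (sh : G → ℕ → H) : Set (X × H) :=
  {p | p.2 ≠ 1 ∧ ∀ g ∈ F, ∀ k, 1 ≤ k → k ≤ L → p ∉ D Ψ P sh g k}

/-- the subdivided graphing -/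
def Phi (F : Finset G) (L : ℕ) (Ψ : Gr G X) (P : G → ℕ → G) (sh : G → ℕ → H) :
    Gr (G × H) (X × H) := fun γ =>
  {p | (∃ g ∈ F, ∃ k, k ≤ L ∧ el P sh g k = γ ∧ p ∈ D Ψ P sh g k) ∨
    (p ∈ J F L Ψ P sh ∧ γ = (1, p.2⁻¹))}

omit [Group H] in
theorem D_meas [MeasurableSpace X] [MeasurableSpace H] [DiscreteMeasurableSpace H]
    {μ : Measure X} (hF : FreeAct G X μ) {Ψ : Gr G X} (hΨ : Ψ.Meas) (P : G → ℕ → G)
    (sh : G → ℕ → H) (g : G) (k : ℕ) : MeasurableSet (D Ψ P sh g k) := by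
  have h1 : MeasurableSet {p : X × H | p.2 = sh g k} :=
    measurable_snd (MeasurableSet.of_discrete (s := {h : H | h = sh g k}))
  have h2 : MeasurableSet {p : X × H | (P g k)⁻¹ • p.1 ∈ Ψ g} :=
    ((hF.measurable_smul (P g k)⁻¹).comp measurable_fst) (hΨ g)
  exact h1.inter h2

theorem J_meas [Countable G] [MeasurableSpace X] [MeasurableSpace H]
    [DiscreteMeasurableSpace H]
    {μ : Measure X} (hF : FreeAct G X μ) {Ψ : Gr G X} (hΨ : Ψ.Meas) (F : Finset G) (L : ℕ)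
    (P : G → ℕ → G) (sh : G → ℕ → H) : MeasurableSet (J F L Ψ P sh) := by
  have h1 : MeasurableSet {p : X × H | p.2 ≠ 1} :=
    measurable_snd (MeasurableSet.of_discrete (s := {h : H | h ≠ 1}))
  have h2 : J F L Ψ P sh = {p : X × H | p.2 ≠ 1} ∩
      ⋂ g : G, ⋂ _ : g ∈ F, ⋂ k : ℕ, ⋂ _ : 1 ≤ k, ⋂ _ : k ≤ L, (D Ψ P sh g k)ᶜ := by
    ext p
    simp only [J, Set.mem_ofPred_eq, Set.mem_inter_iff, Set.mem_iInter, Set.mem_compl_iff]
  rw [h2]
  exact h1.inter (MeasurableSet.iInter fun g => MeasurableSet.iInter fun _ =>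
    MeasurableSet.iInter fun k => MeasurableSet.iInter fun _ => MeasurableSet.iInter fun _ =>
      (D_meas hF hΨ P sh g k).compl)

theorem Phi_meas [Countable G] [MeasurableSpace X] [MeasurableSpace H]
    [DiscreteMeasurableSpace H]
    {μ : Measure X} (hF : FreeAct G X μ) {Ψ : Gr G X} (hΨ : Ψ.Meas) (F : Finset G) (L : ℕ)
    (P : G → ℕ → G) (sh : G → ℕ → H) : (Phi F L Ψ P sh).Meas := by
  intro γ
  have h1 : MeasurableSet {p : X × H | γ = (1, p.2⁻¹)} :=
    measurable_snd (MeasurableSet.of_discrete (s := {h : H | γ = (1, h⁻¹)}))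
  have h2 : Phi F L Ψ P sh γ = (⋃ g : G, ⋃ _ : g ∈ F, ⋃ k : ℕ, ⋃ _ : k ≤ L,
      ⋃ _ : el P sh g k = γ, D Ψ P sh g k) ∪ (J F L Ψ P sh ∩ {p : X × H | γ = (1, p.2⁻¹)}) := by
    ext p
    simp only [Phi, Set.mem_ofPred_eq, Set.mem_union, Set.mem_inter_iff, Set.mem_iUnion,
      exists_prop]
  rw [h2]
  refine MeasurableSet.union ?_ ((J_meas hF hΨ F L P sh).inter h1)
  exact (MeasurableSet.iUnion fun g => MeasurableSet.iUnion fun _ =>
    MeasurableSet.iUnion fun k => MeasurableSet.iUnion fun _ => MeasurableSet.iUnion fun _ =>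
      (D_meas hF hΨ P sh g k))

theorem Phi_cost [Countable G] [Countable H] [MeasurableSpace X] [MeasurableSpace H]
    [DiscreteMeasurableSpace H]
    {μ : Measure X} [SFinite μ] (hF : FreeAct G X μ) {Ψ : Gr G X} (hΨ : Ψ.Meas) (F : Finset G)
    (L : ℕ) (P : G → ℕ → G) (sh : G → ℕ → H) (hP0 : ∀ g, P g 0 = 1)
    (h1 : ∀ g ∈ F, ∀ k, 1 ≤ k → k ≤ L → sh g k ≠ 1)
    (h2 : ∀ g ∈ F, ∀ k, 1 ≤ k → k ≤ L → ∀ g' ∈ F, ∀ k', 1 ≤ k' → k' ≤ L →
        sh g k = sh g' k' → g = g' ∧ k = k')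
    (h3 : ∀ g, sh g 0 = 1) :
    (Phi F L Ψ P sh).cost (μ.prod (Measure.count : Measure H)) ≤
      Ψ.cost μ + (μ.prod (Measure.count : Measure H)) {p : X × H | p.2 = 1}ᶜ := by
  classical
  set ν := μ.prod (Measure.count : Measure H) with hν
  have hDm := D_meas hF hΨ P sh
  have hJm := J_meas hF hΨ F L P sh
  set JJ : Gr (G × H) (X × H) := fun γ => J F L Ψ P sh ∩ {p : X × H | γ = (1, p.2⁻¹)} with hJJ
  have hJJm : JJ.Meas := fun γ => hJm.inter
    (measurable_snd (MeasurableSet.of_discrete (s := {h : H | γ = (1, h⁻¹)})))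
  have hJJc : JJ.cost ν ≤ ν (J F L Ψ P sh) := by
    refine Rd.cost_le_of_disjoint hJJm ?_ (fun γ => Set.inter_subset_left)
    rintro p γ δ ⟨_, hγ⟩ ⟨_, hδ⟩
    rw [Set.mem_ofPred_eq] at hγ hδ
    rw [hγ, hδ]
  have hstep : ∀ γ, ν (Phi F L Ψ P sh γ) ≤
      (∑ i ∈ F ×ˢ Finset.range (L + 1), if el P sh i.1 i.2 = γ then ν (D Ψ P sh i.1 i.2) else 0)
        + ν (JJ γ) := by
    intro γ
    have hsub : Phi F L Ψ P sh γ ⊆ (⋃ i ∈ F ×ˢ Finset.range (L + 1),
        if el P sh i.1 i.2 = γ then D Ψ P sh i.1 i.2 else ∅) ∪ JJ γ := by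
      rintro p (⟨g, hg, k, hk, he, hp⟩ | hp)
      · refine Or.inl (Set.mem_biUnion (x := (g, k)) ?_ ?_)
        · simp only [Finset.coe_product, Set.mem_prod, Finset.mem_coe, Finset.mem_range]
          exact ⟨hg, by omega⟩
        · rw [if_pos he]
          exact hp
      · exact Or.inr hp
    refine (measure_mono hsub).trans ((measure_union_le _ _).trans ?_)
    refine add_le_add_left ((measure_biUnion_finset_le _ _).trans (le_of_eq ?_)) _
    refine Finset.sum_congr rfl fun i _ => ?_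
    split_ifs
    · rfl
    · simp
  have hcost : (Phi F L Ψ P sh).cost ν ≤
      (∑ i ∈ F ×ˢ Finset.range (L + 1), ν (D Ψ P sh i.1 i.2)) + ν (J F L Ψ P sh) := by
    calc (Phi F L Ψ P sh).cost ν ≤ ∑' γ, ((∑ i ∈ F ×ˢ Finset.range (L + 1),
          if el P sh i.1 i.2 = γ then ν (D Ψ P sh i.1 i.2) else 0) + ν (JJ γ)) :=
          ENNReal.tsum_le_tsum hstep
      _ = (∑ i ∈ F ×ˢ Finset.range (L + 1), ν (D Ψ P sh i.1 i.2)) + JJ.cost ν := by
          rw [ENNReal.tsum_add, Summable.tsum_finsetSum (fun i _ => ENNReal.summable)]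
          congr 1
          refine Finset.sum_congr rfl fun i _ => ?_
          rw [tsum_eq_single (el P sh i.1 i.2) (fun γ hγ => if_neg (Ne.symm hγ)), if_pos rfl]
      _ ≤ _ := add_le_add_right hJJc _
  have hsplit : (∑ i ∈ F ×ˢ Finset.range (L + 1), ν (D Ψ P sh i.1 i.2)) =
      (∑ i ∈ F ×ˢ Finset.range L, ν (D Ψ P sh i.1 (i.2 + 1))) + ∑ g ∈ F, ν (D Ψ P sh g 0) := by
    rw [Finset.sum_product, Finset.sum_product, ← Finset.sum_add_distrib]
    exact Finset.sum_congr rfl fun g _ => Finset.sum_range_succ' _ _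
  have hzero : ∀ g, ν (D Ψ P sh g 0) = μ (Ψ g) := by
    intro g
    have : D Ψ P sh g 0 = Ψ g ×ˢ {(1 : H)} := by
      ext p
      simp only [D, hP0, h3, inv_one, one_smul, Set.mem_ofPred_eq, Set.mem_prod,
        Set.mem_singleton_iff]
      exact and_comm
    rw [this, hν, Measure.prod_prod, Measure.count_singleton, mul_one]
  have hbase : ∑ g ∈ F, ν (D Ψ P sh g 0) ≤ Ψ.cost μ := by
    simp only [hzero]
    exact ENNReal.sum_le_tsum F
  have hrest : (∑ i ∈ F ×ˢ Finset.range L, ν (D Ψ P sh i.1 (i.2 + 1))) + ν (J F L Ψ P sh) ≤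
      ν {p : X × H | p.2 = 1}ᶜ := by
    have hpd : Set.PairwiseDisjoint (↑(F ×ˢ Finset.range L) : Set (G × ℕ))
        (fun i => D Ψ P sh i.1 (i.2 + 1)) := by
      rintro ⟨g, k⟩ hi ⟨g', k'⟩ hj hij
      simp only [Finset.coe_product, Set.mem_prod, Finset.mem_coe, Finset.mem_range] at hi hj
      rw [Function.onFun, Set.disjoint_left]
      rintro p ⟨hp, _⟩ ⟨hp', _⟩
      have := h2 g hi.1 (k + 1) (by omega) (by omega) g' hj.1 (k' + 1) (by omega) (by omega)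
        (hp.symm.trans hp')
      exact hij (Prod.ext this.1 (by omega))
    rw [← measure_biUnion_finset hpd (fun i _ => hDm _ _), ← measure_union _ hJm]
    · refine measure_mono ?_
      rintro p (hp | hp)
      · rw [Set.mem_iUnion₂] at hp
        obtain ⟨⟨g, k⟩, hi, hp⟩ := hp
        rw [Finset.mem_product, Finset.mem_range] at hi
        intro h
        exact h1 g hi.1 (k + 1) (by omega) (by omega) (hp.1.symm.trans h)
      · exact hp.1
    · rw [Set.disjoint_left]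
      intro p hp hpJ
      rw [Set.mem_iUnion₂] at hp
      obtain ⟨⟨g, k⟩, hi, hp⟩ := hp
      rw [Finset.mem_product, Finset.mem_range] at hi
      exact hpJ.2 g hi.1 (k + 1) (by omega) (by omega) hp
  calc (Phi F L Ψ P sh).cost ν ≤ _ := hcost
    _ = (∑ g ∈ F, ν (D Ψ P sh g 0)) +
        ((∑ i ∈ F ×ˢ Finset.range L, ν (D Ψ P sh i.1 (i.2 + 1))) + ν (J F L Ψ P sh)) := by
        rw [hsplit]; ring
    _ ≤ _ := add_le_add hbase hrest


/-- the splitting of `Phi` -/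
theorem Phi_mem (F : Finset G) (L : ℕ) (Ψ : Gr G X) (P : G → ℕ → G) (sh : G → ℕ → H)
    {B C : Subgroup G} (hP : ∀ g k, P g (k + 1) * (P g k)⁻¹ ∈ B ∨ P g (k + 1) * (P g k)⁻¹ ∈ C)
    (γ : G × H) (hγ : γ ∉ B.prod (⊤ : Subgroup H)) (hγ' : γ ∉ C.prod (⊤ : Subgroup H)) :
    Phi F L Ψ P sh γ = ∅ := by
  ext p
  simp only [Set.mem_empty_iff_false, iff_false]
  rintro (⟨g, hg, k, hk, rfl, hp⟩ | ⟨_, rfl⟩)
  · rcases hP g k with h | h
    · exact hγ ⟨h, Subgroup.mem_top _⟩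
    · exact hγ' ⟨h, Subgroup.mem_top _⟩
  · exact hγ ⟨B.one_mem, Subgroup.mem_top _⟩

section Conn
variable {F : Finset G} {L : ℕ} {Ψ : Gr G X} {P : G → ℕ → G} {sh : G → ℕ → H}
  {C : Subgroup G}

/-- the forward path of a chord -/
theorem forward (hP0 : ∀ g, P g 0 = 1) (h3 : ∀ g, sh g 0 = 1)
    (S : X × H → X × H → Prop) {g : G} (hg : g ∈ F) {x : X} (hx : x ∈ Ψ g) (j : ℕ)
    (hj : j ≤ L + 1) :
    Gen S (Phi F L Ψ P sh) (x, 1) (P g j • x, sh g j) := by
  induction j with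
  | zero =>
    rw [hP0, h3, one_smul]
    exact Relation.EqvGen.refl _
  | succ j ih =>
    refine Relation.EqvGen.trans _ _ _ (ih (by omega)) (Relation.EqvGen.rel _ _ (Or.inr ?_))
    refine ⟨el P sh g j, Or.inl ⟨g, hg, j, by omega, rfl, rfl, ?_⟩, ?_⟩
    · show (P g j)⁻¹ • P g j • x ∈ Ψ g
      rw [inv_smul_smul]
      exact hx
    · show (P g (j + 1) • x, sh g (j + 1)) =
        ((P g (j + 1) * (P g j)⁻¹) • P g j • x, (sh g (j + 1) * (sh g j)⁻¹) * sh g j)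
      rw [mul_smul, inv_smul_smul, inv_mul_cancel_right]

theorem toBase (hP0 : ∀ g, P g 0 = 1) (h3 : ∀ g, sh g 0 = 1)
    (S : X × H → X × H → Prop) (p : X × H) :
    ∃ g : G, Gen S (Phi F L Ψ P sh) p (g • p.1, 1) := by
  by_cases h1 : p.2 = 1
  · refine ⟨1, ?_⟩
    rw [one_smul, ← h1]
    exact Relation.EqvGen.refl _
  by_cases h2 : p ∈ J F L Ψ P sh
  · refine ⟨1, Relation.EqvGen.rel _ _ (Or.inr ⟨(1, p.2⁻¹), Or.inr ⟨h2, rfl⟩, ?_⟩)⟩
    show (((1 : G) • p.1, (1 : H)) : X × H) = ((1 : G) • p.1, p.2⁻¹ * p.2)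
    rw [inv_mul_cancel]
  · have h2' : ∃ g ∈ F, ∃ k, 1 ≤ k ∧ k ≤ L ∧ p ∈ D Ψ P sh g k := by
      by_contra hcon
      push Not at hcon
      exact h2 ⟨h1, hcon⟩
    obtain ⟨g, hg, k, hk1, hk, hp1, hp2⟩ := h2'
    refine ⟨(P g k)⁻¹, Relation.EqvGen.symm _ _ ?_⟩
    have := forward (L := L) (sh := sh) hP0 h3 S hg hp2 k (by omega)
    rw [smul_inv_smul, ← hp1] at this
    exact this

theorem base_conn (hP0 : ∀ g, P g 0 = 1) (h3 : ∀ g, sh g 0 = 1) (h4 : ∀ g, sh g (L + 1) = 1)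
    (hPL : ∀ g ∈ F, P g (L + 1) = g) (hsup : ∀ g, (Ψ g).Nonempty → g ∈ F)
    {p q : X} (h : Gen (OR C) Ψ p q) :
    Gen (ORon (C.prod (⊤ : Subgroup H)) {p : X × H | p.2 = 1}) (Phi F L Ψ P sh)
      (p, 1) (q, 1) := by
  induction h with
  | rel p q h =>
    rcases h with ⟨c, hc, rfl⟩ | ⟨g, hp, rfl⟩
    · refine Relation.EqvGen.rel _ _ (Or.inl ⟨rfl, rfl, (c, 1), ⟨hc, Subgroup.mem_top _⟩, ?_⟩)
      show ((c • p, (1 : H)) : X × H) = (c • p, 1 * 1)
      rw [mul_one]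
    · have hg := hsup g ⟨p, hp⟩
      have := forward (L := L) (sh := sh) hP0 h3
        (ORon (C.prod (⊤ : Subgroup H)) {p : X × H | p.2 = 1}) hg hp (L + 1) le_rfl
      rwa [hPL g hg, h4] at this
  | refl p => exact Relation.EqvGen.refl _
  | symm p q _ ih => exact Relation.EqvGen.symm _ _ ih
  | trans p q r _ _ ih1 ih2 => exact Relation.EqvGen.trans _ _ _ ih1 ih2

theorem conn (hP0 : ∀ g, P g 0 = 1) (h3 : ∀ g, sh g 0 = 1) (h4 : ∀ g, sh g (L + 1) = 1)
    (hPL : ∀ g ∈ F, P g (L + 1) = g) (hsup : ∀ g, (Ψ g).Nonempty → g ∈ F)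
    (hgen : ∀ (p : X) (g : G), Gen (OR C) Ψ p (g • p)) (p : X × H) (γ : G × H) :
    Gen (ORon (C.prod (⊤ : Subgroup H)) {p : X × H | p.2 = 1}) (Phi F L Ψ P sh)
      p (γ • p) := by
  obtain ⟨g1, hg1⟩ := toBase (F := F) (L := L) (Ψ := Ψ) hP0 h3
    (ORon (C.prod (⊤ : Subgroup H)) {p : X × H | p.2 = 1}) p
  obtain ⟨g2, hg2⟩ := toBase (F := F) (L := L) (Ψ := Ψ) hP0 h3
    (ORon (C.prod (⊤ : Subgroup H)) {p : X × H | p.2 = 1}) (γ • p)
  refine Relation.EqvGen.trans _ _ _ hg1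
    (Relation.EqvGen.trans _ _ _ ?_ (Relation.EqvGen.symm _ _ hg2))
  apply base_conn hP0 h3 h4 hPL hsup
  have := hgen (g1 • p.1) (g2 * γ.1 * g1⁻¹)
  have e : (g2 * γ.1 * g1⁻¹) • g1 • p.1 = g2 • (γ • p).1 := by
    rw [smul_def, mul_smul, inv_smul_smul, mul_smul]
  rwa [e] at this

end Conn

end Main

attribute [local instance] act

theorem main {G X H : Type*} [Group G] [Countable G] [MulAction G X] [MeasurableSpace X]
    [StandardBorelSpace X] {μ : Measure X} [IsFiniteMeasure μ] [Group H] [Finite H]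
    [MeasurableSpace H] [DiscreteMeasurableSpace H] (hF : FreeAct G X μ) {B C : Subgroup G}
    (hAP : AmalgProp B C) {Ψ : Gr G X} (hΨ : Ψ.Meas)
    (hgen : ∀ (p : X) (g : G), Gen (OR C) Ψ p (g • p)) {η : ENNReal} (hη : η ≠ 0)
    (F : Finset G) (L : ℕ) (P : G → ℕ → G) (sh : G → ℕ → H)
    (hsup : ∀ g, (Ψ g).Nonempty → g ∈ F)
    (hP0 : ∀ g, P g 0 = 1) (hPL : ∀ g ∈ F, P g (L + 1) = g)
    (hP : ∀ g k, P g (k + 1) * (P g k)⁻¹ ∈ B ∨ P g (k + 1) * (P g k)⁻¹ ∈ C)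
    (h1 : ∀ g ∈ F, ∀ k, 1 ≤ k → k ≤ L → sh g k ≠ 1)
    (h2 : ∀ g ∈ F, ∀ k, 1 ≤ k → k ≤ L → ∀ g' ∈ F, ∀ k', 1 ≤ k' → k' ≤ L →
        sh g k = sh g' k' → g = g' ∧ k = k')
    (h3 : ∀ g, sh g 0 = 1) (h4 : ∀ g, sh g (L + 1) = 1) :
    ∃ Ψ' : Gr G X, Ψ'.Meas ∧ Ψ'.SuppIn B ∧ (∀ p q, OR B p q → Gen (OR (B ⊓ C)) Ψ' p q) ∧
      Ψ'.cost μ ≤ Ψ.cost μ + η := by
  classical
  set ν := μ.prod (Measure.count : Measure H) with hν
  have hFZ : FreeAct (G × H) (X × H) ν := freeAct hF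
  set A : Set (X × H) := {p | p.2 = 1} with hA
  have hAm : MeasurableSet A := measurable_snd (MeasurableSet.of_discrete (s := {h : H | h = 1}))
  set B' : Subgroup (G × H) := B.prod ⊤ with hB'
  set C' : Subgroup (G × H) := C.prod ⊤ with hC'
  set Φ := Phi F L Ψ P sh with hΦ
  have hΦm : Φ.Meas := Phi_meas hF hΨ F L P sh
  have hΦc : Φ.cost ν ≤ Ψ.cost μ + ν Aᶜ := Phi_cost hF hΨ F L P sh hP0 h1 h2 h3
  -- splitting
  let ΦB : Gr (G × H) (X × H) := fun γ => if γ ∈ B' then Φ γ else ∅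
  let ΦC : Gr (G × H) (X × H) := fun γ => if γ ∈ B' then ∅ else Φ γ
  have hBm : ΦB.Meas := fun γ => by
    simp only [ΦB]; split_ifs
    · exact hΦm γ
    · exact MeasurableSet.empty
  have hCm : ΦC.Meas := fun γ => by
    simp only [ΦC]; split_ifs
    · exact MeasurableSet.empty
    · exact hΦm γ
  have hBs : ΦB.SuppIn B' := fun γ hγ => if_neg hγ
  have hCs : ΦC.SuppIn C' := fun γ hγ => by
    simp only [ΦC]; split_ifs with h
    · rfl
    · exact Phi_mem F L Ψ P sh hP γ h hγ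
  have hun : (fun γ => ΦB γ ∪ ΦC γ) = Φ := by
    funext γ
    simp only [ΦB, ΦC]; split_ifs <;> simp
  have hsum : ΦB.cost ν + ΦC.cost ν = Φ.cost ν := by
    unfold Gr.cost
    rw [← ENNReal.tsum_add]
    refine tsum_congr fun γ => ?_
    simp only [ΦB, ΦC]; split_ifs <;> simp
  obtain ⟨Φ', hm', hs', hg', hc'⟩ := partI (ν := ν) hFZ (amalgProp (H := H) hAP) hAm
    (r := fun p => (1, p.2⁻¹))
    (fun γ => measurable_snd (MeasurableSet.of_discrete (s := {h : H | ((1 : G), h⁻¹) = γ})))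
    (fun p => ⟨⟨B.one_mem, Subgroup.mem_top _⟩, ⟨C.one_mem, Subgroup.mem_top _⟩⟩)
    (fun p => by
      show p.2⁻¹ * p.2 = 1
      exact inv_mul_cancel _)
    hBm hCm hBs hCs (fun p γ => by
      rw [hun]
      exact conn hP0 h3 h4 hPL hsup hgen p γ) hη
  rw [hsum] at hc'
  -- contraction
  have hS' : ∀ p q, ORon (B' ⊓ C') A p q → p ∈ A ∧ q ∈ A := fun p q h => ⟨h.1, h.2.1⟩
  obtain ⟨Ψ1, k1, k2, k3, k4, k5, k6⟩ := contract (ν := ν) hFZ hAm hS' hm' (fun p => by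
    refine ⟨((1 : G), p.2⁻¹) • p, ?_, hg' _ _ ⟨((1 : G), p.2⁻¹),
      ⟨B.one_mem, Subgroup.mem_top _⟩, rfl⟩⟩
    show p.2⁻¹ * p.2 = 1
    exact inv_mul_cancel _)
  have hGenB : ∀ p q, Gen (ORon (B' ⊓ C') A) Φ' p q → OR B' p q := by
    intro p q h
    refine PartI.gen_le (PartI.or_equiv B') ?_ (fun a b hab => PartI.step_or hs' hab) h
    rintro a b ⟨_, _, hab⟩
    exact PartI.or_mono inf_le_left hab
  refine ⟨fun g => {x | (x, (1 : H)) ∈ Ψ1 (g, 1)}, ?_, ?_, ?_, ?_⟩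
  · intro g
    exact (measurable_id.prodMk measurable_const) (k1 (g, 1))
  · intro g hg
    ext x
    simp only [Set.mem_ofPred_eq, Set.mem_empty_iff_false, iff_false]
    intro hx
    obtain ⟨β, hβ, hβ'⟩ := hGenB _ _ (k4 _ _ ⟨(g, 1), hx, rfl⟩)
    have : g = β.1 := hF.eq_of_smul_eq (congrArg Prod.fst hβ')
    rw [this] at hg
    exact hg hβ.1
  · intro p q hpq
    obtain ⟨b, hb, rfl⟩ := hpq
    have hor : OR B' (p, (1 : H)) (b • p, 1) := by
      refine ⟨(b, 1), ⟨hb, Subgroup.mem_top _⟩, ?_⟩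
      show ((b • p, (1 : H)) : X × H) = (b • p, 1 * 1)
      rw [mul_one]
    have h := k5 (p, 1) rfl (b • p, 1) rfl (hg' _ _ hor)
    have key : ∀ u v : X × H, Gen (ORon (B' ⊓ C') A) Ψ1 u v →
        Gen (OR (B ⊓ C)) (fun g => {x | (x, (1 : H)) ∈ Ψ1 (g, 1)}) u.1 v.1 := by
      intro u v huv
      induction huv with
      | rel u v h =>
        rcases h with ⟨_, _, e, he, rfl⟩ | ⟨γ, hu, rfl⟩
        · exact Relation.EqvGen.rel _ _ (Or.inl ⟨e.1, ⟨he.1.1, he.2.1⟩, rfl⟩)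
        · have hu1 : u.2 = 1 := k2 γ hu
          have hv1 : γ.2 * u.2 = 1 := k3 γ u hu
          have hγ : γ.2 = 1 := by rwa [hu1, mul_one] at hv1
          refine Relation.EqvGen.rel _ _ (Or.inr ⟨γ.1, ?_, rfl⟩)
          show (u.1, (1 : H)) ∈ Ψ1 (γ.1, 1)
          rw [← hγ, show (u.1, γ.2) = u from Prod.ext rfl (hγ.trans hu1.symm)]
          exact hu
      | refl u => exact Relation.EqvGen.refl _
      | symm u v _ ih => exact Relation.EqvGen.symm _ _ ih
      | trans u v w _ _ ih1 ih2 => exact Relation.EqvGen.trans _ _ _ ih1 ih2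
    exact key _ _ h
  · have hc1 : Gr.cost μ (fun g => {x | (x, (1 : H)) ∈ Ψ1 (g, 1)}) ≤ Ψ1.cost ν := by
      unfold Gr.cost
      calc ∑' g, μ {x | (x, (1 : H)) ∈ Ψ1 (g, 1)} ≤ ∑' g, ν (Ψ1 (g, 1)) := by
            refine ENNReal.tsum_le_tsum fun g => ?_
            have : {x | (x, (1 : H)) ∈ Ψ1 (g, 1)} ×ˢ {(1 : H)} ⊆ Ψ1 (g, 1) := by
              rintro ⟨x, h⟩ ⟨hx, hh⟩
              rw [Set.mem_singleton_iff] at hh
              simp only at hh
              subst hh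
              exact hx
            calc μ {x | (x, (1 : H)) ∈ Ψ1 (g, 1)} =
                ν ({x | (x, (1 : H)) ∈ Ψ1 (g, 1)} ×ˢ {(1 : H)}) := by
                  rw [hν, Measure.prod_prod, Measure.count_singleton, mul_one]
              _ ≤ _ := measure_mono this
        _ ≤ ∑' γ, ν (Ψ1 γ) := ENNReal.tsum_comp_le_tsum_of_injective
            (f := fun g : G => (g, (1 : H))) (fun a b h => congrArg Prod.fst h) _
    have hfinA : ν Aᶜ ≠ ⊤ := measure_ne_top _ _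
    have htot : Gr.cost μ (fun g => {x | (x, (1 : H)) ∈ Ψ1 (g, 1)}) + ν Aᶜ ≤
        (Ψ.cost μ + η) + ν Aᶜ := by
      calc _ ≤ Ψ1.cost ν + ν Aᶜ := add_le_add_left hc1 _
        _ ≤ Φ'.cost ν := k6
        _ ≤ Φ.cost ν + η := hc'
        _ ≤ (Ψ.cost μ + ν Aᶜ) + η := add_le_add_left hΦc _
        _ = _ := by ring
    exact (ENNReal.add_le_add_iff_right hfinA).mp htot

end Sheets

section Sheets
variable {G X : Type*} [Group G] [Countable G] [MulAction G X] [MeasurableSpace X]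
  [StandardBorelSpace X] {μ : Measure X} [IsFiniteMeasure μ]

theorem relcost_amalgam (hF : FreeAct G X μ) {B C : Subgroup G} (hAP : AmalgProp B C)
    (hBC : B ⊔ C = ⊤) {Ψ : Gr G X} (hΨ : Ψ.Meas) (hfin : Ψ.FinSupp)
    (hgen : ∀ (p : X) (g : G), Gen (OR C) Ψ p (g • p)) {η : ENNReal} (hη : η ≠ 0) :
    ∃ Ψ' : Gr G X, Ψ'.Meas ∧ Ψ'.SuppIn B ∧ (∀ p q, OR B p q → Gen (OR (B ⊓ C)) Ψ' p q) ∧
      Ψ'.cost μ ≤ Ψ.cost μ + η := by
  classical
  choose n P hP0 hP1 hP2 using fun g => Sheets.exists_path hBC g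
  set F : Finset G := hfin.toFinset with hFdef
  set L := F.sup n with hL
  obtain ⟨H, _, _, sh, s1, s2, s3, s4⟩ := Sheets.exists_sheets F L
  let _ : MeasurableSpace H := ⊤
  have : DiscreteMeasurableSpace H := ⟨fun _ => trivial⟩
  refine Sheets.main hF hAP hΨ hgen hη F L P sh (fun g hg => (Set.Finite.mem_toFinset hfin).mpr hg) hP0
    (fun g hg => hP1 g _ ?_) hP2 s1 s2 s3 s4
  have := Finset.le_sup (f := n) hg
  omega

end Sheets

end Crest.Agent.R191
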