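import Crest.Agent.R191.Rel

/-!
# Row 191, T9: truncation to finitely many group elements
-/

set_option autoImplicit false

namespace Crest.Agent.R191

open MeasureTheory Filter Topology

section Truncate

variable {G X : Type*} [Group G] [MulAction G X]

theorem gen_mono {S : X → X → Prop} {Φ Ψ : Gr G X} (h : ∀ g, Φ g ⊆ Ψ g) {p q : X}
    (hpq : Gen S Φ p q) : Gen S Ψ p q := by
  refine Relation.EqvGen.mono (fun a b => ?_) _ _ hpq
  rintro (hab | ⟨g, hg, hb⟩)
  · exact Or.inl hab
  · exact Or.inr ⟨g, h g hg, hb⟩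

theorem gen_le_of {S : X → X → Prop} {Φ Ψ : Gr G X}
    (h : ∀ g, ∀ p ∈ Φ g, Gen S Ψ p (g • p)) {p q : X} (hpq : Gen S Φ p q) : Gen S Ψ p q := by
  induction hpq with
  | rel a b hab =>
    rcases hab with hab | ⟨g, hg, rfl⟩
    · exact Relation.EqvGen.rel _ _ (Or.inl hab)
    · exact h g a hg
  | refl a => exact Relation.EqvGen.refl _
  | symm a b _ ih => exact Relation.EqvGen.symm _ _ ih
  | trans a b c _ _ ih1 ih2 => exact Relation.EqvGen.trans _ _ _ ih1 ih2

open Classical in
/-- Restriction of a graphing to finitely many group elements. -/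
def Gr.restr (Ψ : Gr G X) (s : Finset G) : Gr G X := fun g => if g ∈ s then Ψ g else ∅

theorem Gr.restr_subset (Ψ : Gr G X) (s : Finset G) (g : G) : Ψ.restr s g ⊆ Ψ g := by
  unfold Gr.restr
  split_ifs
  · exact subset_rfl
  · exact Set.empty_subset _

theorem Gr.restr_mono (Ψ : Gr G X) {s t : Finset G} (hst : s ⊆ t) (g : G) :
    Ψ.restr s g ⊆ Ψ.restr t g := by
  unfold Gr.restr
  by_cases h : g ∈ s
  · rw [if_pos h, if_pos (hst h)]
  · rw [if_neg h]
    exact Set.empty_subset _

/-- A generated pair is already generated by finitely many group elements. -/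
theorem exists_restr_gen {S : X → X → Prop} {Ψ : Gr G X} {s : ℕ → Finset G} (hs : Monotone s)
    (hsu : ∀ g, ∃ n, g ∈ s n) {p q : X} (hpq : Gen S Ψ p q) :
    ∃ n, Gen S (Ψ.restr (s n)) p q := by
  induction hpq with
  | rel a b hab =>
    rcases hab with hab | ⟨g, hg, rfl⟩
    · exact ⟨0, Relation.EqvGen.rel _ _ (Or.inl hab)⟩
    · obtain ⟨n, hn⟩ := hsu g
      refine ⟨n, Relation.EqvGen.rel _ _ (Or.inr ⟨g, ?_, rfl⟩)⟩
      unfold Gr.restr
      rw [if_pos hn]
      exact hg
  | refl a => exact ⟨0, Relation.EqvGen.refl _⟩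
  | symm a b _ ih =>
    obtain ⟨n, hn⟩ := ih
    exact ⟨n, Relation.EqvGen.symm _ _ hn⟩
  | trans a b c _ _ ih1 ih2 =>
    obtain ⟨n, hn⟩ := ih1
    obtain ⟨m, hm⟩ := ih2
    refine ⟨max n m, Relation.EqvGen.trans _ b _ ?_ ?_⟩
    · exact gen_mono (Ψ.restr_mono (hs (le_max_left n m))) hn
    · exact gen_mono (Ψ.restr_mono (hs (le_max_right n m))) hm

end Truncate

section Truncate

variable {G X : Type*} [Group G] [Countable G] [MulAction G X] [MeasurableSpace X]
  {μ : Measure X} [IsFiniteMeasure μ]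

theorem truncate (hF : FreeAct G X μ) {S : X → X → Prop} (hS : MRel G S) (F : Finset G)
    {H : Subgroup G} (hFH : ∀ g ∈ F, g ∈ H)
    (hgenF : ∀ p q, OR H p q → Gen S (fun g => {_p : X | g ∈ F}) p q)
    {Ψ : Gr G X} (hΨ : Ψ.Meas) (hsupp : Ψ.SuppIn H)
    (hgen : ∀ p, ∀ g ∈ F, Gen S Ψ p (g • p)) {η : ENNReal} (hη : η ≠ 0) :
    ∃ Ψ' : Gr G X, Ψ'.Meas ∧ Ψ'.FinSupp ∧ Ψ'.SuppIn H ∧ (∀ p q, OR H p q → Gen S Ψ' p q) ∧
      Ψ'.cost μ ≤ Ψ.cost μ + η := by
  classical
  obtain ⟨e, he⟩ := exists_injective_nat G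
  have hfin : ∀ n : ℕ, {g : G | e g < n}.Finite := fun n =>
    Set.Finite.preimage he.injOn (Set.finite_Iio n)
  let s : ℕ → Finset G := fun n => (hfin n).toFinset
  have hs : Monotone s := by
    intro n m hnm g hg
    simp only [s, Set.Finite.mem_toFinset, Set.mem_ofPred_eq] at hg ⊢
    omega
  have hsu : ∀ g, ∃ n, g ∈ s n := fun g => ⟨e g + 1, by simp [s]⟩
  have hmeas : ∀ n, (Ψ.restr (s n)).Meas := by
    intro n g
    unfold Gr.restr
    split_ifs
    · exact hΨ g
    · exact MeasurableSet.empty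
  let D : ℕ → G → Set X := fun n g => {p | ¬ Gen S (Ψ.restr (s n)) p (g • p)}
  have hDm : ∀ n g, MeasurableSet (D n g) := fun n g =>
    ((MRel.gen hF hS (hmeas n)).meas g).compl
  have hDanti : ∀ g, Antitone (fun n => D n g) := by
    intro g n m hnm p hp hp'
    exact hp (gen_mono (Ψ.restr_mono (hs hnm)) hp')
  have hDempty : ∀ g ∈ F, ⋂ n, D n g = ∅ := by
    intro g hg
    rw [Set.eq_empty_iff_forall_notMem]
    intro p hp
    obtain ⟨n, hn⟩ := exists_restr_gen hs hsu (hgen p g hg)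
    exact (Set.mem_iInter.mp hp n) hn
  have hlim : ∀ g ∈ F, Tendsto (fun n => μ (D n g)) atTop (𝓝 0) := by
    intro g hg
    have := tendsto_measure_iInter_atTop (μ := μ) (fun n => (hDm n g).nullMeasurableSet)
      (hDanti g) ⟨0, measure_ne_top μ _⟩
    rwa [hDempty g hg, measure_empty] at this
  have hsum : Tendsto (fun n => ∑ g ∈ F, μ (D n g)) atTop (𝓝 0) := by
    have := tendsto_finsetSum F hlim
    simpa using this
  obtain ⟨n, hn⟩ : ∃ n, ∑ g ∈ F, μ (D n g) ≤ η := by
    have := hsum.eventually (gt_mem_nhds (pos_iff_ne_zero.mpr hη))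
    obtain ⟨n, hn⟩ := this.exists
    exact ⟨n, le_of_lt hn⟩
  let Ψ' : Gr G X := fun g => Ψ.restr (s n) g ∪ (if g ∈ F then D n g else ∅)
  refine ⟨Ψ', ?_, ?_, ?_, ?_, ?_⟩
  · intro g
    refine (hmeas n g).union ?_
    split_ifs
    · exact hDm n g
    · exact MeasurableSet.empty
  · refine (Set.Finite.union (s n).finite_toSet F.finite_toSet).subset ?_
    rintro g ⟨p, hp⟩
    rcases hp with hp | hp
    · left
      unfold Gr.restr at hp
      by_contra h
      rw [if_neg (by simpa using h)] at hp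
      exact hp
    · right
      by_contra h
      rw [if_neg (by simpa using h)] at hp
      exact hp
  · intro g hg
    have h1 : Ψ.restr (s n) g = ∅ := by
      rw [← Set.subset_empty_iff, ← hsupp g hg]
      exact Ψ.restr_subset _ g
    have h2 : g ∉ F := fun h => hg (hFH g h)
    simp only [Ψ', h1, if_neg h2, Set.union_empty]
  · intro p q hpq
    refine gen_le_of ?_ (hgenF p q hpq)
    intro g p hp
    have hgF : g ∈ F := hp
    by_cases h : Gen S (Ψ.restr (s n)) p (g • p)
    · exact gen_mono (fun g => Set.subset_union_left) h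
    · refine Relation.EqvGen.rel _ _ (Or.inr ⟨g, Or.inr ?_, rfl⟩)
      rw [if_pos hgF]
      exact h
  · calc Ψ'.cost μ ≤ ∑' g, (μ (Ψ g) + μ (if g ∈ F then D n g else ∅)) := by
          refine ENNReal.tsum_le_tsum fun g => ?_
          refine (measure_union_le _ _).trans ?_
          gcongr
          exact Ψ.restr_subset _ g
      _ = Ψ.cost μ + ∑' g, μ (if g ∈ F then D n g else ∅) := ENNReal.tsum_add
      _ = Ψ.cost μ + ∑ g ∈ F, μ (D n g) := by
          congr 1
          rw [tsum_eq_sum (s := F)]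
          · exact Finset.sum_congr rfl fun g hg => by rw [if_pos hg]
          · intro g hg
            rw [if_neg hg, measure_empty]
      _ ≤ Ψ.cost μ + η := by gcongr

end Truncate

end Crest.Agent.R191
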