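import Crest.Agent.R191.Defs
import Crest.Agent.R191.IIDefs
import Crest.Agent.R191.Rel
import Crest.Agent.R191.Marker
import Crest.Agent.R191.Contract
import Crest.Agent.R191.Truncate
import Crest.Agent.R191.Sheets
import Crest.Agent.R191.PartII

set_option autoImplicit false

namespace Crest.Agent.R191

open MeasureTheory

/-! ### small general facts on `Gen` -/

section
variable {G Z : Type*} [Group G] [MulAction G Z]

theorem Gen.low_equiv (S : Z → Z → Prop) (Φ : Gr G Z) : Equivalence (Gen S Φ) :=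
  Relation.EqvGen.is_equivalence _

theorem Gen.low_mono {G' : Type*} [Group G'] [MulAction G' Z] {S S' : Z → Z → Prop} {Φ : Gr G Z}
    {Φ' : Gr G' Z}
    (h : ∀ p q, S p q ∨ Φ.Step p q → Gen S' Φ' p q) {p q : Z} (hpq : Gen S Φ p q) :
    Gen S' Φ' p q := by
  induction hpq with
  | rel x y hxy => exact h x y hxy
  | refl x => exact (Gen.low_equiv S' Φ').refl x
  | symm x y _ ih => exact (Gen.low_equiv S' Φ').symm ih
  | trans x y z _ _ ih1 ih2 => exact (Gen.low_equiv S' Φ').trans ih1 ih2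

theorem Gen.low_of_rel {S : Z → Z → Prop} {Φ : Gr G Z} {p q : Z} (h : S p q) : Gen S Φ p q :=
  Relation.EqvGen.rel _ _ (Or.inl h)

theorem Gen.low_of_step {S : Z → Z → Prop} {Φ : Gr G Z} {p q : Z} (h : Φ.Step p q) : Gen S Φ p q :=
  Relation.EqvGen.rel _ _ (Or.inr h)

theorem Gen.low_orb {S : Z → Z → Prop} {Φ : Gr G Z} (hS : ∀ p q, S p q → ∃ g : G, q = g • p)
    {p q : Z} (h : Gen S Φ p q) : ∃ g : G, q = g • p := by
  induction h with
  | rel x y hxy =>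
    rcases hxy with h | ⟨g, _, rfl⟩
    · exact hS x y h
    · exact ⟨g, rfl⟩
  | refl x => exact ⟨1, (one_smul _ _).symm⟩
  | symm x y _ ih =>
    obtain ⟨g, rfl⟩ := ih
    exact ⟨g⁻¹, (inv_smul_smul _ _).symm⟩
  | trans x y z _ _ ih1 ih2 =>
    obtain ⟨g, rfl⟩ := ih1
    obtain ⟨h, rfl⟩ := ih2
    exact ⟨h * g, (mul_smul _ _ _).symm⟩

theorem OR.low_equiv (H : Subgroup G) : Equivalence (OR (Z := Z) H) where
  refl p := ⟨1, H.one_mem, (one_smul _ _).symm⟩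
  symm := by
    rintro p q ⟨h, hh, rfl⟩
    exact ⟨h⁻¹, H.inv_mem hh, (inv_smul_smul _ _).symm⟩
  trans := by
    rintro p q s ⟨h, hh, rfl⟩ ⟨k, hk, rfl⟩
    exact ⟨k * h, H.mul_mem hk hh, (mul_smul _ _ _).symm⟩

end

section
variable {G Z : Type*} [Group G] [MulAction G Z]

/-- the subgroup of elements moving every point inside its `r`-class -/
def lowStabRel {r : Z → Z → Prop} (he : Equivalence r) : Subgroup G where
  carrier := {g | ∀ p, r p (g • p)}
  mul_mem' := by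
    intro x y hx hy p
    rw [mul_smul]
    exact he.trans (hy p) (hx (y • p))
  one_mem' := by intro p; rw [one_smul]; exact he.refl p
  inv_mem' := by
    intro x hx p
    have := hx (x⁻¹ • p)
    rw [smul_inv_smul] at this
    exact he.symm this

end

/-- `F2` is generated by `EF` and `la`. -/
theorem low_range_le_of {G : Type*} [Group G] (ι : F2 →* G) (K : Subgroup G)
    (h1 : ∀ e ∈ EF, ι e ∈ K) (h2 : ι la ∈ K) : ι.range ≤ K := by
  rintro _ ⟨b, rfl⟩
  have hlb : ι lb ∈ K := by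
    have h3 : la * lb ∈ EF := Subgroup.subset_closure (by simp)
    have h4 := h1 _ h3
    rw [map_mul] at h4
    exact (Subgroup.mul_mem_cancel_left K h2).1 h4
  have : (⊤ : Subgroup F2) ≤ K.comap ι := by
    rw [← FreeGroup.closure_range_of, Subgroup.closure_le]
    rintro _ ⟨i, rfl⟩
    fin_cases i
    · exact h2
    · exact hlb
  exact this (Subgroup.mem_top b)

theorem lower {Γ X : Type} [Group Γ] [Countable Γ] [MulAction Γ X] [MeasurableSpace X]
    [StandardBorelSpace X] {μ : Measure X} [IsProbabilityMeasure μ] (hF : FreeAct Γ X μ)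
    (ι : F2 →* Γ) (hι : Function.Injective ι) (z : Γ)
    (hz : Function.Injective (fun n : ℤ => z ^ n))
    (htop : Subgroup.closure (insert z (Set.range ι)) = ⊤)
    (hAP : AmalgProp ι.range (Subgroup.closure (insert z (ι '' EF))))
    (hint : ∀ g ∈ ι.range, g ∈ Subgroup.closure (insert z (ι '' EF)) → g ∈ EF.map ι)
    (hgap : ∀ S : Set X, MeasurableSet S → 1 / 100 * (μ.real S * (1 - μ.real S)) ≤
        μ.real S - μ.real {y | y ∈ S ∧ ι la • y ∈ S ∧ ι lb • y ∈ S})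
    {U : Fin 4 → Set X} (hU : ∀ i, MeasurableSet (U i))
    (hUμ : ∀ i, μ (U i) ≤ 1 / 4) (hUc : ⋃ i, U i = Set.univ)
    {Φ : Gr Γ X} (hΦ : Φ.Meas) (hgen : ∀ (p : X) (g : Γ), Gen (fun _ _ => False) Φ p (g • p)) :
    1 + ENNReal.ofReal (1 / 20000) ≤ Φ.cost μ := by
  set B : Subgroup Γ := ι.range with hBdef
  set C : Subgroup Γ := Subgroup.closure (insert z (ι '' EF)) with hCdef
  set η : ENNReal := ENNReal.ofReal (1 / 10000) with hη
  have hη0 : η ≠ 0 := by rw [hη]; simp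
  have hzC : z ∈ C := Subgroup.subset_closure (Set.mem_insert _ _)
  have hEC : ∀ e ∈ EF, ι e ∈ C := fun e he =>
    Subgroup.subset_closure (Set.mem_insert_of_mem _ ⟨e, he, rfl⟩)
  have hEB : ∀ e ∈ EF, ι e ∈ B := fun e _ => ⟨e, rfl⟩
  -- Step 1: a small complete section of `OR C`
  obtain ⟨A, -, hAm, hAμ, hAs⟩ := marker hF (MRel.OR hF C) (OR.low_equiv C) (D := Set.univ)
    MeasurableSet.univ (fun _ _ _ _ => Set.mem_univ _)
    (fun p _ => (Set.infinite_range_of_injective hz).mono (by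
      rintro _ ⟨n, rfl⟩
      exact ⟨z ^ n, C.zpow_mem hzC n, rfl⟩)) hη0
  -- Step 2: contraction
  obtain ⟨Ψ₁, hΨ₁m, -, -, -, hΨ₁g, hΨ₁c⟩ := contract hF hAm (S := fun _ _ => False)
    (fun _ _ h => h.elim) hΦ (fun p => by
      obtain ⟨q, hq, g, _, rfl⟩ := hAs p (Set.mem_univ p)
      exact ⟨_, hq, hgen p g⟩)
  have hgen1 : ∀ (p : X) (g : Γ), Gen (OR C) Ψ₁ p (g • p) := by
    intro p g
    obtain ⟨a, ha, ha'⟩ := hAs p (Set.mem_univ p)
    obtain ⟨b, hb, hb'⟩ := hAs (g • p) (Set.mem_univ _)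
    have h1 : Gen (fun _ _ => False) Φ a b := by
      obtain ⟨c, _, rfl⟩ := ha'
      obtain ⟨d, _, rfl⟩ := hb'
      have := hgen (c • p) (d * g * c⁻¹)
      rwa [← mul_smul, inv_mul_cancel_right, mul_smul] at this
    have h2 : Gen (OR C) Ψ₁ a b := (hΨ₁g a ha b hb h1).low_mono (by
      rintro p q (h | h)
      · exact h.elim
      · exact Gen.low_of_step h)
    exact (Gen.low_equiv _ _).trans (Gen.low_of_rel ha')
      ((Gen.low_equiv _ _).trans h2 ((Gen.low_equiv _ _).symm (Gen.low_of_rel hb')))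
  -- Step 3: truncate
  obtain ⟨Ψ₂, hΨ₂m, hΨ₂f, -, hΨ₂g, hΨ₂c⟩ := truncate hF (MRel.OR hF C) {ι la} (H := ⊤)
    (fun _ _ => Subgroup.mem_top _) (by
      rintro p q ⟨g, -, rfl⟩
      have he := Gen.low_equiv (OR C) (fun g => {_p : X | g ∈ ({ι la} : Finset Γ)})
      have hK : ∀ c ∈ C, c ∈ lowStabRel (G := Γ) he := fun c hc p => Gen.low_of_rel ⟨c, hc, rfl⟩
      have hla : ι la ∈ lowStabRel (G := Γ) he := fun p =>
        Gen.low_of_step ⟨ι la, by simp, rfl⟩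
      have htop' : (⊤ : Subgroup Γ) ≤ lowStabRel he := by
        rw [← htop, Subgroup.closure_le]
        rintro x (rfl | hx)
        · exact hK _ hzC
        · exact low_range_le_of ι _ (fun e he' => hK _ (hEC e he')) hla hx
      exact htop' (Subgroup.mem_top g) p)
    hΨ₁m (fun g hg => (hg (Subgroup.mem_top g)).elim) (fun p g _ => hgen1 p g) hη0
  -- Step 4: amalgam
  have hBC : B ⊔ C = ⊤ := by
    rw [eq_top_iff, ← htop, Subgroup.closure_le]
    rintro x (rfl | hx)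
    · exact (le_sup_right : C ≤ B ⊔ C) hzC
    · exact (le_sup_left : B ≤ B ⊔ C) hx
  obtain ⟨Ψ₃, hΨ₃m, hΨ₃s, hΨ₃g, hΨ₃c⟩ := relcost_amalgam hF hAP hBC hΨ₂m hΨ₂f
    (fun p g => hΨ₂g p _ ⟨g, Subgroup.mem_top g, rfl⟩) hη0
  -- Step 5: truncate again
  obtain ⟨Ψ₄, hΨ₄m, hΨ₄f, hΨ₄s, hΨ₄g, hΨ₄c⟩ := truncate hF (MRel.OR hF (B ⊓ C)) {ι la} (H := B)
    (fun g hg => by
      rw [Finset.mem_singleton] at hg
      exact ⟨la, hg.symm⟩) (by
      rintro p q ⟨g, hg, rfl⟩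
      have he := Gen.low_equiv (OR (B ⊓ C)) (fun g => {_p : X | g ∈ ({ι la} : Finset Γ)})
      have hK : ∀ c ∈ B ⊓ C, c ∈ lowStabRel (G := Γ) he := fun c hc p => Gen.low_of_rel ⟨c, hc, rfl⟩
      have hla : ι la ∈ lowStabRel (G := Γ) he := fun p =>
        Gen.low_of_step ⟨ι la, by simp, rfl⟩
      exact low_range_le_of ι _ (fun e he' => hK _ ⟨hEB e he', hEC e he'⟩) hla hg p)
    hΨ₃m hΨ₃s (fun p g hg => hΨ₃g p _ ⟨g, by
      rw [Finset.mem_singleton] at hg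
      exact ⟨la, hg.symm⟩, rfl⟩) hη0
  -- Step 6: pull back to `F2`
  let _ : MulAction F2 X := MulAction.compHom X ι
  have hsm : ∀ (b : F2) (x : X), b • x = ι b • x := fun _ _ => rfl
  have hF2 : FreeAct F2 X μ :=
    ⟨fun g p h => hι (by rw [map_one]; exact hF.free _ _ h), fun g => hF.mp (ι g)⟩
  let Ψ₅ : Gr F2 X := fun b => Ψ₄ (ι b)
  have hΨ₅m : Ψ₅.Meas := fun b => hΨ₄m (ι b)
  have hΨ₅f : Ψ₅.FinSupp := by
    have h : (ι ⁻¹' {g | (Ψ₄ g).Nonempty}).Finite := Set.Finite.preimage hι.injOn hΨ₄f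
    exact h
  have hΨ₅g : ∀ x : X, Gen (OR EF) Ψ₅ x (la • x) := by
    intro x
    refine (hΨ₄g x (ι la • x) ⟨ι la, ⟨la, rfl⟩, rfl⟩).low_mono ?_
    rintro p q (⟨g, hg, rfl⟩ | ⟨g, hg, rfl⟩)
    · obtain ⟨e, he, rfl⟩ := hint g hg.1 hg.2
      exact Gen.low_of_rel ⟨e, he, rfl⟩
    · by_cases hgB : g ∈ B
      · obtain ⟨b, rfl⟩ := hgB
        exact Gen.low_of_step ⟨b, hg, rfl⟩
      · rw [hΨ₄s g hgB] at hg
        exact hg.elim
  have hfinal := partII hF2 hgap hU hUμ hUc hΨ₅m hΨ₅f hΨ₅g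
  have hΨ₅c : Ψ₅.cost μ ≤ Ψ₄.cost μ := ENNReal.tsum_comp_le_tsum_of_injective hι _
  -- Step 7: numbers
  by_contra hcon
  rw [not_le] at hcon
  have h1 : Ψ₁.cost μ + 1 ≤ Φ.cost μ + η := by
    have : (1 : ENNReal) ≤ μ Aᶜ + η := by
      rw [← measure_univ (μ := μ), ← measure_add_measure_compl hAm, add_comm]
      exact add_le_add le_rfl hAμ
    calc Ψ₁.cost μ + 1 ≤ Ψ₁.cost μ + (μ Aᶜ + η) := add_le_add le_rfl this
      _ = (Ψ₁.cost μ + μ Aᶜ) + η := (add_assoc _ _ _).symm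
      _ ≤ Φ.cost μ + η := add_le_add hΨ₁c le_rfl
  have h2 : Ψ₁.cost μ < ENNReal.ofReal (1 / 20000) + η := by
    have h3 : Ψ₁.cost μ + 1 < (ENNReal.ofReal (1 / 20000) + η) + 1 := by
      refine lt_of_le_of_lt h1 ?_
      rw [add_comm (ENNReal.ofReal (1 / 20000) + η) 1, ← add_assoc]
      exact ENNReal.add_lt_add_right (by rw [hη]; exact ENNReal.ofReal_ne_top) hcon
    exact lt_of_add_lt_add_right h3
  have h4 : Ψ₅.cost μ ≤ ENNReal.ofReal (1 / 20000) + η + η + η + η := by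
    calc Ψ₅.cost μ ≤ Ψ₄.cost μ := hΨ₅c
      _ ≤ Ψ₃.cost μ + η := hΨ₄c
      _ ≤ (Ψ₂.cost μ + η) + η := add_le_add hΨ₃c le_rfl
      _ ≤ ((Ψ₁.cost μ + η) + η) + η := add_le_add (add_le_add hΨ₂c le_rfl) le_rfl
      _ ≤ _ := add_le_add (add_le_add (add_le_add h2.le le_rfl) le_rfl) le_rfl
  have h5 := hfinal.trans h4
  rw [hη, ← ENNReal.ofReal_add (by norm_num) (by norm_num),
    ← ENNReal.ofReal_add (by norm_num) (by norm_num),
    ← ENNReal.ofReal_add (by norm_num) (by norm_num),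
    ← ENNReal.ofReal_add (by norm_num) (by norm_num),
    ENNReal.ofReal_le_ofReal_iff (by norm_num)] at h5
  norm_num at h5

end Crest.Agent.R191
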