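import Crest.Agent.R191.Cactus
import Crest.Agent.R191.Defs
import Crest.Agent.R191.IIDefs

/-!
# Row 191, T10: non-backtracking paths in the incidence forest
-/

set_option autoImplicit false

namespace Crest.Agent.R191

open Monoid

/-- A list `l = [(j₁, j₁'), (j₂, j₂'), …]` is read from the start:
`b = … (gam j₂' * (gam j₂)⁻¹) * (gam j₁' * (gam j₁)⁻¹)`. -/
def pathProd : List (Fin 3 × Fin 3) → F2
  | [] => 1
  | jj :: l => pathProd l * (gam jj.2 * (gam jj.1)⁻¹)

/-- non-backtracking -/
def NB (l : List (Fin 3 × Fin 3)) : Prop :=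
  (∀ jj ∈ l, jj.1 ≠ jj.2) ∧ List.IsChain (fun u v : Fin 3 × Fin 3 => u.2 ≠ v.1) l

/-- The cast `Fin 3 → ZMod 3`. -/
def z3 (j : Fin 3) : ZMod 3 := j

theorem z3_ne {i j : Fin 3} (h : i ≠ j) : z3 i ≠ z3 j := h

/-- The homomorphism to the free product of three copies of `ℤ/2`. -/
noncomputable def toTau : F2 →* CoprodI (CZ2 3) :=
  FreeGroup.lift (fun i : Fin 2 => ctau (z3 i.succ) * ctau (z3 0))

theorem toTau_gam (j : Fin 3) : toTau (gam j) = ctau (z3 j) * ctau (z3 0) := by
  fin_cases j
  · show toTau 1 = ctau (z3 0) * ctau (z3 0)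
    rw [map_one]
    exact (ctau_mul_self _).symm
  · show toTau la = _
    simp only [toTau, la, FreeGroup.lift_apply_of]
    rfl
  · show toTau lb = _
    simp only [toTau, lb, FreeGroup.lift_apply_of]
    rfl

/-- The list of indices of a path. -/
def pidx : List (Fin 3 × Fin 3) → List (ZMod 3)
  | [] => []
  | jj :: l => z3 jj.1 :: z3 jj.2 :: pidx l

theorem pidx_chain (l : List (Fin 3 × Fin 3)) (h : NB l) :
    (pidx l).IsChain (fun a b => a ≠ b) := by
  induction l with
  | nil => simp [pidx]
  | cons jj l ih =>
    obtain ⟨h1, h2⟩ := h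
    have hl : NB l := ⟨fun x hx => h1 x (List.mem_cons_of_mem _ hx), by
      cases l with
      | nil => simp
      | cons y l => exact (List.isChain_cons_cons.mp h2).2⟩
    have ih' := ih hl
    cases l with
    | nil =>
      simp only [pidx]
      rw [List.isChain_cons_cons]
      exact ⟨z3_ne (h1 jj List.mem_cons_self), by simp⟩
    | cons y l =>
      simp only [pidx] at ih' ⊢
      rw [List.isChain_cons_cons, List.isChain_cons_cons]
      exact ⟨z3_ne (h1 jj List.mem_cons_self), z3_ne (List.isChain_cons_cons.mp h2).1, ih'⟩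

theorem toTau_pathProd (l : List (Fin 3 × Fin 3)) :
    (toTau (pathProd l))⁻¹ = ((pidx l).map ctau).prod := by
  induction l with
  | nil => simp [pathProd, pidx]
  | cons jj l ih =>
    have h0 := ctau_mul_self (z3 0)
    rw [pathProd, pidx, List.map_cons, List.map_cons, List.prod_cons, List.prod_cons, ← ih,
      map_mul, map_mul, map_inv, toTau_gam, toTau_gam]
    simp only [mul_inv_rev, ctau_inv, inv_inv]
    calc ctau (z3 jj.1) * ctau (z3 0) * (ctau (z3 0) * ctau (z3 jj.2)) * (toTau (pathProd l))⁻¹
        = ctau (z3 jj.1) * (ctau (z3 0) * ctau (z3 0)) *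
            ctau (z3 jj.2) * (toTau (pathProd l))⁻¹ := by
          simp only [mul_assoc]
      _ = _ := by rw [h0, mul_one, mul_assoc]

theorem path_ne_one (l : List (Fin 3 × Fin 3)) (h : NB l) (hl : l ≠ []) : pathProd l ≠ 1 := by
  intro he
  have h1 := toTau_pathProd l
  rw [he, map_one, inv_one] at h1
  refine ctau_prod_ne_one (pidx l) ?_ (pidx_chain l h) h1.symm
  cases l with
  | nil => exact absurd rfl hl
  | cons x l => simp [pidx]

theorem exists_path_mul (b : F2) (hb : ∃ l, NB l ∧ pathProd l = b) (j j' : Fin 3) (hj : j ≠ j') :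
    ∃ l, NB l ∧ pathProd l = b * (gam j' * (gam j)⁻¹) := by
  obtain ⟨l, hl, rfl⟩ := hb
  cases l with
  | nil => exact ⟨[(j, j')], ⟨by simpa using hj, by simp⟩, rfl⟩
  | cons kk l =>
    obtain ⟨k, k'⟩ := kk
    obtain ⟨h1, h2⟩ := hl
    have hk : k ≠ k' := h1 (k, k') List.mem_cons_self
    have h1' : ∀ jj ∈ l, jj.1 ≠ jj.2 := fun x hx => h1 x (List.mem_cons_of_mem _ hx)
    have h2' : l.IsChain (fun u v : Fin 3 × Fin 3 => u.2 ≠ v.1) := by
      cases l with
      | nil => simp
      | cons y l => exact (List.isChain_cons_cons.mp h2).2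
    by_cases h3 : j' = k
    · subst h3
      have e : pathProd ((j', k') :: l) * (gam j' * (gam j)⁻¹) =
          pathProd l * (gam k' * (gam j)⁻¹) := by
        simp only [pathProd]; group
      by_cases h4 : k' = j
      · subst h4
        refine ⟨l, ⟨h1', h2'⟩, ?_⟩
        rw [e]; simp
      · refine ⟨(j, k') :: l, ⟨?_, ?_⟩, ?_⟩
        · intro x hx
          rcases List.mem_cons.mp hx with rfl | hx
          · exact fun h => h4 h.symm
          · exact h1' x hx
        · cases l with
          | nil => simp
          | cons y l =>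
            rw [List.isChain_cons_cons] at h2 ⊢
            exact h2
        · rw [e]; rfl
    · refine ⟨(j, j') :: (k, k') :: l, ⟨?_, ?_⟩, rfl⟩
      · intro x hx
        rcases List.mem_cons.mp hx with rfl | hx
        · exact hj
        · exact h1 x hx
      · rw [List.isChain_cons_cons]
        exact ⟨h3, h2⟩

theorem exists_path (b : F2) : ∃ l : List (Fin 3 × Fin 3), NB l ∧ pathProd l = b := by
  have key : ∀ x : F2, ∀ b : F2, (∃ l, NB l ∧ pathProd l = b) → ∃ l, NB l ∧ pathProd l = b * x := by
    intro x
    induction x using FreeGroup.induction_on with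
    | C1 => intro b hb; simpa using hb
    | of i =>
      intro b hb
      fin_cases i
      · have := exists_path_mul b hb 0 1 (by decide)
        simpa [gam, la] using this
      · have := exists_path_mul b hb 0 2 (by decide)
        simpa [gam, lb] using this
    | inv_of i _ =>
      intro b hb
      fin_cases i
      · have := exists_path_mul b hb 1 0 (by decide)
        simpa [gam, la] using this
      · have := exists_path_mul b hb 2 0 (by decide)
        simpa [gam, lb] using this
    | mul x y hx hy =>
      intro b hb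
      have := hy (b * x) (hx b hb)
      simpa [mul_assoc] using this
  have := key b 1 ⟨[], ⟨by simp, by simp⟩, rfl⟩
  simpa using this

end Crest.Agent.R191
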