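import Mathlib

/-!
# C1 (row 191): most 15-tuples of permutations of `Fin n` are lossless expanders

For `σ : Fin 15 → Perm (Fin n)` say that `σ` is *good* if every `S` with `|S| ≤ n / 10000`
satisfies `12 |S| ≤ |S ∪ σ_0 S ∪ … ∪ σ_14 S|`.  The number of tuples which are not good is at most
`(4 * 10 ^ 10 / n ^ 3) * (n !) ^ 15`.
-/

set_option autoImplicit false

namespace Crest.Agent.R191

open Finset Equiv

section PermCount

variable {α : Type*} [Fintype α] [DecidableEq α]

/-- permutations mapping `S` into `T` -/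
def permInto (S T : Finset α) : Finset (Perm α) := univ.filter fun σ => ∀ x ∈ S, σ x ∈ T

theorem mem_permInto {S T : Finset α} {σ : Perm α} : σ ∈ permInto S T ↔ ∀ x ∈ S, σ x ∈ T := by
  simp [permInto]

theorem card_permInto_insert (S T : Finset α) (a : α) (ha : a ∉ S) :
    (permInto (insert a S) T).card * (Fintype.card α - S.card)
      = (permInto S T).card * (T.card - S.card) := by
  classical
  have h1 : ((permInto S T ×ˢ Sᶜ).filter (fun p : Perm α × α => p.1 p.2 ∈ T)).card
      = (permInto S T).card * (T.card - S.card) := by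
    rw [Finset.card_filter, Finset.sum_product]
    rw [Finset.sum_const_nat (m := T.card - S.card)]
    intro σ hσ
    rw [← Finset.card_filter]
    have h2 : (Sᶜ.filter fun b => σ b ∈ T) = (T.map σ.symm.toEmbedding) \ S := by
      ext b
      simp only [Finset.mem_filter, Finset.mem_compl, Finset.mem_sdiff, Finset.mem_map_equiv,
        Equiv.symm_symm]
      tauto
    have h3 : S ⊆ T.map σ.symm.toEmbedding := by
      intro x hx
      rw [Finset.mem_map_equiv, Equiv.symm_symm]
      exact mem_permInto.1 hσ x hx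
    rw [h2, Finset.card_sdiff_of_subset h3, Finset.card_map]
  have h4 : ((permInto S T ×ˢ Sᶜ).filter (fun p : Perm α × α => p.1 p.2 ∈ T)).card
      = (permInto (insert a S) T ×ˢ Sᶜ).card := by
    apply Finset.card_nbij' (fun p => (p.1 * swap a p.2, p.2)) (fun p => (p.1 * swap a p.2, p.2))
    · rintro ⟨σ, b⟩ hp
      simp only [Finset.coe_filter, Finset.mem_product, Finset.mem_compl, Set.mem_ofPred_eq] at hp
      obtain ⟨⟨h1, h2⟩, h3⟩ := hp
      simp only [Finset.coe_product, Set.mem_prod, Finset.mem_coe, Finset.mem_compl]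
      refine ⟨?_, h2⟩
      rw [mem_permInto] at h1 ⊢
      intro x hx
      rw [Finset.mem_insert] at hx
      rcases hx with rfl | hx
      · simpa using h3
      · have : swap a b x = x := swap_apply_of_ne_of_ne (fun h => ha (h ▸ hx)) (fun h => h2 (h ▸ hx))
        simp only [Perm.coe_mul, Function.comp_apply, this]
        exact h1 x hx
    · rintro ⟨σ, b⟩ hp
      simp only [Finset.coe_product, Set.mem_prod, Finset.mem_coe, Finset.mem_compl] at hp
      obtain ⟨h1, h2⟩ := hp
      simp only [Finset.coe_filter, Finset.mem_product, Finset.mem_compl, Set.mem_ofPred_eq]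
      rw [mem_permInto] at h1 ⊢
      refine ⟨⟨?_, h2⟩, ?_⟩
      · intro x hx
        have : swap a b x = x := swap_apply_of_ne_of_ne (fun h => ha (h ▸ hx)) (fun h => h2 (h ▸ hx))
        simp only [Perm.coe_mul, Function.comp_apply, this]
        exact h1 x (Finset.mem_insert_of_mem hx)
      · simpa using h1 a (Finset.mem_insert_self _ _)
    · rintro ⟨σ, b⟩ _
      simp [mul_assoc]
    · rintro ⟨σ, b⟩ _
      simp [mul_assoc]
  rw [← h1, h4, Finset.card_product, Finset.card_compl]

theorem card_permInto_le (S T : Finset α) :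
    ((permInto S T).card : ℝ) ≤ ((T.card : ℝ) / Fintype.card α) ^ S.card
      * (Nat.factorial (Fintype.card α) : ℝ) := by
  classical
  induction S using Finset.induction_on with
  | empty =>
    simp only [Finset.card_empty, pow_zero, one_mul, Nat.cast_le]
    calc (permInto ∅ T).card ≤ (univ : Finset (Perm α)).card := Finset.card_le_card (Finset.subset_univ _)
      _ = _ := by rw [Finset.card_univ, Fintype.card_perm]
  | insert a S ha ih =>
    have h := card_permInto_insert S T a ha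
    have hSn : S.card < Fintype.card α := by
      have : (insert a S).card ≤ Fintype.card α := Finset.card_le_univ _
      rw [Finset.card_insert_of_notMem ha] at this
      omega
    rw [Finset.card_insert_of_notMem ha, pow_succ]
    have hT : T.card ≤ Fintype.card α := Finset.card_le_univ _
    have hn : (0 : ℝ) < Fintype.card α := by
      have : 0 < Fintype.card α := by omega
      exact_mod_cast this
    have hnS : (0 : ℝ) < (Fintype.card α : ℝ) - S.card := by
      have : (S.card : ℝ) < Fintype.card α := by exact_mod_cast hSn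
      linarith
    have h' : ((permInto (insert a S) T).card : ℝ) * ((Fintype.card α : ℝ) - S.card)
        = (permInto S T).card * ((T.card - S.card : ℕ) : ℝ) := by
      have := congrArg (Nat.cast : ℕ → ℝ) h
      rw [Nat.cast_mul, Nat.cast_mul, Nat.cast_sub hSn.le] at this
      exact this
    have hts : ((T.card - S.card : ℕ) : ℝ) ≤ ((T.card : ℝ) / Fintype.card α)
        * ((Fintype.card α : ℝ) - S.card) := by
      rw [div_mul_eq_mul_div, le_div_iff₀ hn]
      rcases le_total S.card T.card with hle | hle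
      · rw [Nat.cast_sub hle]
        have h1 : (T.card : ℝ) ≤ Fintype.card α := by exact_mod_cast hT
        have h2 : (0 : ℝ) ≤ S.card := Nat.cast_nonneg _
        nlinarith
      · rw [Nat.sub_eq_zero_of_le hle]
        simp only [Nat.cast_zero, zero_mul]
        positivity
    have h5 : ((permInto (insert a S) T).card : ℝ) * ((Fintype.card α : ℝ) - S.card)
        ≤ ((((T.card : ℝ) / Fintype.card α) ^ S.card * (Nat.factorial (Fintype.card α) : ℝ))
          * ((T.card : ℝ) / Fintype.card α)) * ((Fintype.card α : ℝ) - S.card) := by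
      rw [h']
      calc ((permInto S T).card : ℝ) * ((T.card - S.card : ℕ) : ℝ)
          ≤ (((T.card : ℝ) / Fintype.card α) ^ S.card * (Nat.factorial (Fintype.card α) : ℝ))
            * (((T.card : ℝ) / Fintype.card α) * ((Fintype.card α : ℝ) - S.card)) := by
            apply mul_le_mul ih hts (Nat.cast_nonneg _) (by positivity)
        _ = _ := by ring
    have h6 := le_of_mul_le_mul_right h5 hnS
    calc _ ≤ _ := h6
      _ = _ := by ring

end PermCount

section Union

/-- `σ` is a lossless expander: sets of at most `n / 10000` points expand by `12`. -/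
def LEGood (n : ℕ) (σ : Fin 15 → Perm (Fin n)) : Prop :=
  ∀ S : Finset (Fin n), 10000 * S.card ≤ n →
    12 * S.card ≤ (S ∪ univ.biUnion fun i => S.image (σ i)).card

theorem choose_le_exp (n r : ℕ) (hr : 0 < r) :
    ((n.choose r : ℕ) : ℝ) ≤ ((n : ℝ) * Real.exp 1 / r) ^ r := by
  have h1 : ((n.choose r : ℕ) : ℝ) ≤ (n : ℝ) ^ r / (Nat.factorial r : ℝ) := Nat.choose_le_pow_div r n
  have hr' : (0 : ℝ) < r := by exact_mod_cast hr
  have h2 : (r : ℝ) ^ r / (Nat.factorial r : ℝ) ≤ Real.exp r :=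
    Real.pow_div_factorial_le_exp _ hr'.le r
  have h3 : Real.exp r = Real.exp 1 ^ r := by
    rw [← Real.exp_nat_mul, mul_one]
  have hf : (0 : ℝ) < Nat.factorial r := by exact_mod_cast Nat.factorial_pos r
  have hrr : (0 : ℝ) < (r : ℝ) ^ r := by positivity
  calc ((n.choose r : ℕ) : ℝ) ≤ (n : ℝ) ^ r / (Nat.factorial r : ℝ) := h1
    _ = (n : ℝ) ^ r / (r : ℝ) ^ r * ((r : ℝ) ^ r / (Nat.factorial r : ℝ)) := by
        field_simp
    _ ≤ (n : ℝ) ^ r / (r : ℝ) ^ r * Real.exp r := by
        apply mul_le_mul_of_nonneg_left h2 (by positivity)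
    _ = _ := by rw [h3, div_pow, mul_pow]; ring

theorem const_le : Real.exp 1 ^ 12 * 12 ^ 15 / 11 ^ 11 ≤ 10 ^ 10 := by
  have h1 : Real.exp 1 < 2.7182818286 := Real.exp_one_lt_d9
  have h2 : Real.exp 1 ^ 12 ≤ (2.7182818286 : ℝ) ^ 12 := by
    apply pow_le_pow_left₀ (Real.exp_pos 1).le h1.le
  calc Real.exp 1 ^ 12 * 12 ^ 15 / 11 ^ 11 ≤ (2.7182818286 : ℝ) ^ 12 * 12 ^ 15 / 11 ^ 11 := by
        gcongr
    _ ≤ 10 ^ 10 := by norm_num

theorem cube_le (j : ℕ) : ((j : ℝ) + 1) ^ 3 ≤ 2 * 4 ^ j := by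
  rcases j with _ | _ | j
  · norm_num
  · norm_num
  · induction j with
    | zero => norm_num
    | succ j ih =>
      push_cast at ih ⊢
      have hj : (0 : ℝ) ≤ j := Nat.cast_nonneg _
      have : ((j : ℝ) + 1 + 1 + 1 + 1) ^ 3 ≤ 4 * ((j : ℝ) + 1 + 1 + 1) ^ 3 := by
        nlinarith [mul_nonneg hj hj, mul_nonneg hj (mul_nonneg hj hj)]
      calc ((j : ℝ) + 1 + 1 + 1 + 1) ^ 3 ≤ 4 * ((j : ℝ) + 1 + 1 + 1) ^ 3 := this
        _ ≤ 4 * (2 * 4 ^ (j + 1 + 1)) := by gcongr
        _ = _ := by ring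

/-- the term of the union bound -/
theorem term_le (n j : ℕ) (hn : 0 < n) (hj : 10000 * (j + 1) ≤ n) :
    ((n.choose (j + 1) : ℕ) : ℝ) * ((n.choose (11 * (j + 1)) : ℕ) : ℝ)
        * ((12 * ((j : ℝ) + 1) / n) ^ (j + 1)) ^ 15
      ≤ 2 * 10 ^ 10 / (n : ℝ) ^ 3 * (1 / 2) ^ j := by
  have hn' : (0 : ℝ) < n := by exact_mod_cast hn
  set r : ℝ := (j : ℝ) + 1 with hr
  have hrpos : (0 : ℝ) < r := by positivity
  have hjn : 10000 * r ≤ n := by
    have : ((10000 * (j + 1) : ℕ) : ℝ) ≤ n := by exact_mod_cast hj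
    push_cast at this
    exact this
  have h1 : ((n.choose (j + 1) : ℕ) : ℝ) ≤ ((n : ℝ) * Real.exp 1 / r) ^ (j + 1) := by
    have := choose_le_exp n (j + 1) (Nat.succ_pos _)
    push_cast at this
    exact this
  have h2 : ((n.choose (11 * (j + 1)) : ℕ) : ℝ)
      ≤ ((n : ℝ) * Real.exp 1 / (11 * r)) ^ (11 * (j + 1)) := by
    have := choose_le_exp n (11 * (j + 1)) (by omega)
    push_cast at this
    exact this
  have h3 : ((n.choose (j + 1) : ℕ) : ℝ) * ((n.choose (11 * (j + 1)) : ℕ) : ℝ)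
        * ((12 * r / n) ^ (j + 1)) ^ 15
      ≤ ((Real.exp 1 ^ 12 * 12 ^ 15 / 11 ^ 11) * (r / n) ^ 3) ^ (j + 1) := by
    calc _ ≤ ((n : ℝ) * Real.exp 1 / r) ^ (j + 1)
          * ((n : ℝ) * Real.exp 1 / (11 * r)) ^ (11 * (j + 1)) * ((12 * r / n) ^ (j + 1)) ^ 15 := by
          gcongr
      _ = (((n : ℝ) * Real.exp 1 / r) * ((n : ℝ) * Real.exp 1 / (11 * r)) ^ 11
          * (12 * r / n) ^ 15) ^ (j + 1) := by
          rw [mul_pow, mul_pow, ← pow_mul, ← pow_mul, ← pow_mul, mul_comm 15 (j + 1)]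
      _ = _ := by
          congr 1
          field_simp
  have h4 : (Real.exp 1 ^ 12 * 12 ^ 15 / 11 ^ 11) * (r / n) ^ 3 ≤ 10 ^ 10 * (r / n) ^ 3 := by
    gcongr
    exact const_le
  have h5 : r / n ≤ 1 / 10000 := by
    rw [div_le_div_iff₀ hn' (by norm_num)]
    linarith
  have h6 : (10 : ℝ) ^ 10 * (r / n) ^ 3 ≤ 1 / 8 := by
    calc (10 : ℝ) ^ 10 * (r / n) ^ 3 ≤ 10 ^ 10 * (1 / 10000) ^ 3 := by gcongr
      _ ≤ 1 / 8 := by norm_num
  have h0 : (0 : ℝ) ≤ (Real.exp 1 ^ 12 * 12 ^ 15 / 11 ^ 11) * (r / n) ^ 3 := by positivity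
  calc _ ≤ _ := h3
    _ ≤ (10 ^ 10 * (r / n) ^ 3) ^ (j + 1) := by gcongr
    _ = (10 ^ 10 * (r / n) ^ 3) ^ j * (10 ^ 10 * (r / n) ^ 3) := pow_succ _ _
    _ ≤ (1 / 8) ^ j * (10 ^ 10 * (r / n) ^ 3) := by gcongr
    _ = 10 ^ 10 / (n : ℝ) ^ 3 * ((1 / 8) ^ j * r ^ 3) := by rw [div_pow]; ring
    _ ≤ 10 ^ 10 / (n : ℝ) ^ 3 * ((1 / 8) ^ j * (2 * 4 ^ j)) := by
        have := cube_le j
        gcongr
    _ = 2 * 10 ^ 10 / (n : ℝ) ^ 3 * ((1 / 8) ^ j * 4 ^ j) := by ring
    _ = _ := by
        rw [← mul_pow]; norm_num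

theorem not_good_subset (n : ℕ) (σ : Fin 15 → Perm (Fin n)) (hσ : ¬ LEGood n σ) :
    ∃ j : ℕ, 10000 * (j + 1) ≤ n ∧ ∃ S ∈ Finset.powersetCard (j + 1) (univ : Finset (Fin n)),
      ∃ R ∈ Finset.powersetCard (11 * (j + 1)) (univ : Finset (Fin n)),
        σ ∈ Fintype.piFinset (fun _ : Fin 15 => permInto S (S ∪ R)) := by
  classical
  unfold LEGood at hσ
  push Not at hσ
  obtain ⟨S, hS, hlt⟩ := hσ
  have hSpos : 0 < S.card := by
    rcases Nat.eq_zero_or_pos S.card with h | h
    · rw [h] at hlt; omega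
    · exact h
  obtain ⟨j, hj⟩ : ∃ j, S.card = j + 1 := ⟨S.card - 1, by omega⟩
  refine ⟨j, by omega, S, ?_, ?_⟩
  · rw [Finset.mem_powersetCard]; exact ⟨Finset.subset_univ _, hj⟩
  set N := (S ∪ univ.biUnion fun i => S.image (σ i)) with hN
  have hSN : S ⊆ N := Finset.subset_union_left
  have h1 : (N \ S).card ≤ 11 * (j + 1) := by
    rw [Finset.card_sdiff_of_subset hSN]; omega
  have h2 : 11 * (j + 1) ≤ Fintype.card (Fin n) := by rw [Fintype.card_fin]; omega
  obtain ⟨R, hR1, hR2⟩ := Finset.exists_superset_card_eq h1 h2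
  refine ⟨R, ?_, ?_⟩
  · rw [Finset.mem_powersetCard]; exact ⟨Finset.subset_univ _, hR2⟩
  · rw [Fintype.mem_piFinset]
    intro i
    rw [mem_permInto]
    intro x hx
    by_cases h : σ i x ∈ S
    · exact Finset.mem_union_left _ h
    · apply Finset.mem_union_right
      apply hR1
      rw [Finset.mem_sdiff]
      refine ⟨?_, h⟩
      rw [hN]
      apply Finset.mem_union_right
      rw [Finset.mem_biUnion]
      exact ⟨i, Finset.mem_univ _, Finset.mem_image_of_mem _ hx⟩

open Classical in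
theorem card_not_good_le (n : ℕ) (hn : 0 < n) :
    ((univ.filter fun σ : Fin 15 → Perm (Fin n) => ¬ LEGood n σ).card : ℝ)
      ≤ (4 * 10 ^ 10 / (n : ℝ) ^ 3) * (Nat.factorial n : ℝ) ^ 15 := by
  have hn' : (0 : ℝ) < n := by exact_mod_cast hn
  set J := (Finset.range n).filter (fun j => 10000 * (j + 1) ≤ n) with hJ
  have hsub : (univ.filter fun σ : Fin 15 → Perm (Fin n) => ¬ LEGood n σ) ⊆
      J.biUnion fun j => (Finset.powersetCard (j + 1) (univ : Finset (Fin n))).biUnion fun S =>
        (Finset.powersetCard (11 * (j + 1)) (univ : Finset (Fin n))).biUnion fun R =>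
          Fintype.piFinset (fun _ : Fin 15 => permInto S (S ∪ R)) := by
    intro σ hσ
    rw [Finset.mem_filter] at hσ
    obtain ⟨j, hj, S, hS, R, hR, h⟩ := not_good_subset n σ hσ.2
    rw [Finset.mem_biUnion]
    refine ⟨j, ?_, ?_⟩
    · rw [hJ, Finset.mem_filter, Finset.mem_range]; exact ⟨by omega, hj⟩
    rw [Finset.mem_biUnion]
    refine ⟨S, hS, ?_⟩
    rw [Finset.mem_biUnion]
    exact ⟨R, hR, h⟩
  have hcard : ∀ j ∈ J, (((Finset.powersetCard (j + 1) (univ : Finset (Fin n))).biUnion fun S =>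
        (Finset.powersetCard (11 * (j + 1)) (univ : Finset (Fin n))).biUnion fun R =>
          Fintype.piFinset (fun _ : Fin 15 => permInto S (S ∪ R))).card : ℝ)
      ≤ (2 * 10 ^ 10 / (n : ℝ) ^ 3 * (1 / 2) ^ j) * (Nat.factorial n : ℝ) ^ 15 := by
    intro j hj
    rw [hJ, Finset.mem_filter] at hj
    have hterm : ∀ S ∈ Finset.powersetCard (j + 1) (univ : Finset (Fin n)),
        ∀ R ∈ Finset.powersetCard (11 * (j + 1)) (univ : Finset (Fin n)),
        ((Fintype.piFinset (fun _ : Fin 15 => permInto S (S ∪ R))).card : ℝ)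
          ≤ ((12 * ((j : ℝ) + 1) / n) ^ (j + 1)) ^ 15 * (Nat.factorial n : ℝ) ^ 15 := by
      intro S hS R hR
      rw [Finset.mem_powersetCard] at hS hR
      rw [Fintype.card_piFinset_const, Nat.cast_pow, ← mul_pow]
      apply pow_le_pow_left₀ (Nat.cast_nonneg _)
      have h1 := card_permInto_le S (S ∪ R)
      rw [Fintype.card_fin, hS.2] at h1
      refine h1.trans ?_
      have h2 : ((S ∪ R).card : ℝ) ≤ 12 * ((j : ℝ) + 1) := by
        have : (S ∪ R).card ≤ 12 * (j + 1) := by
          have := Finset.card_union_le S R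
          omega
        have : (((S ∪ R).card : ℕ) : ℝ) ≤ ((12 * (j + 1) : ℕ) : ℝ) := by exact_mod_cast this
        push_cast at this
        exact this
      gcongr
    calc (((Finset.powersetCard (j + 1) (univ : Finset (Fin n))).biUnion fun S =>
        (Finset.powersetCard (11 * (j + 1)) (univ : Finset (Fin n))).biUnion fun R =>
          Fintype.piFinset (fun _ : Fin 15 => permInto S (S ∪ R))).card : ℝ)
        ≤ ((∑ S ∈ Finset.powersetCard (j + 1) (univ : Finset (Fin n)),
          ((Finset.powersetCard (11 * (j + 1)) (univ : Finset (Fin n))).biUnion fun R =>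
          Fintype.piFinset (fun _ : Fin 15 => permInto S (S ∪ R))).card : ℕ) : ℝ) := by
          exact_mod_cast Finset.card_biUnion_le
      _ ≤ ((∑ S ∈ Finset.powersetCard (j + 1) (univ : Finset (Fin n)),
          ∑ R ∈ Finset.powersetCard (11 * (j + 1)) (univ : Finset (Fin n)),
          (Fintype.piFinset (fun _ : Fin 15 => permInto S (S ∪ R))).card : ℕ) : ℝ) := by
          exact_mod_cast Finset.sum_le_sum fun S _ => Finset.card_biUnion_le
      _ = ∑ S ∈ Finset.powersetCard (j + 1) (univ : Finset (Fin n)),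
          ∑ R ∈ Finset.powersetCard (11 * (j + 1)) (univ : Finset (Fin n)),
          ((Fintype.piFinset (fun _ : Fin 15 => permInto S (S ∪ R))).card : ℝ) := by
          push_cast; rfl
      _ ≤ ∑ S ∈ Finset.powersetCard (j + 1) (univ : Finset (Fin n)),
          ∑ R ∈ Finset.powersetCard (11 * (j + 1)) (univ : Finset (Fin n)),
          (((12 * ((j : ℝ) + 1) / n) ^ (j + 1)) ^ 15 * (Nat.factorial n : ℝ) ^ 15) :=
          Finset.sum_le_sum fun S hS => Finset.sum_le_sum fun R hR => hterm S hS R hR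
      _ = (((n.choose (j + 1) : ℕ) : ℝ) * ((n.choose (11 * (j + 1)) : ℕ) : ℝ)
          * ((12 * ((j : ℝ) + 1) / n) ^ (j + 1)) ^ 15) * (Nat.factorial n : ℝ) ^ 15 := by
          rw [Finset.sum_const, Finset.sum_const, Finset.card_powersetCard,
            Finset.card_powersetCard, Finset.card_univ, Fintype.card_fin, nsmul_eq_mul,
            nsmul_eq_mul]
          ring
      _ ≤ _ := by
          have := term_le n j hn hj.2
          gcongr
  calc ((univ.filter fun σ : Fin 15 → Perm (Fin n) => ¬ LEGood n σ).card : ℝ)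
      ≤ ((J.biUnion fun j => (Finset.powersetCard (j + 1) (univ : Finset (Fin n))).biUnion fun S =>
        (Finset.powersetCard (11 * (j + 1)) (univ : Finset (Fin n))).biUnion fun R =>
          Fintype.piFinset (fun _ : Fin 15 => permInto S (S ∪ R))).card : ℝ) := by
        exact_mod_cast Finset.card_le_card hsub
    _ ≤ ∑ j ∈ J, (((Finset.powersetCard (j + 1) (univ : Finset (Fin n))).biUnion fun S =>
        (Finset.powersetCard (11 * (j + 1)) (univ : Finset (Fin n))).biUnion fun R =>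
          Fintype.piFinset (fun _ : Fin 15 => permInto S (S ∪ R))).card : ℝ) := by
        exact_mod_cast Finset.card_biUnion_le
    _ ≤ ∑ j ∈ J, (2 * 10 ^ 10 / (n : ℝ) ^ 3 * (1 / 2) ^ j) * (Nat.factorial n : ℝ) ^ 15 :=
        Finset.sum_le_sum hcard
    _ = (∑ j ∈ J, ((1 : ℝ) / 2) ^ j) * (2 * 10 ^ 10 / (n : ℝ) ^ 3 * (Nat.factorial n : ℝ) ^ 15) := by
        rw [Finset.sum_mul]
        apply Finset.sum_congr rfl
        intro j _; ring
    _ ≤ 2 * (2 * 10 ^ 10 / (n : ℝ) ^ 3 * (Nat.factorial n : ℝ) ^ 15) := by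
        have h1 : (∑ j ∈ J, ((1 : ℝ) / 2) ^ j) ≤ ∑' j : ℕ, ((1 : ℝ) / 2) ^ j :=
          summable_geometric_two.sum_le_tsum J (fun j _ => by positivity)
        rw [tsum_geometric_two] at h1
        gcongr
    _ = _ := by ring

open Classical in
/-- **C1.** For every `ε > 0` and all large `n`, at most `ε (n!)^15` tuples are not lossless
expanders. -/
theorem card_not_good_le_eps (ε : ℝ) (hε : 0 < ε) :
    ∃ N : ℕ, ∀ n : ℕ, N ≤ n →
      ((univ.filter fun σ : Fin 15 → Perm (Fin n) => ¬ LEGood n σ).card : ℝ)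
        ≤ ε * (Nat.factorial n : ℝ) ^ 15 := by
  obtain ⟨N, hN⟩ := exists_nat_gt (4 * 10 ^ 10 / ε)
  refine ⟨N + 1, fun n hn => ?_⟩
  have hn0 : 0 < n := by omega
  refine (card_not_good_le n hn0).trans ?_
  have hn1 : (1 : ℝ) ≤ n := by exact_mod_cast hn0
  have h1 : (4 * 10 ^ 10 / ε) ≤ n := by
    have : (N : ℝ) ≤ n := by exact_mod_cast (by omega : N ≤ n)
    linarith
  have h2 : (n : ℝ) ≤ (n : ℝ) ^ 3 := by
    nlinarith [mul_self_nonneg ((n : ℝ) - 1), mul_nonneg (sub_nonneg.2 hn1) (sub_nonneg.2 hn1)]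
  gcongr
  rw [div_le_iff₀ (by positivity)]
  rw [div_le_iff₀ hε] at h1
  nlinarith

end Union

section Final

/-- sets of at most `n / 10000` points expand by `12`. -/
def GoodExp (n : ℕ) (σ : Fin 15 → Perm (Fin n)) : Prop :=
  ∀ S : Finset (Fin n), (S.card : ℝ) ≤ n / 10000 →
    12 * S.card ≤ (S ∪ univ.biUnion fun i => S.image (σ i)).card

theorem goodExp_iff (n : ℕ) (σ : Fin 15 → Perm (Fin n)) : GoodExp n σ ↔ LEGood n σ := by
  unfold GoodExp LEGood
  refine forall_congr' fun S => ?_
  have h : (S.card : ℝ) ≤ n / 10000 ↔ 10000 * S.card ≤ n := by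
    rw [le_div_iff₀ (by norm_num)]
    constructor
    · intro h
      have : ((S.card * 10000 : ℕ) : ℝ) ≤ n := by push_cast; exact h
      have := Nat.cast_le.1 this
      omega
    · intro h
      have : S.card * 10000 ≤ n := by omega
      exact_mod_cast this
  rw [h]

open Classical in
/-- **C1**, explicit form: for every `n`, at most `1/25` of the tuples are bad. -/
theorem perm_expansion_count' (n : ℕ) :
    25 * (univ.filter fun σ : Fin 15 → Perm (Fin n) => ¬ GoodExp n σ).card
      ≤ (Nat.factorial n) ^ 15 := by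
  simp only [goodExp_iff]
  rcases lt_or_ge n 10000 with hn | hn
  · have : (univ.filter fun σ : Fin 15 → Perm (Fin n) => ¬ LEGood n σ) = ∅ := by
      rw [Finset.filter_eq_empty_iff]
      intro σ _
      push Not
      intro S hS
      have : S.card = 0 := by omega
      rw [this]; simp
    rw [this]; simp
  · have h1 := card_not_good_le n (by omega)
    have hn' : (10000 : ℝ) ≤ n := by exact_mod_cast hn
    have h2 : (4 * 10 ^ 10 / (n : ℝ) ^ 3) ≤ 1 / 25 := by
      rw [div_le_div_iff₀ (by positivity) (by norm_num)]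
      have : (10000 : ℝ) ^ 3 ≤ (n : ℝ) ^ 3 := by gcongr
      linarith
    have h3 : ((univ.filter fun σ : Fin 15 → Perm (Fin n) => ¬ LEGood n σ).card : ℝ)
        ≤ 1 / 25 * (Nat.factorial n : ℝ) ^ 15 :=
      h1.trans (mul_le_mul_of_nonneg_right h2 (by positivity))
    have h4 : ((25 * (univ.filter fun σ : Fin 15 → Perm (Fin n) => ¬ LEGood n σ).card : ℕ) : ℝ)
        ≤ (((Nat.factorial n) ^ 15 : ℕ) : ℝ) := by
      push_cast
      linarith
    exact_mod_cast h4

open Classical in
/-- **C1**, in the form asked for by the captain. -/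
theorem perm_expansion_count (n : ℕ) :
    2 * (univ.filter fun σ : Fin 15 → Perm (Fin n) => ¬ GoodExp n σ).card
      ≤ (Nat.factorial n) ^ 15 := by
  have := perm_expansion_count' n
  omega

end Final

end Crest.Agent.R191
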