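import Crest.Agent.R191.ThmIIA

/-!
# Row 191 (S0291), Theorem II : folds (helper111)
-/

set_option autoImplicit false
set_option linter.unusedSectionVars false

open MeasureTheory Set
open scoped ENNReal

namespace Crest.Agent.R191.ThmII

/-- merging two used labels drops the number of used labels by one -/
lemma card_image_merge {α β : Type*} [DecidableEq β] (K : Finset α) (f : α → β) {u v : β}
    (hu : u ∈ K.image f) (hv : v ∈ K.image f) (huv : u ≠ v) :
    (K.image (fun t => if f t = v then u else f t)).card + 1 = (K.image f).card := by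
  have : K.image (fun t => if f t = v then u else f t) = (K.image f).erase v := by
    ext b
    simp only [Finset.mem_image, Finset.mem_erase]
    constructor
    · rintro ⟨t, ht, rfl⟩
      by_cases h : f t = v
      · simp only [h, if_true]
        obtain ⟨a, ha, ha2⟩ := Finset.mem_image.1 hu
        exact ⟨huv, a, ha, ha2⟩
      · simp only [h, if_false]
        exact ⟨h, t, ht, rfl⟩
    · rintro ⟨hb, t, ht, rfl⟩
      exact ⟨t, ht, by simp [hb]⟩
  rw [this, Finset.card_erase_of_mem hv]
  have : 0 < (K.image f).card := Finset.card_pos.2 ⟨v, hv⟩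
  omega

section Fold

variable {B X : Type*} [Group B] [MulAction B X] {g : Fin 3 → B} [MeasurableSpace X]
  {T Ed : Type} [Fintype T] [Fintype Ed]

/-- the set where the fold really merges two labels -/
def foldSet (G : Data g X T Ed) (lab : Lab X T) (s : Bool) (U : Set X) (ε ε' : Ed) : Set X :=
  {x | x ∈ U ∧ G.dir ε = G.dir ε' ∧ x ∈ G.D ε s ∧ x ∈ G.D ε' s ∧
    lab (!s) (move g s (G.dir ε) x) (G.en ε (!s)) =
      lab (!s) (move g s (G.dir ε) x) (G.en ε' (!s)) ∧
    lab s x (G.en ε s) ≠ lab s x (G.en ε' s)}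

open Classical in
/-- fold at side `s` over `U` along the pair `ε, ε'` -/
noncomputable def fold (G : Data g X T Ed) (lab : Lab X T) (s : Bool) (U : Set X) (ε ε' : Ed) :
    Lab X T :=
  fun s' x t => if s' = s ∧ x ∈ foldSet G lab s U ε ε' ∧ lab s x t = lab s x (G.en ε' s)
    then lab s x (G.en ε s) else lab s' x t

variable (G : Data g X T Ed) (lab : Lab X T) (s : Bool) (U : Set X) (ε ε' : Ed)

lemma fold_not : fold G lab s U ε ε' (!s) = lab (!s) := by
  funext x t
  have : ¬ ((!s) = s) := by cases s <;> simp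
  simp [fold, this]

lemma fold_of_notMem {x : X} (h : x ∉ foldSet G lab s U ε ε') (s' : Bool) :
    fold G lab s U ε ε' s' x = lab s' x := by
  funext t
  simp [fold, h]

open Classical in
lemma fold_of_mem {x : X} (h : x ∈ foldSet G lab s U ε ε') :
    fold G lab s U ε ε' s x =
      fun t => if lab s x t = lab s x (G.en ε' s) then lab s x (G.en ε s) else lab s x t := by
  funext t
  simp [fold, h]

lemma fold_mono (s' : Bool) (x : X) (t t' : T) (h : lab s' x t = lab s' x t') :
    fold G lab s U ε ε' s' x t = fold G lab s U ε ε' s' x t' := by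
  by_cases hs : s' = s
  · subst hs
    unfold fold
    rw [h]
  · simp [fold, hs, h]

lemma fold_merge {x : X} (hU : x ∈ U) (hdir : G.dir ε = G.dir ε') (h1 : x ∈ G.D ε s)
    (h2 : x ∈ G.D ε' s)
    (h : lab (!s) (move g s (G.dir ε) x) (G.en ε (!s)) =
      lab (!s) (move g s (G.dir ε) x) (G.en ε' (!s))) :
    fold G lab s U ε ε' s x (G.en ε s) = fold G lab s U ε ε' s x (G.en ε' s) := by
  classical
  by_cases hne : lab s x (G.en ε s) = lab s x (G.en ε' s)
  · exact fold_mono G lab s U ε ε' s x _ _ hne
  · have hm : x ∈ foldSet G lab s U ε ε' := ⟨hU, hdir, h1, h2, h, hne⟩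
    rw [fold_of_mem G lab s U ε ε' hm]
    simp

/-- outside `U` nothing changes -/
lemma fold_of_notMem_U {x : X} (h : x ∉ U) (s' : Bool) :
    fold G lab s U ε ε' s' x = lab s' x :=
  fold_of_notMem G lab s U ε ε' (fun h' => h h'.1) s'

lemma Vset_fold_of_mem {x : X} (h : x ∈ foldSet G lab s U ε ε') :
    (Vset G Finset.univ (fold G lab s U ε ε') s x).card + 1 =
      (Vset G Finset.univ lab s x).card := by
  classical
  unfold Vset
  rw [fold_of_mem G lab s U ε ε' h]
  obtain ⟨-, -, h1, h2, -, h4⟩ := h
  exact card_image_merge _ _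
    (Finset.mem_image_of_mem _ (by simpa using G.D_Dom ε s x h1))
    (Finset.mem_image_of_mem _ (by simpa using G.D_Dom ε' s x h2)) h4

lemma Vset_fold_of_notMem {x : X} (h : x ∉ foldSet G lab s U ε ε') (K : Finset T) (s' : Bool) :
    Vset G K (fold G lab s U ε ε') s' x = Vset G K lab s' x := by
  unfold Vset
  rw [fold_of_notMem G lab s U ε ε' h]

lemma Vset_fold_not (K : Finset T) (x : X) :
    Vset G K (fold G lab s U ε ε') (!s) x = Vset G K lab (!s) x := by
  unfold Vset
  rw [fold_not]

lemma Eset_fold_of_notMem {x : X} (h : x ∉ foldSet G lab s U ε ε') (K : Finset Ed) (j : Fin 3) :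
    Eset G K (fold G lab s U ε ε') s j x = Eset G K lab s j x := by
  unfold Eset
  rw [fold_of_notMem G lab s U ε ε' h, fold_not]

open Classical in
lemma Eset_fold_of_mem {x : X} (h : x ∈ foldSet G lab s U ε ε') (K : Finset Ed) (j : Fin 3) :
    Eset G K (fold G lab s U ε ε') s j x = (Eset G K lab s j x).image
      (fun p => (if p.1 = lab s x (G.en ε' s) then lab s x (G.en ε s) else p.1, p.2)) := by
  unfold Eset
  rw [fold_of_mem G lab s U ε ε' h, fold_not, Finset.image_image]
  rfl

lemma Ecard_fold_of_mem {x : X} (h : x ∈ foldSet G lab s U ε ε') :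
    Ecard G Finset.univ (fold G lab s U ε ε') s x + 1 ≤ Ecard G Finset.univ lab s x := by
  classical
  unfold Ecard
  rw [← Finset.add_sum_erase _ _ (Finset.mem_univ (G.dir ε)),
    ← Finset.add_sum_erase (a := G.dir ε) _ _ (Finset.mem_univ (G.dir ε))]
  have h1 : (Eset G Finset.univ (fold G lab s U ε ε') s (G.dir ε) x).card + 1 ≤
      (Eset G Finset.univ lab s (G.dir ε) x).card := by
    rw [Eset_fold_of_mem G lab s U ε ε' h]
    obtain ⟨-, h0, h1, h2, h3, h4⟩ := h
    refine Nat.succ_le_of_lt (lt_of_le_of_ne Finset.card_image_le ?_)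
    intro hcard
    rw [Finset.card_image_iff] at hcard
    have hm1 : (lab s x (G.en ε s), lab (!s) (move g s (G.dir ε) x) (G.en ε (!s))) ∈
        Eset G Finset.univ lab s (G.dir ε) x :=
      Finset.mem_image.2 ⟨ε, by simp [h1], rfl⟩
    have hm2 : (lab s x (G.en ε' s), lab (!s) (move g s (G.dir ε) x) (G.en ε' (!s))) ∈
        Eset G Finset.univ lab s (G.dir ε) x :=
      Finset.mem_image.2 ⟨ε', by simp [h2, h0], rfl⟩
    have := hcard hm1 hm2 (by simp [h3])
    exact h4 (Prod.ext_iff.1 this).1
  have h2 : ∑ j ∈ Finset.univ.erase (G.dir ε),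
      (Eset G Finset.univ (fold G lab s U ε ε') s j x).card ≤
      ∑ j ∈ Finset.univ.erase (G.dir ε), (Eset G Finset.univ lab s j x).card := by
    refine Finset.sum_le_sum (fun j _ => ?_)
    rw [Eset_fold_of_mem G lab s U ε ε' h]
    exact Finset.card_image_le
  omega

lemma Ecard_fold_of_notMem {x : X} (h : x ∉ foldSet G lab s U ε ε') (K : Finset Ed) :
    Ecard G K (fold G lab s U ε ε') s x = Ecard G K lab s x := by
  unfold Ecard
  exact Finset.sum_congr rfl (fun j _ => by rw [Eset_fold_of_notMem G lab s U ε ε' h])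

variable {lab} {U}

lemma measurableSet_foldSet [MeasurableConstSMul B X] (hlab : MeasLab lab)
    (hU : MeasurableSet U) : MeasurableSet (foldSet G lab s U ε ε') := by
  have hm := (hlab (!s)).comp_meas (measurable_move (g := g) s (G.dir ε))
  refine FM.setOf (FM.and (FM.prop hU) (FM.and (FM.const _) (FM.and (FM.prop (G.D_meas ε s))
    (FM.and (FM.prop (G.D_meas ε' s)) (FM.and ?_ ?_)))))
  · exact FM.eq (hm.comp (fun f => f (G.en ε (!s)))) (hm.comp (fun f => f (G.en ε' (!s))))
  · exact FM.not (FM.eq ((hlab s).comp (fun f => f (G.en ε s)))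
      ((hlab s).comp (fun f => f (G.en ε' s))))

lemma MeasLab_fold [MeasurableConstSMul B X] (hlab : MeasLab lab)
    (hU : MeasurableSet U) : MeasLab (fold G lab s U ε ε') := by
  classical
  intro s'
  have h1 : FM (fun x => (x ∈ foldSet G lab s U ε ε', lab s x, lab s' x)) :=
    (FM.prop (measurableSet_foldSet G s ε ε' hlab hU)).prod ((hlab s).prod (hlab s'))
  exact h1.comp (fun p t => if s' = s ∧ p.1 ∧ p.2.1 t = p.2.1 (G.en ε' s)
    then p.2.1 (G.en ε s) else p.2.2 t)

variable (μ : Measure X)

/-- total number of edges -/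
noncomputable def Etot (lab : Lab X T) (s : Bool) (K : Finset Ed) : ℝ≥0∞ :=
  ∫⁻ x, (Ecard G K lab s x : ℝ≥0∞) ∂μ

/-- total number of vertices on side `s` -/
noncomputable def Vtot (lab : Lab X T) (s : Bool) (K : Finset T) : ℝ≥0∞ :=
  ∫⁻ x, ((Vset G K lab s x).card : ℝ≥0∞) ∂μ

variable {μ}

/-- the measure of a set as an integral of a natural number valued indicator -/
lemma lintegral_ite {S : Set X} (hS : MeasurableSet S) [DecidablePred (· ∈ S)] :
    ∫⁻ x, (((if x ∈ S then 1 else 0 : ℕ)) : ℝ≥0∞) ∂μ = μ S := by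
  have : ∀ x, (((if x ∈ S then 1 else 0 : ℕ)) : ℝ≥0∞) = S.indicator 1 x := by
    intro x
    by_cases h : x ∈ S <;> simp [h]
  simp_rw [this]
  exact lintegral_indicator_one hS

lemma Etot_swap [MeasurableConstSMul B X] (hpmp : ∀ b : B, MeasurePreserving (fun x : X => b • x) μ μ)
    (hlab : MeasLab lab) (K : Finset Ed) (s : Bool) :
    Etot G μ lab (!s) K = Etot G μ lab s K := by
  unfold Etot Ecard
  push_cast
  rw [lintegral_finsetSum _ (fun j _ => ((FM_Eset G K hlab (!s) j).comp
      (fun p => ((p.card : ℕ) : ℝ≥0∞))).measurable),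
    lintegral_finsetSum _ (fun j _ => ((FM_Eset G K hlab s j).comp
      (fun p => ((p.card : ℕ) : ℝ≥0∞))).measurable)]
  refine Finset.sum_congr rfl (fun j _ => ?_)
  have hm : MeasurePreserving (move g s j : X → X) μ μ := by
    cases s
    · exact hpmp _
    · exact hpmp _
  rw [← hm.lintegral_comp ((FM_Eset G K hlab (!s) j).comp
      (fun p => ((p.card : ℕ) : ℝ≥0∞))).measurable]
  simp_rw [Eset_swap]

lemma Etot_fold [MeasurableConstSMul B X]
    (hpmp : ∀ b : B, MeasurePreserving (fun x : X => b • x) μ μ)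
    (hlab : MeasLab lab) (hU : MeasurableSet U) (s' : Bool) :
    Etot G μ (fold G lab s U ε ε') s' Finset.univ + μ (foldSet G lab s U ε ε') ≤
      Etot G μ lab s' Finset.univ := by
  classical
  have key : Etot G μ (fold G lab s U ε ε') s Finset.univ + μ (foldSet G lab s U ε ε') ≤
      Etot G μ lab s Finset.univ := by
    rw [← lintegral_ite (measurableSet_foldSet G s ε ε' hlab hU)]
    unfold Etot
    rw [← lintegral_add_left (((FM_Ecard G Finset.univ (MeasLab_fold G s ε ε' hlab hU) s).comp
      (fun p => (p : ℝ≥0∞))).measurable)]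
    refine lintegral_mono (fun x => ?_)
    dsimp only
    by_cases h : x ∈ foldSet G lab s U ε ε'
    · have := Ecard_fold_of_mem G lab s U ε ε' h
      simp only [h, if_true]
      exact_mod_cast this
    · simp only [h, if_false]
      rw [Ecard_fold_of_notMem G lab s U ε ε' h]
      simp
  by_cases h : s' = s
  · subst h; exact key
  · have h2 : s' = !s := by cases s <;> cases s' <;> simp_all
    subst h2
    rw [Etot_swap G hpmp hlab, Etot_swap G hpmp (MeasLab_fold G s ε ε' hlab hU)]
    exact key

lemma Vtot_fold [MeasurableConstSMul B X] (hlab : MeasLab lab) (hU : MeasurableSet U) :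
    Vtot G μ (fold G lab s U ε ε') true Finset.univ +
      Vtot G μ (fold G lab s U ε ε') false Finset.univ + μ (foldSet G lab s U ε ε') =
      Vtot G μ lab true Finset.univ + Vtot G μ lab false Finset.univ := by
  classical
  have key : Vtot G μ (fold G lab s U ε ε') s Finset.univ + μ (foldSet G lab s U ε ε') =
      Vtot G μ lab s Finset.univ := by
    rw [← lintegral_ite (measurableSet_foldSet G s ε ε' hlab hU)]
    unfold Vtot
    rw [← lintegral_add_left (((FM_Vset G Finset.univ (MeasLab_fold G s ε ε' hlab hU) s).comp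
      (fun p => (p.card : ℝ≥0∞))).measurable)]
    refine lintegral_congr (fun x => ?_)
    by_cases h : x ∈ foldSet G lab s U ε ε'
    · have := Vset_fold_of_mem G lab s U ε ε' h
      simp only [h, if_true]
      exact_mod_cast this
    · simp only [h, if_false]
      rw [Vset_fold_of_notMem G lab s U ε ε' h]
      simp
  have key2 : Vtot G μ (fold G lab s U ε ε') (!s) Finset.univ = Vtot G μ lab (!s) Finset.univ := by
    unfold Vtot
    simp_rw [Vset_fold_not]
  cases s
  · simp only [Bool.not_false] at key2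
    rw [add_assoc, key, key2]
  · simp only [Bool.not_true] at key2
    rw [add_right_comm, key, key2]

end Fold

end Crest.Agent.R191.ThmII
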