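import Crest.Agent.R191.IIDefs
import Crest.Agent.R191.CheapAmalgam

/-!
# Row 191, T18: the upper bound
-/

set_option autoImplicit false

namespace Crest.Agent.R191

open MeasureTheory Crest.Dynamics

theorem upper {Γ X : Type} [Group Γ] [MulAction Γ X] [MeasurableSpace X] [StandardBorelSpace X]
    {μ : Measure X} [IsProbabilityMeasure μ] (hact : IsFreePMPAction Γ X μ)
    (ι : F2 →* Γ) (z : Γ) (hcomm : ∀ e ∈ EF, z * ι e = ι e * z)
    (htop : Subgroup.closure (insert z (Set.range ι)) = ⊤)
    (φ : Γ →* Multiplicative ℤ) (ha : φ (ι la) = Multiplicative.ofAdd 1)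
    (hb : φ (ι lb) = Multiplicative.ofAdd 2) (hz : φ z = Multiplicative.ofAdd 1)
    (M : ℕ) (hM : 100 < M) :
    ∃ (Y : Type) (_ : MeasurableSpace Y) (_ : StandardBorelSpace Y) (ν : Measure Y)
      (_ : IsProbabilityMeasure ν) (_ : MulAction Γ Y),
      IsFreePMPAction Γ Y ν ∧ actionCost Γ Y ν ≤ 1 + 99 / (M : ENNReal) := by
  refine Cheap.cheap_of_data μ hact (ι la) (ι lb) z ?_ ?_ ?_
    (fun M => ((Int.castAddHom (ZMod M)).toMultiplicative).comp φ) ?_ ?_ ?_ M hM
  · have := hcomm (la * lb) (Subgroup.subset_closure (by simp))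
    simpa using this
  · have := hcomm (lb * la⁻¹ * lb) (Subgroup.subset_closure (by simp))
    simpa using this
  · rw [eq_top_iff, ← htop, Subgroup.closure_le]
    set L : Subgroup Γ := Subgroup.closure ({ι la, ι lb, z} : Set Γ) with hL
    have hle : ι.range ≤ L := by
      have h1 : Subgroup.closure (Set.range (FreeGroup.of : Fin 2 → F2)) = ⊤ :=
        FreeGroup.closure_range_of (Fin 2)
      rw [MonoidHom.range_eq_map, ← h1, MonoidHom.map_closure, Subgroup.closure_le]
      rintro _ ⟨_, ⟨i, rfl⟩, rfl⟩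
      fin_cases i
      · exact Subgroup.subset_closure (by simp [la])
      · exact Subgroup.subset_closure (by simp [lb])
    rintro x (rfl | ⟨g, rfl⟩)
    · exact Subgroup.subset_closure (by simp)
    · exact hle ⟨g, rfl⟩
  · intro M
    simp [MonoidHom.comp_apply, ha]
  · intro M
    simp [MonoidHom.comp_apply, hb]
  · intro M
    simp [MonoidHom.comp_apply, hz]

end Crest.Agent.R191
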